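import Vale.Agent.P080.C1.Iface
import Mathlib.Analysis.Calculus.ContDiff.Convolution
import Mathlib.MeasureTheory.Measure.Haar.NormedSpace
import Mathlib.MeasureTheory.Measure.Haar.Unique

/-!
# The improvement step from the four modules
-/

namespace Vale.Agent.P080.C1

open scoped ContDiff Topology RealInnerProductSpace
open Set Filter MeasureTheory Metric

namespace Assemble

lemma abs_moll_sub_le {v : E3 → ℝ} {L : NNReal} (hv : LipschitzWith L v) {η : ℝ} (hη : 0 ≤ η)
    (x : E3) : |moll η v x - v x| ≤ L * η := by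
  have hc : Continuous fun y => v (x - η • y) := hv.continuous.comp (by fun_prop)
  have hi1 : Integrable (fun y => bump0.normed volume y * v (x - η • y)) :=
    (bump0.continuous_normed.mul hc).integrable_of_hasCompactSupport
      bump0.hasCompactSupport_normed.mul_right
  have hi2 : Integrable (fun y => bump0.normed volume y * v x) :=
    bump0.integrable_normed.mul_const _
  have h2 : ∫ y, bump0.normed volume y * v x = v x := by
    rw [integral_mul_const, bump0.integral_normed, one_mul]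
  have h3 : moll η v x - v x = ∫ y, bump0.normed volume y * (v (x - η • y) - v x) := by
    simp_rw [mul_sub]
    rw [integral_sub hi1 hi2, h2]
    rfl
  rw [h3, ← Real.norm_eq_abs]
  calc ‖∫ y, bump0.normed volume y * (v (x - η • y) - v x)‖ ≤ ∫ y, bump0.normed volume y * ((L : ℝ) * η) := by
        refine norm_integral_le_of_norm_le (bump0.integrable_normed.mul_const _)
          (Eventually.of_forall fun y => ?_)
        rw [norm_mul, Real.norm_of_nonneg (bump0.nonneg_normed y)]
        rcases eq_or_ne (bump0.normed volume y) 0 with h | h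
        · simp [h]
        · refine mul_le_mul_of_nonneg_left ?_ (bump0.nonneg_normed y)
          have hy : y ∈ Function.support (bump0.normed volume) := h
          rw [bump0.support_normed_eq, mem_ball_zero_iff] at hy
          have hy1 : ‖y‖ ≤ 1 := hy.le.trans le_rfl
          calc ‖v (x - η • y) - v x‖ ≤ L * ‖x - η • y - x‖ := hv.norm_sub_le _ _
            _ = L * (η * ‖y‖) := by simp [norm_smul, abs_of_nonneg hη]
            _ ≤ L * (η * 1) := by gcongr
            _ = L * η := by rw [mul_one]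
    _ = L * η := by rw [integral_mul_const, bump0.integral_normed, one_mul]

lemma contDiff_moll {v : E3 → ℝ} (hv : Continuous v) {η : ℝ} (hη : 0 < η) :
    ContDiff ℝ ∞ (moll η v) := by
  have hs : ContDiff ℝ ∞ (fun y => bump0.normed volume (η⁻¹ • y)) :=
    bump0.contDiff_normed.comp (contDiff_const_smul _)
  have hcpt : HasCompactSupport (fun y => bump0.normed volume (η⁻¹ • y)) :=
    bump0.hasCompactSupport_normed.comp_smul (inv_ne_zero hη.ne')
  have key : moll η v = fun x =>
      (η ^ 3)⁻¹ * convolution (fun y => bump0.normed volume (η⁻¹ • y)) v (ContinuousLinearMap.mul ℝ ℝ) volume x := by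
    funext x
    rw [convolution_def]
    simp only [ContinuousLinearMap.mul_apply']
    have h := MeasureTheory.Measure.integral_comp_smul (μ := volume)
      (fun y : E3 => bump0.normed volume y * v (x - η • y)) η⁻¹
    simp only [inv_pow, inv_inv, smul_smul, mul_inv_cancel₀ hη.ne', one_smul,
      finrank_euclideanSpace, Fintype.card_fin, smul_eq_mul, abs_pow, abs_of_pos hη] at h
    rw [h, ← mul_assoc, inv_mul_cancel₀ (pow_ne_zero _ hη.ne'), one_mul]
    rfl
  rw [key]
  exact contDiff_const.mul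
    (hcpt.contDiff_convolution_left _ hs hv.locallyIntegrable)

lemma Pre.mono {A B δ δ' lam : ℝ} {u : E3 → ℝ} (h : Pre A δ lam u) (hAB : A ≤ B) (hδ : δ ≤ δ')
    (hδ0 : 0 ≤ δ) (hlam : 0 ≤ lam) : Pre B δ' lam u where
  smooth := h.smooth
  flat := h.flat
  slope3 x hx := (h.slope3 x hx).trans (mul_le_mul_of_nonneg_right hδ (Real.sqrt_nonneg _))
  slopeLat x hx := (h.slopeLat x hx).trans (pow_le_pow_left₀ hδ0 hδ 2)
  upper x hx := (h.upper x hx).trans (mul_le_mul_of_nonneg_right hAB hlam)
  tilt x hx := (h.tilt x hx).trans (mul_le_mul_of_nonneg_right hAB hlam)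

lemma isClosed_strip (c r : ℝ) : IsClosed {x : E3 | |x 2| ≤ c ∧ lat x ≤ r} := by
  have h : Continuous fun x : E3 => |x 2| := by fun_prop
  exact (isClosed_le h continuous_const).inter (isClosed_le continuous_lat continuous_const)

lemma isBounded_strip (c r : ℝ) : Bornology.IsBounded {x : E3 | |x 2| ≤ c ∧ lat x ≤ r} := by
  refine (isBounded_closedBall (x := (0 : E3)) (r := |c| + |r|)).subset fun x hx => ?_
  rw [mem_closedBall, dist_zero_right]
  have h3 : ‖x‖ ≤ lat x + |x 2| := by
    refine le_of_pow_le_pow_left₀ two_ne_zero (add_nonneg (lat_nonneg x) (abs_nonneg _)) ?_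
    rw [norm_sq_eq_lat, add_sq, lat, Real.sq_sqrt (latSq_nonneg x), sq_abs]
    have := mul_nonneg (Real.sqrt_nonneg (latSq x)) (abs_nonneg (x 2))
    linarith
  have := hx.1.trans (le_abs_self c)
  have := hx.2.trans (le_abs_self r)
  linarith

lemma isCompact_mbox (lam : ℝ) : IsCompact (mbox lam) :=
  Metric.isCompact_of_isClosed_isBounded (isClosed_strip _ _) (isBounded_strip _ _)

lemma mbox_subset_wbox {lam : ℝ} (hlam : 0 < lam) : mbox lam ⊆ wbox lam := fun x hx =>
  ⟨lt_of_le_of_lt hx.1 (by norm_num),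
    lt_of_le_of_lt hx.2 (mul_lt_mul_of_pos_right (by norm_num) (Real.sqrt_pos.2 hlam))⟩

lemma kbox_subset_mbox {lam : ℝ} : kbox lam ⊆ mbox lam := fun x hx =>
  ⟨hx.1.trans (by norm_num),
    hx.2.trans (mul_le_mul_of_nonneg_right (by norm_num) (Real.sqrt_nonneg _))⟩

lemma wbox_subset_box {lam : ℝ} : wbox lam ⊆ box lam := fun x hx =>
  ⟨hx.1.le.trans (by norm_num),
    hx.2.le.trans (mul_le_mul_of_nonneg_right (by norm_num [R0]) (Real.sqrt_nonneg _))⟩

lemma eventually_le_zero_nhdsWithin {c : ℝ} (hc : 0 < c) :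
    ∀ᶠ x in 𝓝[>] (0 : ℝ), x ≤ c :=
  eventually_nhdsWithin_of_eventually_nhds (eventually_le_nhds hc)

end Assemble

open Assemble in
/-- the improvement step -/
theorem stepHyp_of_modules (hC : CompareOut) (hB : BernsteinOut) (hE : EnergyOut)
    (hR : GoodOut) : StepHyp := by
  obtain ⟨CB, δB, hCB, hδB, hB⟩ := hB
  obtain ⟨CE, δE, hCE, hδE, hE⟩ := hE CB
  obtain ⟨A', δR, ρmin, N, hA', hδR, hρmin, hN, hR⟩ :=
    hR (max CB (CE + 1)) (1 / 128) (by norm_num)
  set w0 := min 1 (ρmin / 256) with hw0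
  have hw0pos : 0 < w0 := lt_min one_pos (by positivity)
  obtain ⟨Λ, lam0, hΛ, hlam0, hC⟩ := hC w0 hw0pos
  set δ := min δE δR with hδdef
  have hδ : 0 < δ := lt_min hδE hδR
  set lam1 := min (min lam0 (min δB δ)) (min (min (δB / Λ) (δB / Λ ^ 2))
    (min ((δ / Λ) ^ 2) (δ ^ 2 / Λ ^ 2))) with hlam1
  have hlam1pos : 0 < lam1 := by simp only [hlam1, lt_min_iff]; refine ⟨⟨hlam0, hδB, hδ⟩, ⟨?_, ?_⟩, ?_, ?_⟩ <;> positivity
  refine ⟨A', lam1, ρmin, N, hA', hlam1pos, hρmin, hN, fun lam u hlam hle hconf P hP => ?_⟩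
  simp only [hlam1, le_min_iff] at hle
  obtain ⟨⟨hl0, hlB, hlδ⟩, ⟨hl1, hl2⟩, hl3, hl4⟩ := hle
  rw [le_div_iff₀ hΛ] at hl1
  rw [le_div_iff₀ (by positivity)] at hl2 hl4
  have hl5 : Λ * lam ≤ δ * Real.sqrt lam := by
    have h := Real.sqrt_le_sqrt hl3
    rw [Real.sqrt_sq (by positivity), le_div_iff₀ hΛ] at h
    calc Λ * lam = (Real.sqrt lam * Λ) * Real.sqrt lam := by
          rw [mul_comm (Real.sqrt lam) Λ, mul_assoc, Real.mul_self_sqrt hlam.le]
      _ ≤ δ * Real.sqrt lam := mul_le_mul_of_nonneg_right h (Real.sqrt_nonneg _)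
  obtain ⟨v, hv⟩ := hC lam u hlam hl0 hconf
  obtain ⟨_, _, _, _, hflat⟩ := hconf
  obtain ⟨ε, ⟨hsol, hclose, hgrad⟩, hε1, hε2⟩ := (hv.and
    ((eventually_le_zero_nhdsWithin (mul_pos hδR hlam)).and
      (eventually_le_zero_nhdsWithin hlam))).exists
  have hεpos : 0 < ε := hsol.pos
  obtain ⟨K, hE⟩ := hE lam ε hlam (hlδ.trans (min_le_left _ _)) hεpos hε2
  have hδlam : lam ≤ δR := hlδ.trans (min_le_right _ _)
  have hu2 : ∀ x ∈ wbox lam, |v ε x - x 2| ≤ 2 * lam := fun x hx => by
    have h1 := hclose x hx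
    have h2 := hflat x (wbox_subset_box hx)
    have h3 : w0 * lam ≤ 1 * lam := mul_le_mul_of_nonneg_right (min_le_left _ _) hlam.le
    have := abs_add_le (v ε x - u x) (u x - x 2)
    rw [sub_add_sub_cancel] at this
    linarith
  have hBev := hB lam ε (v ε) hlam hlB hε2 hsol hu2 fun S hS hSU =>
    (hgrad S hS hSU).mono fun η h x hx =>
      ⟨((h x hx).1).trans (by linarith), ((h x hx).2).trans (by linarith)⟩
  have hmw := mbox_subset_wbox hlam
  have hmc := isCompact_mbox lam
  obtain ⟨H, hH⟩ := hsol.hess _ hmc hmw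
  have hres := hsol.res_tendsto _ hmc hmw
  have hres2 : Tendsto (fun η => K * Real.sqrt (∫ x in mbox lam, res ε (moll η (v ε)) x ^ 2) *
      (1 + Real.sqrt H)) (𝓝[>] (0 : ℝ)) (𝓝 0) := by
    have := ((hres.sqrt).const_mul |K|).mul_const (1 + Real.sqrt H)
    simp only [Real.sqrt_zero, mul_zero, zero_mul] at this
    refine squeeze_zero_norm (fun η => ?_) this
    have h0 : (0 : ℝ) ≤ 1 + Real.sqrt H := by positivity
    rw [norm_mul, norm_mul, Real.norm_of_nonneg (Real.sqrt_nonneg _),
      Real.norm_of_nonneg h0, Real.norm_eq_abs]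
  obtain ⟨L, hL⟩ := hsol.lip
  have hwlam : 0 < w0 * lam / (L + 1) := by positivity
  have hev : ∀ᶠ η in 𝓝[>] (0 : ℝ),
      Pre (max CB (CE + 1)) δR lam (moll η (v ε)) ∧
        energy lam ε (moll η (v ε)) ≤ max CB (CE + 1) * lam ^ 2 := by
    filter_upwards [eventually_mem_nhdsWithin, hgrad _ hmc hmw, hBev, hH,
      hres2.eventually (Iic_mem_nhds (show (0 : ℝ) < lam ^ 2 by positivity)),
      eventually_le_zero_nhdsWithin hwlam] with η hη0 hgradη hBη hHη hKη hηsmall
    replace hη0 : 0 < η := hη0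
    set g := moll η (v ε) with hg
    have hgv : ∀ x, |g x - v ε x| ≤ w0 * lam := fun x => by
      refine (abs_moll_sub_le hL hη0.le x).trans ?_
      calc (L : ℝ) * η ≤ (L + 1) * (w0 * lam / (L + 1)) :=
            mul_le_mul (le_add_of_nonneg_right zero_le_one) hηsmall hη0.le (by positivity)
        _ = w0 * lam := by field_simp
    have hpre : Pre CB δ lam g := by
      refine ⟨contDiff_moll hL.continuous hη0, fun x hx => ?_, fun x hx => ?_, fun x hx => ?_,
        fun x hx => (hBη x hx).1, fun x hx => (hBη x hx).2⟩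
      · have h1 := hgv x
        have h2 := hu2 x (hmw hx)
        have h3 : w0 * lam ≤ 1 * lam := mul_le_mul_of_nonneg_right (min_le_left _ _) hlam.le
        have := abs_add_le (g x - v ε x) (v ε x - x 2)
        rw [sub_add_sub_cancel] at this
        linarith
      · exact ((hgradη x hx).1).trans hl5
      · exact ((hgradη x hx).2).trans (by linarith)
    have hen : energy lam ε g ≤ (CE + 1) * lam ^ 2 := by
      refine (hE g (Pre.mono hpre le_rfl (min_le_left _ _) hδ.le hlam.le)).trans ?_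
      have hsq : Real.sqrt (∫ x in mbox lam, hessSq g x) ≤ Real.sqrt H := Real.sqrt_le_sqrt hHη
      have habs : K * Real.sqrt (∫ x in mbox lam, res ε g x ^ 2) *
          (1 + Real.sqrt (∫ x in mbox lam, hessSq g x)) ≤ lam ^ 2 := by
        rcases le_or_gt 0 K with hK | hK
        · exact le_trans (mul_le_mul_of_nonneg_left (by linarith)
            (mul_nonneg hK (Real.sqrt_nonneg _))) hKη
        · refine le_trans (mul_nonpos_of_nonpos_of_nonneg ?_ (by positivity)) (by positivity)
          exact mul_nonpos_of_nonpos_of_nonneg hK.le (Real.sqrt_nonneg _)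
      linarith
    exact ⟨Pre.mono hpre (le_max_left _ _) (min_le_right _ _) hδ.le hlam.le,
      hen.trans (mul_le_mul_of_nonneg_right (le_max_right _ _) (by positivity))⟩
  obtain ⟨i, a, b, ρ, hρ, hρA, ha2, hal, hz⟩ :=
    hR lam ε hlam hδlam hεpos hε1 (v ε) hsol hev P hP
  refine ⟨i, a, b, ρ, hρ, hρA, ha2, hal, fun z hzc => ?_⟩
  obtain ⟨hzk, hzl⟩ := hz z hzc
  have hzw := hmw (kbox_subset_mbox hzk)
  refine ⟨wbox_subset_box hzw, ?_⟩
  have h1 := hclose z hzw
  have h3 : w0 * lam ≤ ρ / 256 * lam :=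
    mul_le_mul_of_nonneg_right ((min_le_right _ _).trans (by linarith)) hlam.le
  rw [abs_sub_comm] at h1
  have h4 := abs_sub_le (u z) (v ε z) (⟪a, z⟫ + b)
  nlinarith

end Vale.Agent.P080.C1
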