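import Vale.Agent.P080.Defs
import Mathlib.Analysis.Calculus.ContDiff.Defs
import Mathlib.Analysis.Calculus.BumpFunction.Normed
import Mathlib.Analysis.Calculus.BumpFunction.InnerProduct
import Mathlib.MeasureTheory.Measure.Haar.InnerProductSpace
import Mathlib.MeasureTheory.Integral.Bochner.Set

/-!
# Common definitions for the three-dimensional gradient estimate
-/

namespace Vale.Agent.P080.C1

open scoped ContDiff Topology RealInnerProductSpace
open Set Filter MeasureTheory

abbrev E3 := E 3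

/-- the vertical unit vector -/
noncomputable def e3 : E3 := EuclideanSpace.single 2 1

/-- the gradient as a vector -/
noncomputable def grad (u : E3 → ℝ) (x : E3) : E3 := WithLp.toLp 2 fun i => pd i u x

/-- second partial derivatives -/
noncomputable def pd2 (i j : Fin 3) (u : E3 → ℝ) (x : E3) : ℝ := pd i (pd j u) x

/-- `|Du|²` -/
noncomputable def gsq (u : E3 → ℝ) (x : E3) : ℝ := ∑ i, pd i u x ^ 2

/-- the Laplacian -/
noncomputable def trH (u : E3 → ℝ) (x : E3) : ℝ := ∑ i, pd2 i i u x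

/-- `|D²u|²` -/
noncomputable def hessSq (u : E3 → ℝ) (x : E3) : ℝ := ∑ i, ∑ j, pd2 i j u x ^ 2

/-- the second elementary symmetric function of the Hessian -/
noncomputable def sig2 (u : E3 → ℝ) (x : E3) : ℝ := (trH u x ^ 2 - hessSq u x) / 2

/-- `q = D²u Du` -/
noncomputable def qv (i : Fin 3) (u : E3 → ℝ) (x : E3) : ℝ := ∑ j, pd2 i j u x * pd j u x

/-- residual of the regularised equation `ε Δu + Δ∞ u = 0` -/
noncomputable def res (ε : ℝ) (u : E3 → ℝ) (x : E3) : ℝ := ε * trH u x + infLap u x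

/-- squared lateral length -/
def latSq (x : E3) : ℝ := x 0 ^ 2 + x 1 ^ 2

/-- squared lateral part of the gradient -/
noncomputable def pLatSq (u : E3 → ℝ) (x : E3) : ℝ := pd 0 u x ^ 2 + pd 1 u x ^ 2

/-- `2F + G/2` in unscaled variables: `|Du|² - u₃/2 - 1/2` -/
noncomputable def gTilt (u : E3 → ℝ) (x : E3) : ℝ := gsq u x - pd 2 u x / 2 - 1 / 2

/-- closed cylinder of lateral radius `ρ` and half height `h` -/
def cyl (ρ h : ℝ) (c : E3) : Set E3 := {x | |(x - c) 2| ≤ h ∧ latSq (x - c) ≤ ρ ^ 2}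

/-- fixed mollifier -/
noncomputable def bump0 : ContDiffBump (0 : E3) := ⟨1 / 2, 1, by norm_num, by norm_num⟩

/-- mollification at radius `η` -/
noncomputable def moll (η : ℝ) (v : E3 → ℝ) (x : E3) : ℝ :=
  ∫ y, bump0.normed volume y * v (x - η • y)

/-- Lipschitz strong solutions: the mollifications have locally bounded Hessian in `L²` and their
residual in the regularised equation tends to zero in `L²`. -/
structure Sol0 (ε : ℝ) (U : Set E3) (v : E3 → ℝ) : Prop where
  isOpen : IsOpen U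
  pos : 0 < ε
  lip : ∃ L, LipschitzWith L v
  hess : ∀ K, IsCompact K → K ⊆ U →
    ∃ C, ∀ᶠ η in 𝓝[>] (0 : ℝ), ∫ x in K, hessSq (moll η v) x ≤ C
  res_tendsto : ∀ K, IsCompact K → K ⊆ U →
    Tendsto (fun η => ∫ x in K, res ε (moll η v) x ^ 2) (𝓝[>] (0 : ℝ)) (𝓝 0)

/-- `Sol0` with continuous gradient. -/
structure Sol (ε : ℝ) (U : Set E3) (v : E3 → ℝ) : Prop extends Sol0 ε U v where
  c1 : ContDiffOn ℝ 1 v U

end Vale.Agent.P080.C1
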