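import Vale.Agent.P080.C1.Bernstein.Bound
import Vale.Agent.P080.C1.Approx.Moll

/-!
# Bernstein bounds for Lipschitz strong solutions: `BernsteinOut`

The weighted weak maximum principle gives the bound almost everywhere for `Dv`; Jensen's inequality
transfers it to every mollification.
-/

namespace Vale.Agent.P080.C1

open scoped ContDiff Topology RealInnerProductSpace NNReal Gradient
open Set Filter MeasureTheory

namespace Bernstein

lemma continuous_gJ (α β : ℝ) : Continuous fun p : Fin 3 → ℝ => gJ α β p := by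
  unfold gJ; fun_prop

lemma Pv_eq_gradient (v : E3 → ℝ) (x : E3) : Pv v x = fun i => (∇ v x) i := by
  funext i
  rw [← inner_single (∇ v x) i, Approx.inner_gradient]
  rfl

lemma ae_le {Cz K lam ε α β k : ℝ} (hab : α = 1 ∧ β = 0 ∨ α = 2 ∧ β = -1 / 2) (hCz : 1 ≤ Cz)
    (hcut : ∀ x, (∀ i, |pd i (cut lam) x| * sigma lam i ≤ Cz) ∧
      ∀ i j, |pd2 i j (cut lam) x| * sigma lam i * sigma lam j ≤ Cz)
    (hK : 20 * (100000 * Cz ^ 2) ^ 2 ≤ K) (hlam : 0 < lam) (hlam1 : lam ≤ 1) (hε : ε ≤ lam)
    (hk : k = (9 * K + 400 * (100000 * Cz ^ 2) ^ 2 * K + 4) * lam)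
    {v : E3 → ℝ} (hsol : Sol0 ε (wbox lam) v) (hflat : ∀ x ∈ wbox lam, |v x - x 2| ≤ 2 * lam)
    (hslope : ∀ S, IsCompact S → S ⊆ wbox lam → ∀ᶠ η in 𝓝[>] (0 : ℝ), ∀ x ∈ S,
      |pd 2 (moll η v) x - 1| ≤ 1 / 16 ∧ pLatSq (moll η v) x ≤ 1 / 16) :
    ∀ᵐ x, x ∈ obox lam → gJ α β (Pv v x) ≤ k := by
  obtain ⟨L, hL⟩ := hsol.lip
  have hε0 := hsol.pos
  have hK0 : 0 ≤ K := le_trans (by positivity) hK
  have hk0 : 0 ≤ k := by rw [hk]; positivity
  set S := sbox lam with hS
  have hSc : IsCompact S := isCompact_sbox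
  have hSU : S ⊆ wbox lam := sbox_subset_wbox hlam
  set c := 100000 * Cz ^ 2 * K * (1 + 1 / Real.sqrt lam) with hc
  have hc0 : 0 ≤ c := by positivity
  obtain ⟨M, hM0, hM⟩ := exists_err_bound (Cz := Cz) (K := K) (ε := ε) hab hCz (fun x => (hcut x).1)
    hK0 hlam hlam1 hε0 k c hc0
  obtain ⟨CH, hCH⟩ := hsol.hess S hSc hSU
  set m := volume.real S with hm
  have hm0 : 0 ≤ m := measureReal_nonneg
  have hwe : ∀ᶠ η in 𝓝[>] (0 : ℝ), ∀ x ∈ S, |wfun (moll η v) x| ≤ 3 * lam := by
    have hη : ∀ᶠ η : ℝ in 𝓝[>] 0, η < lam / (L + 1) :=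
      nhdsWithin_le_nhds (eventually_lt_nhds (by positivity))
    filter_upwards [hη, self_mem_nhdsWithin] with η h1 h2 x hx
    have h3 := Approx.abs_moll_sub_le (mem_Ioi.1 h2) hL x
    have h4 : (L : ℝ) * η ≤ lam := by
      have := (lt_div_iff₀ (by positivity)).1 h1
      nlinarith [mem_Ioi.1 h2]
    calc |wfun (moll η v) x| = |(moll η v x - v x) + (v x - x 2)| := by rw [wfun]; congr 1; ring
      _ ≤ _ := (abs_add_le _ _).trans (by linarith [hflat x (hSU hx)])
  -- the weak maximum principle in the limit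
  set ψ : ℝ → E3 → ℝ := fun η => psi K lam α β k (moll η v) with hψ
  have hgood : ∀ᶠ η in 𝓝[>] (0 : ℝ), 0 < η ∧ ContDiff ℝ ∞ (moll η v) ∧
      ∀ x ∈ S, |pd 2 (moll η v) x - 1| ≤ 1 / 16 ∧ pLatSq (moll η v) x ≤ 1 / 16 ∧
        |wfun (moll η v) x| ≤ 3 * lam := by
    filter_upwards [hslope S hSc hSU, hwe, self_mem_nhdsWithin] with η h1 h2 h3
    exact ⟨h3, Approx.contDiff_moll h3 hL, fun x hx => ⟨(h1 x hx).1, (h1 x hx).2, h2 x hx⟩⟩
  have hzero : Tendsto (fun η => ∫ x, ψ η x) (𝓝[>] 0) (𝓝 0) := by
    rw [Metric.tendsto_nhds]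
    intro e he
    set T := 2 * m + 2 * |CH| + 1 with hT
    have hT0 : 0 < T := by positivity
    set τ := e * lam / (2 * (M + 1) * T) with hτ
    have hτ0 : 0 < τ := by positivity
    have hR : ∀ᶠ η in 𝓝[>] (0 : ℝ), ∫ x in S, res ε (moll η v) x ^ 2 < τ * (τ * T) :=
      (hsol.res_tendsto S hSc hSU).eventually (eventually_lt_nhds (by positivity))
    filter_upwards [hgood, hCH, hR] with η ⟨hη, hu, hg⟩ hH hr
    obtain ⟨hψi, hw⟩ := weak (Cz := Cz) hab hCz hcut hK hlam hlam1 hε0 hε hk hu hg
    have hpt : ∀ x, |res ε (moll η v) x| * err K lam α β k ε c (moll η v) x ≤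
        S.indicator (fun y => M * (res ε (moll η v) y ^ 2 / τ + τ * (2 + 2 * hessSq (moll η v) y))) x := by
      intro x
      by_cases hx : x ∈ S
      · rw [indicator_of_mem hx]
        obtain ⟨g1, g2, g3⟩ := hg x hx
        obtain ⟨e0, e1⟩ := hM (moll η v) x hu g1 g2 g3
        refine (mul_le_mul_of_nonneg_left e1 (abs_nonneg _)).trans ?_
        rw [mul_left_comm]
        refine mul_le_mul_of_nonneg_left ?_ hM0
        have hN : (1 + Real.sqrt (hessSq (moll η v) x)) ^ 2 ≤ 2 + 2 * hessSq (moll η v) x := by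
          have h0 : 0 ≤ hessSq (moll η v) x :=
            Finset.sum_nonneg fun i _ => Finset.sum_nonneg fun j _ => sq_nonneg _
          linarith [Real.sq_sqrt h0, sq_nonneg (1 - Real.sqrt (hessSq (moll η v) x))]
        refine le_trans ?_ (add_le_add le_rfl (mul_le_mul_of_nonneg_left hN hτ0.le))
        rw [← sq_abs (res ε (moll η v) x)]
        set a := |res ε (moll η v) x|
        set b := 1 + Real.sqrt (hessSq (moll η v) x)
        have : a ^ 2 / τ + τ * b ^ 2 - a * b = ((a - τ * b) ^ 2 + τ * a * b) / τ := by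
          field_simp; ring
        have : 0 ≤ ((a - τ * b) ^ 2 + τ * a * b) / τ := by positivity
        linarith
      · rw [indicator_of_notMem hx]
        have hz : ∀ j, pd j (fld K lam α β k ε (moll η v) j) x = 0 := fun j => by
          have : x ∉ tsupport (fld K lam α β k ε (moll η v) j) := fun h' => hx
            ((closure_minimal (show Function.support (fld K lam α β k ε (moll η v) j) ⊆ sbox lam from
              fun y hy => by_contra fun hy' => hy (by simp [fld, psi_eq_zero hlam hk0 hy']))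
              isCompact_sbox.isClosed) h')
          rw [pd, fderiv_of_notMem_tsupport ℝ this]
          rfl
        simp [err, hz, psi_eq_zero hlam hk0 hx]
    have hq : ContDiff ℝ ∞ (res ε (moll η v)) := contDiff_res ε hu
    have hh : Continuous (hessSq (moll η v)) := by
      unfold hessSq pd2
      exact continuous_finsetSum _ fun i _ => continuous_finsetSum _ fun j _ =>
        ((contDiff_pd (contDiff_pd hu j) i).continuous).pow 2
    have hI1 : IntegrableOn (fun y => res ε (moll η v) y ^ 2) S :=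
      (hq.continuous.pow 2).continuousOn.integrableOn_compact hSc
    have hI2 : IntegrableOn (hessSq (moll η v)) S := hh.continuousOn.integrableOn_compact hSc
    have hI3 : IntegrableOn
        (fun y => M * (res ε (moll η v) y ^ 2 / τ + τ * (2 + 2 * hessSq (moll η v) y))) S :=
      (continuous_const.mul (((hq.continuous.pow 2).div_const τ).add
        (continuous_const.mul (continuous_const.add (continuous_const.mul hh)))))
        |>.continuousOn.integrableOn_compact hSc
    have hup : ∫ x, |res ε (moll η v) x| * err K lam α β k ε c (moll η v) x ≤ M * (2 * (τ * T)) := by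
      refine (integral_mono_of_nonneg (Eventually.of_forall fun x => ?_)
        (hI3.integrable_indicator hSc.measurableSet) (Eventually.of_forall hpt)).trans ?_
      · exact mul_nonneg (abs_nonneg _) (add_nonneg (abs_nonneg _) (mul_nonneg
          (Real.smoothTransition.nonneg _) (mul_nonneg (Real.exp_pos _).le
            (add_nonneg hc0 (by positivity)))))
      rw [integral_indicator hSc.measurableSet, integral_const_mul]
      refine mul_le_mul_of_nonneg_left ?_ hM0
      have e1 : IntegrableOn (fun y => res ε (moll η v) y ^ 2 / τ) S := hI1.div_const τ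
      have e2 : IntegrableOn (fun y => τ * (2 + 2 * hessSq (moll η v) y)) S :=
        ((integrableOn_const (C := (2 : ℝ)) (hSc.measure_lt_top.ne)).add (hI2.const_mul 2)).const_mul τ
      rw [integral_add e1 e2, integral_div, integral_const_mul,
        integral_add (integrableOn_const (C := (2 : ℝ)) (hSc.measure_lt_top.ne)) (hI2.const_mul 2),
        setIntegral_const, integral_const_mul, smul_eq_mul, ← hm]
      have a1 : (∫ x in S, res ε (moll η v) x ^ 2) / τ ≤ τ * T := by
        rw [div_le_iff₀ hτ0]; linarith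
      have a2 : τ * (m * 2 + 2 * ∫ x in S, hessSq (moll η v) x) ≤ τ * T :=
        mul_le_mul_of_nonneg_left (by linarith [le_abs_self CH]) hτ0.le
      linarith
    rw [Real.dist_eq, sub_zero, abs_of_nonneg
      (integral_nonneg fun x => Real.smoothTransition.nonneg _)]
    have h1 := hw.trans hup
    have h2 : M * (2 * (τ * T)) < lam * e := by
      rw [hτ]
      have : M * (2 * (e * lam / (2 * (M + 1) * T) * T)) = lam * e * (M / (M + 1)) := by
        field_simp
      rw [this]
      exact mul_lt_of_lt_one_right (by positivity) ((div_lt_one (by linarith)).2 (by linarith))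
    exact lt_of_mul_lt_mul_left (h1.trans_lt h2) hlam.le
  -- pointwise almost everywhere limit
  have hpdb : ∀ i y, ‖pd i v y‖ ≤ (L : ℝ) := fun i y => by
    refine ((fderiv ℝ v y).le_opNorm _).trans ?_
    rw [EuclideanSpace.norm_single, norm_one, mul_one]
    exact norm_fderiv_le_of_lipschitz ℝ hL
  have hlim : ∀ i, ∀ᵐ x, Tendsto (fun η => pd i (moll η v) x) (𝓝[>] 0) (𝓝 (pd i v x)) := fun i => by
    have hm' : Measurable (pd i v) := measurable_fderiv_apply_const ℝ v _
    filter_upwards [Approx.ae_tendsto_mol (Approx.locallyIntegrable_of_bounded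
      hm'.aestronglyMeasurable (hpdb i))] with x hx
    refine hx.congr' (eventually_of_mem self_mem_nhdsWithin fun η hη => ?_)
    show Approx.mol η (pd i v) x = pd i (moll η v) x
    rw [Approx.pd_moll hη hL, Approx.moll_eq_mol hη]
  set Φ0 : E3 → ℝ := fun x => cut lam x ^ 6 * gJ α β (Pv v x)
    + K / lam * (cut lam x ^ 4 * (v x - x 2) ^ 2) with hΦ0
  set ψ0 : E3 → ℝ := fun x => Real.smoothTransition (Φ0 x - k) with hψ0
  have hψlim : ∀ᵐ x, Tendsto (fun η => ψ η x) (𝓝[>] 0) (𝓝 (ψ0 x)) := by
    filter_upwards [ae_all_iff.2 hlim] with x hx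
    refine ((Real.smoothTransition.continuous).tendsto _).comp (Tendsto.sub_const ?_ k)
    have hP : Tendsto (fun η => Pv (moll η v) x) (𝓝[>] 0) (𝓝 (Pv v x)) :=
      tendsto_pi_nhds.2 hx
    have hv : Tendsto (fun η => moll η v x) (𝓝[>] 0) (𝓝 (v x)) :=
      (Approx.tendsto_mol hL x).congr' (eventually_of_mem self_mem_nhdsWithin fun η hη => by
        show Approx.mol η v x = moll η v x
        rw [Approx.moll_eq_mol hη])
    refine (((((continuous_gJ α β).tendsto _).comp hP).const_mul (cut lam x ^ 6)).add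
      (((hv.sub_const (x 2)).pow 2).const_mul (cut lam x ^ 4) |>.const_mul (K / lam))).congr fun η => ?_
    simp only [Phi, gfun, wfun, Z6f, Z4f, Z2f, Function.comp_apply]
    ring
  have hmeas : ∀ᶠ η in 𝓝[>] (0 : ℝ), AEStronglyMeasurable (ψ η) volume :=
    hgood.mono fun η h => (contDiff_psi K lam α β k h.2.1).continuous.aestronglyMeasurable
  have hdom : ∀ᶠ η in 𝓝[>] (0 : ℝ), ∀ᵐ x, ‖ψ η x‖ ≤ S.indicator (fun _ => (1 : ℝ)) x :=
    Eventually.of_forall fun η => Eventually.of_forall fun x => by
      by_cases hx : x ∈ S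
      · rw [indicator_of_mem hx, Real.norm_eq_abs]
        simp only [ψ, psi]
        rw [abs_of_nonneg (Real.smoothTransition.nonneg _)]
        exact Real.smoothTransition.le_one _
      · rw [indicator_of_notMem hx]
        simp only [ψ, psi_eq_zero hlam hk0 hx, norm_zero, le_refl]
  have hbI : Integrable (S.indicator fun _ => (1 : ℝ)) :=
    (integrableOn_const hSc.measure_lt_top.ne).integrable_indicator hSc.measurableSet
  have hDCT := tendsto_integral_filter_of_dominated_convergence _ hmeas hdom hbI hψlim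
  have h0 : ∫ x, ψ0 x = 0 := tendsto_nhds_unique hDCT hzero
  have hψ0i : Integrable ψ0 := by
    refine hbI.mono' ?_ ?_
    · refine aestronglyMeasurable_of_tendsto_ae (u := atTop) (f := fun n : ℕ => ψ (1 / ((n : ℝ) + 1)))
        (fun n => (contDiff_psi K lam α β k (Approx.contDiff_moll (by positivity) hL)).continuous
          |>.aestronglyMeasurable) ?_
      exact hψlim.mono fun x hx => hx.comp Approx.tendsto_radius
    · filter_upwards [hψlim] with x hx
      refine le_of_tendsto hx.norm (Eventually.of_forall fun η => ?_)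
      by_cases hx' : x ∈ S
      · rw [indicator_of_mem hx', Real.norm_eq_abs]
        simp only [ψ, psi]
        rw [abs_of_nonneg (Real.smoothTransition.nonneg _)]
        exact Real.smoothTransition.le_one _
      · rw [indicator_of_notMem hx']
        simp only [ψ, psi_eq_zero hlam hk0 hx', norm_zero, le_refl]
  have hae := (integral_eq_zero_iff_of_nonneg
    (fun x => Real.smoothTransition.nonneg _) hψ0i).1 h0
  filter_upwards [hae] with x hx hxo
  have h1 : Φ0 x - k ≤ 0 := Real.smoothTransition.zero_iff_nonpos.1 hx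
  have h2 : 0 ≤ K / lam * (cut lam x ^ 4 * (v x - x 2) ^ 2) := by positivity
  simp only [Φ0, cut_eq_one hlam hxo, one_pow, one_mul] at h1 h2
  linarith

/-- transfer to the mollifications -/
lemma moll_le {lam α β k : ℝ} (hab : α = 1 ∧ β = 0 ∨ α = 2 ∧ β = -1 / 2) (hlam : 0 < lam)
    {v : E3 → ℝ} {L : ℝ≥0} (hL : LipschitzWith L v)
    (hae : ∀ᵐ x, x ∈ obox lam → gJ α β (Pv v x) ≤ k) :
    ∀ᶠ η in 𝓝[>] (0 : ℝ), ∀ x ∈ mbox lam, gJ α β (Pv (moll η v) x) ≤ k := by
  have h1 : ∀ᶠ η : ℝ in 𝓝[>] 0, η < min (1 / 40) (4 * Real.sqrt lam) :=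
    nhdsWithin_le_nhds (eventually_lt_nhds (lt_min (by norm_num) (by positivity)))
  filter_upwards [h1, self_mem_nhdsWithin] with η hη1 hη x hx
  replace hη : 0 < η := hη
  set Φc : E3 → ℝ := fun p => gJ α β fun i => p i with hΦc
  have hc : Continuous Φc := (continuous_gJ α β).comp
    (continuous_pi fun i => (EuclideanSpace.proj (𝕜 := ℝ) i).continuous)
  have hconv : ∀ p q, Φc p + ⟪WithLp.toLp 2 (fun i => α * p i + β * eJ i), q - p⟫ ≤ Φc q := by
    intro p q
    have h0 : 0 ≤ α / 2 * ∑ i, (q i - p i) ^ 2 := by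
      refine mul_nonneg ?_ (Finset.sum_nonneg fun i _ => sq_nonneg _)
      rcases hab with ⟨rfl, -⟩ | ⟨rfl, -⟩ <;> norm_num
    rw [← sum_mul_eq_inner]
    simp only [Φc, gJ, sum3, eJ, Fin.reduceEq, if_false, if_true, PiLp.toLp_apply, PiLp.sub_apply] at *
    linarith
  rw [Pv_eq_gradient]
  change Φc (∇ (moll η v) x) ≤ k
  refine (Approx.jensen_moll hη hL hc hconv x).trans ?_
  rw [Approx.moll_eq_mol hη]
  obtain ⟨B, hB⟩ := (isCompact_closedBall (0 : E3) L).exists_bound_of_continuousOn hc.continuousOn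
  have hb : ∀ y, ‖Φc (∇ v y)‖ ≤ B := fun y => hB _ (by simpa using Approx.norm_gradient_le hL y)
  have hgm : AEStronglyMeasurable (fun y => Φc (∇ v y)) volume :=
    hc.comp_aestronglyMeasurable (Approx.measurable_gradient v).aestronglyMeasurable
  calc Approx.mol η (fun y => Φc (∇ v y)) x ≤ ∫ h, Approx.wgt 3 η h * k := by
        refine integral_mono_ae (Approx.integrable_wgt_smul η hgm hb x)
          ((Approx.bump 3 η).integrable_normed.mul_const k) ?_
        filter_upwards [(Measure.measurePreserving_sub_left volume x).quasiMeasurePreserving.ae hae]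
          with h hh
        rcases le_or_gt η ‖h‖ with hb' | hb'
        · simp [Approx.wgt_eq_zero hη hb']
        simp only [smul_eq_mul]
        refine mul_le_mul_of_nonneg_left ?_ (Approx.wgt_nonneg η h)
        have ho : x - h ∈ obox lam := by
          refine ⟨?_, ?_⟩
          · have : |h 2| ≤ ‖h‖ := PiLp.norm_apply_le h 2
            rw [PiLp.sub_apply]
            linarith [abs_sub (x 2) (h 2), hx.1, hη1.trans_le (min_le_left _ _)]
          · have hl := lat_add_le x (-h)
            rw [← sub_eq_add_neg] at hl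
            have := lat_le_norm (-h)
            rw [norm_neg] at this
            linarith [hx.2, hη1.trans_le (min_le_right _ _)]
        have := hh ho
        rwa [Pv_eq_gradient] at this
    _ = k := by rw [integral_mul_const, Approx.wgt_integral, one_mul]

end Bernstein

open Bernstein in
/-- (B): Bernstein bounds for comparison solutions, independent of the a priori closeness. -/
theorem bernsteinOut : BernsteinOut := by
  obtain ⟨Cz, hCz, hcut⟩ := exists_cut_bound
  set K := 20 * (100000 * Cz ^ 2) ^ 2 with hK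
  refine ⟨2 * (9 * K + 400 * (100000 * Cz ^ 2) ^ 2 * K + 4), 1 / 16, by positivity, by norm_num,
    fun lam ε v hlam hlδ hε hsol hflat hslope => ?_⟩
  have hlam1 : lam ≤ 1 := by linarith
  obtain ⟨L, hL⟩ := hsol.lip
  have key : ∀ α β : ℝ, (α = 1 ∧ β = 0 ∨ α = 2 ∧ β = -1 / 2) →
      ∀ᶠ η in 𝓝[>] (0 : ℝ), ∀ x ∈ mbox lam,
        gJ α β (Pv (moll η v) x) ≤ (9 * K + 400 * (100000 * Cz ^ 2) ^ 2 * K + 4) * lam :=
    fun α β hab => moll_le hab hlam hL
      (ae_le hab hCz (hcut lam hlam) le_rfl hlam hlam1 hε rfl hsol hflat hslope)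
  filter_upwards [key 1 0 (Or.inl ⟨rfl, rfl⟩), key 2 (-1 / 2) (Or.inr ⟨rfl, rfl⟩)] with η h1 h2 x hx
  have a := h1 x hx
  have b := h2 x hx
  have hk : 0 ≤ (9 * K + 400 * (100000 * Cz ^ 2) ^ 2 * K + 4) * lam := by positivity
  simp only [gJ, Pv] at a b
  simp only [gTilt, gsq]
  constructor <;> linarith

end Vale.Agent.P080.C1
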