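import Vale.Agent.P080.C1.Compare.Data
import Vale.Agent.P080.C1.Approx.Main

/-!
# The comparison solutions: `CompareOut`
-/

namespace Vale.Agent.P080.C1

open scoped ContDiff Topology RealInnerProductSpace NNReal
open Set Filter Metric MeasureTheory

namespace Compare

/-- chord bounds pass to directional derivatives of the mollifications -/
lemma fderiv_moll_le {η : ℝ} (hη : 0 < η) {v : E3 → ℝ} {L : ℝ≥0} (hv : LipschitzWith L v)
    {S : Set E3} {x h : E3} {c r : ℝ} (hr : η < r) (hS : closedBall x r ⊆ S)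
    (hch : ∀ t : ℝ, 0 < t → ∀ y ∈ S, y + t • h ∈ S → v (y + t • h) - v y ≤ t * c) :
    fderiv ℝ (moll η v) x h ≤ c := by
  have hd : DifferentiableAt ℝ (moll η v) x :=
    (Approx.contDiff_moll hη hv).differentiable (by simp) x
  refine le_of_tendsto (hd.hasFDerivAt.hasLineDerivAt h).tendsto_slope_zero_right ?_
  have hsmall : ∀ᶠ t : ℝ in 𝓝[>] 0, t * ‖h‖ ≤ r - η :=
    eventually_nhdsWithin_of_eventually_nhds
      ((by fun_prop : Continuous fun t : ℝ => t * ‖h‖).tendsto' 0 0 (zero_mul _)
        |>.eventually (eventually_le_nhds (by linarith)))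
  filter_upwards [hsmall, self_mem_nhdsWithin] with t hth (ht : 0 < t)
  rw [smul_eq_mul, inv_mul_eq_div, div_le_iff₀ ht, mul_comm c t]
  have hi : ∀ z : E3, Integrable fun q => bump0.normed volume q * v (z - η • q) := fun z =>
    (bump0.continuous_normed.mul (hv.continuous.comp (by fun_prop))).integrable_of_hasCompactSupport
      bump0.hasCompactSupport_normed.mul_right
  calc moll η v (x + t • h) - moll η v x
      = ∫ q, bump0.normed volume q * (v (x + t • h - η • q) - v (x - η • q)) := by
        simp only [mul_sub, moll, integral_sub (hi _) (hi _)]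
    _ ≤ ∫ q, bump0.normed volume q * (t * c) := by
        refine integral_mono (by simp only [mul_sub]; exact (hi _).sub (hi _))
          (bump0.integrable_normed.mul_const _) fun q => ?_
        rcases eq_or_ne (bump0.normed volume q) 0 with hq | hq
        · simp [hq]
        refine mul_le_mul_of_nonneg_left ?_ (bump0.nonneg_normed q)
        have hq1 : q ∈ Function.support (bump0.normed volume) := hq
        rw [bump0.support_normed_eq, mem_ball_zero_iff] at hq1
        have hn : ‖η • q‖ ≤ η := by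
          rw [norm_smul, Real.norm_eq_abs, abs_of_pos hη]
          exact mul_le_of_le_one_right hη.le hq1.le
        have e : x + t • h - η • q = x - η • q + t • h := by abel
        rw [e]
        refine hch t ht _ (hS ?_) (hS ?_) <;> rw [mem_closedBall, dist_eq_norm]
        · rw [sub_sub_cancel_left, norm_neg]; linarith
        · rw [show x - η • q + t • h - x = t • h - η • q by abel]
          have := norm_sub_le (t • h) (η • q)
          rw [norm_smul, Real.norm_eq_abs, abs_of_pos ht] at this
          linarith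
    _ = t * c := by rw [integral_mul_const, bump0.integral_normed, one_mul]

lemma isOpen_wbox (lam : ℝ) : IsOpen (wbox lam) :=
  (isOpen_lt (f := fun x : E3 => |x 2|) (by fun_prop) continuous_const).inter
    (isOpen_lt continuous_lat continuous_const)

lemma wbox_subset_dom {lam : ℝ} (hlam : 0 < lam) : wbox lam ⊆ dom lam := by
  rintro x ⟨h2, hl⟩
  have e1 : x 2 ^ 2 ≤ 49 / 100 := by
    rw [← sq_abs]
    exact le_trans (pow_le_pow_left₀ (abs_nonneg _) h2.le 2) (by norm_num)
  have e2 : latSq x ≤ 1600 * lam := by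
    rw [← lat_sq]
    calc _ ≤ (40 * Real.sqrt lam) ^ 2 := pow_le_pow_left₀ (lat_nonneg _) hl.le 2
      _ = _ := by rw [mul_pow, Real.sq_sqrt hlam.le]; norm_num
  show ell lam x < 1
  unfold ell
  have e3 : latSq x / (3844 * lam) ≤ 1600 / 3844 := by
    rw [div_le_iff₀ (by positivity)]; linarith
  have e4 : x 2 ^ 2 / (361 / 400) ≤ 49 / 100 / (361 / 400) :=
    div_le_div_of_nonneg_right e1 (by norm_num)
  linarith

lemma closure_dom_subset_box {lam : ℝ} (hlam : 0 < lam) : closure (dom lam) ⊆ box lam := by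
  intro x hx
  obtain ⟨h2, hl⟩ := bounds_of_ell hlam (closure_dom hx)
  exact ⟨h2.trans (by norm_num),
    hl.trans (mul_le_mul_of_nonneg_right (by norm_num [R0]) (Real.sqrt_nonneg _))⟩

end Compare

open Compare in
/-- comparison solutions exist -/
theorem compareOut : CompareOut := by
  intro w0 hw0
  obtain ⟨Λ, lam0, hΛ, hlam0, hdata⟩ := exists_data (half_pos hw0)
  refine ⟨2 * Λ, min lam0 (1 / (2 * Λ + 1) ^ 2), by positivity, by positivity,
    fun lam u hlam hle hconf => ?_⟩
  obtain ⟨G, hG, hclose, hbsc⟩ :=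
    hdata lam u hlam (hle.trans (min_le_left _ _)) (Sub1.of_conf hconf)
  obtain ⟨U, hUo, hu, hU, hflat⟩ := hconf
  set s := Real.sqrt lam with hs
  have hs0 : 0 < s := Real.sqrt_pos.2 hlam
  have hss : s * s = lam := Real.mul_self_sqrt hlam.le
  have hsΛ : s * (2 * Λ + 1) ≤ 1 := by
    have h := Real.sqrt_le_sqrt (hle.trans (min_le_right _ _))
    rwa [← hs, show 1 / (2 * Λ + 1) ^ 2 = (1 / (2 * Λ + 1)) ^ 2 by rw [div_pow, one_pow],
      Real.sqrt_sq (by positivity), le_div_iff₀ (by positivity)] at h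
  have hsl : ∀ k ∈ slopeSet Λ lam, ‖k‖ ≤ ((2 : ℝ≥0) : ℝ) := by
    rintro k ⟨h2, hl⟩
    rw [← hs] at hl
    have h1 : ‖k‖ ≤ lat k + |k 2| := by
      refine le_of_pow_le_pow_left₀ two_ne_zero (add_nonneg (lat_nonneg _) (abs_nonneg _)) ?_
      rw [norm_sq_eq_lat, add_sq, lat_sq, sq_abs]
      have := mul_nonneg (lat_nonneg k) (abs_nonneg (k 2))
      linarith
    have h3 := abs_sub_abs_le_abs_sub (k 2) 1
    rw [abs_one] at h3
    have h4 : lam ≤ s := by rw [← hss]; exact mul_le_of_le_one_right hs0.le (by nlinarith)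
    have h5 : Λ * lam ≤ Λ * s := mul_le_mul_of_nonneg_left h4 hΛ.le
    push_cast
    linarith
  have hDbox := closure_dom_subset_box hlam
  have hbdd : Bornology.IsBounded (dom lam) :=
    (isCompact_box hlam).isBounded.subset (subset_closure.trans hDbox)
  obtain ⟨v, hv, hconv⟩ := Approx.exists_approx
    ⟨dom lam, G, 2, slopeSet Λ lam, isOpen_dom lam, hbdd, hG, hsl, hbsc⟩
  have hDU : dom lam ⊆ U := (subset_closure.trans hDbox).trans hU
  have hev := hconv u (w0 / 2 * lam) (hu.1.1.mono (hDbox.trans hU))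
    ⟨hu.1.1.mono hDU, fun z hz => hu.1.2 z (hDU hz)⟩
    ⟨hu.2.1.mono hDU, fun z hz => hu.2.2 z (hDU hz)⟩
    (fun x hx => by rw [abs_sub_comm]; exact hclose x hx) (w0 / 2 * lam) (by positivity)
  have hWD := wbox_subset_dom hlam
  refine ⟨v, ?_⟩
  filter_upwards [hev, self_mem_nhdsWithin] with ε hεc (hε : 0 < ε)
  obtain ⟨hsol, -, -, hch⟩ := hv ε hε
  refine ⟨hsol.mono (isOpen_wbox lam) hWD,
    fun x hx => (hεc x (subset_closure (hWD hx))).trans (le_of_eq (by ring)), fun K hK hKW => ?_⟩
  obtain ⟨L, hL⟩ := hsol.lip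
  obtain ⟨r, hr, hrK⟩ := hK.exists_cthickening_subset_open (isOpen_dom lam) (hKW.trans hWD)
  filter_upwards [eventually_nhdsWithin_of_eventually_nhds (eventually_lt_nhds hr),
    self_mem_nhdsWithin] with η hηr (hη : 0 < η) x hx
  have hb : ∀ (h : E3) (c : ℝ), (∀ k ∈ slopeSet Λ lam, ⟪k, h⟫ ≤ c) →
      fderiv ℝ (moll η (v ε)) x h ≤ c := fun h c hc =>
    fderiv_moll_le hη hL hηr (((closedBall_subset_cthickening hx r).trans hrK).trans subset_closure)
      fun t ht y hy hy' => hch (t • h) (t * c)
        (fun k hk => by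
          rw [real_inner_smul_right]; exact mul_le_mul_of_nonneg_left (hc k hk) ht.le) y hy hy'
  have h2 : |pd 2 (moll η (v ε)) x - 1| ≤ Λ * lam := by
    have a := hb (EuclideanSpace.single (2 : Fin 3) 1) (1 + Λ * lam) fun k hk => by
      rw [inner_single]; linarith [(abs_le.1 hk.1).2]
    have b := hb (-EuclideanSpace.single (2 : Fin 3) 1) (-(1 - Λ * lam)) fun k hk => by
      rw [inner_neg_right, inner_single]; linarith [(abs_le.1 hk.1).1]
    rw [map_neg] at b
    rw [pd, abs_le]
    constructor <;> linarith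
  have hlat : ∀ i : Fin 3, i ≠ 2 → |pd i (moll η (v ε)) x| ≤ Λ * s := by
    intro i hi
    have hki : ∀ k ∈ slopeSet Λ lam, |k i| ≤ Λ * s := by
      rintro k ⟨-, hk⟩
      refine le_trans ?_ hk
      rw [lat]
      refine Real.le_sqrt_of_sq_le ?_
      rw [sq_abs, latSq]
      fin_cases i
      · show k 0 ^ 2 ≤ _; linarith [sq_nonneg (k 1)]
      · show k 1 ^ 2 ≤ _; linarith [sq_nonneg (k 0)]
      · exact absurd rfl hi
    have a := hb (EuclideanSpace.single i 1) (Λ * s) fun k hk => by
      rw [inner_single]; exact (le_abs_self _).trans (hki k hk)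
    have b := hb (-EuclideanSpace.single i 1) (Λ * s) fun k hk => by
      rw [inner_neg_right, inner_single]; exact (neg_le_abs _).trans (hki k hk)
    rw [map_neg] at b
    rw [pd, abs_le]
    constructor <;> linarith
  refine ⟨h2.trans (mul_le_mul_of_nonneg_right (by linarith) hlam.le), ?_⟩
  have q0 := pow_le_pow_left₀ (abs_nonneg _) (hlat 0 (by decide)) 2
  have q1 := pow_le_pow_left₀ (abs_nonneg _) (hlat 1 (by decide)) 2
  rw [sq_abs, mul_pow, sq s, hss] at q0 q1
  have : 0 ≤ Λ ^ 2 * lam := by positivity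
  rw [pLatSq]
  linarith

end Vale.Agent.P080.C1
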