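import Vale.Agent.P080.C1.Energy.Pointwise

/-!
# The energy estimate, independent of the deficit
-/

namespace Vale.Agent.P080.C1

open scoped ContDiff Topology
open Set Filter MeasureTheory Vale.Agent.P080

/-- cutoff at lateral scale `√lam` and vertical scale `1` -/
structure CutBd (c lam : ℝ) (ζ : E3 → ℝ) : Prop where
  contDiff : ContDiff ℝ 2 ζ
  compact : HasCompactSupport ζ
  nonneg : ∀ x, 0 ≤ ζ x
  le_one : ∀ x, ζ x ≤ 1
  d_lat : ∀ i : Fin 3, i ≠ 2 → ∀ x, |pd i ζ x| ≤ c / Real.sqrt lam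
  d_vert : ∀ x, |pd 2 ζ x| ≤ c
  dd : ∀ i j x, |pd2 i j ζ x| ≤ c / lam
  dd_mixed : ∀ i x, |pd2 i 2 ζ x| ≤ c / Real.sqrt lam ∧ |pd2 2 i ζ x| ≤ c / Real.sqrt lam
  dd_vert : ∀ x, |pd2 2 2 ζ x| ≤ c
  vol : volume.real (tsupport ζ) ≤ c * lam

/-- flatness with the upper bounds of the Bernstein step at a point -/
structure FlatBd (c lam a : ℝ) (u : E3 → ℝ) (x : E3) : Prop where
  height : |u x - x 2 - a| ≤ c * lam
  gsq_le : gsq u x - 1 ≤ c * lam
  tilt_le : gTilt u x ≤ c * lam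
  near : ‖grad u x - e3‖ ≤ 1/4

lemma qv_eq_pd_gsq {u : E3 → ℝ} (hu : ContDiff ℝ 3 u) (i : Fin 3) (x : E3) :
    qv i u x = pd i (gsq u) x / 2 := by
  rw [(Energy.qv_eq hu x).2 i]; ring

lemma trH_sq_le (u : E3 → ℝ) (x : E3) : trH u x ^ 2 ≤ 3 * hessSq u x := by
  simp only [trH, hessSq, Fin.sum_univ_three]
  nlinarith [sq_nonneg (pd2 0 0 u x - pd2 1 1 u x), sq_nonneg (pd2 0 0 u x - pd2 2 2 u x),
    sq_nonneg (pd2 1 1 u x - pd2 2 2 u x), sq_nonneg (pd2 0 1 u x), sq_nonneg (pd2 0 2 u x),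
    sq_nonneg (pd2 1 0 u x), sq_nonneg (pd2 1 2 u x), sq_nonneg (pd2 2 0 u x),
    sq_nonneg (pd2 2 1 u x)]

namespace Energy

variable {u ζ : E3 → ℝ} {x : E3} {c lam ε : ℝ}

lemma derivBd_pow (hζ : CutBd c lam ζ) (hc : 1 ≤ c) (hl : 0 < lam) (hl1 : lam ≤ 1) (x : E3) :
    DerivBd (64 * c ^ 2) lam (ζ x) (fun y => ζ y ^ 8) x := by
  have h1 : ∀ i, HD (pd i ζ) x fun j => pd2 j i ζ x := fun i =>
    HD.self ((contDiff_pd (n := 1) hζ.contDiff i).differentiable one_ne_zero x)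
  have h0 : ∀ y, HD ζ y fun i => pd i ζ y := fun y =>
    HD.self (hζ.contDiff.differentiable two_ne_zero y)
  have e1 : ∀ i y, pd i (fun y => ζ y ^ 8) y = 8 * ζ y ^ 7 * pd i ζ y := fun i y => by
    rw [((h0 y).comp (g := fun t => t ^ 8) (hasDerivAt_pow 8 (ζ y))).2 i]; norm_num
  have e2 : ∀ i j, pd2 j i (fun y => ζ y ^ 8) x =
      56 * ζ x ^ 6 * pd j ζ x * pd i ζ x + 8 * ζ x ^ 7 * pd2 j i ζ x := fun i j => by
    have h := (((HD.const 8).mul ((h0 x).comp (g := fun t => t ^ 7) (hasDerivAt_pow 7 (ζ x)))).mul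
      (h1 i)).2 j
    simp only [pd2]
    rw [show pd i (fun y => ζ y ^ 8) = fun y => 8 * ζ y ^ 7 * pd i ζ y from funext (e1 i), h]
    simp only [pd2]
    push_cast
    ring
  set z := ζ x
  have hz := hζ.nonneg x
  have hz1 : z ≤ 1 := hζ.le_one x
  set s := Real.sqrt lam
  have hs : 0 < s := Real.sqrt_pos.2 hl
  have hs2 : s * s = lam := Real.mul_self_sqrt hl.le
  have hs1 : s ≤ 1 := Real.sqrt_le_one.2 hl1
  have hz7 : 0 ≤ z ^ 7 := by positivity
  have hz6 : 0 ≤ z ^ 6 := by positivity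
  have hz76 : z ^ 7 ≤ z ^ 6 := pow_le_pow_of_le_one hz hz1 (by norm_num)
  have hcc : c ≤ c ^ 2 := by nlinarith only [hc]
  have dall : ∀ i, |pd i ζ x| ≤ c / s := fun i => by
    rcases eq_or_ne i 2 with rfl | hi
    · exact (hζ.d_vert x).trans (by rw [le_div_iff₀ hs]; nlinarith only [hc, hs1])
    · exact hζ.d_lat i hi x
  have b2 : ∀ i j (A B D : ℝ), |pd j ζ x| ≤ A → |pd i ζ x| ≤ B → |pd2 j i ζ x| ≤ D →
      |pd2 j i (fun y => ζ y ^ 8) x| ≤ 56 * z ^ 6 * A * B + 8 * z ^ 6 * D := by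
    intro i j A B D hA hB hD
    rw [e2]
    refine (abs_add_le _ _).trans (add_le_add ?_ ?_)
    · rw [abs_mul, abs_mul, abs_of_nonneg (show 0 ≤ 56 * z ^ 6 by positivity)]
      have : 0 ≤ A := (abs_nonneg _).trans hA
      gcongr
    · rw [abs_mul, abs_of_nonneg (show 0 ≤ 8 * z ^ 7 by positivity)]
      gcongr
  refine ⟨fun i hi => ?_, ?_, fun i j => ?_, fun i => ⟨?_, ?_⟩, ?_⟩
  · rw [e1, abs_mul, abs_of_nonneg (by positivity)]
    calc 8 * z ^ 7 * |pd i ζ x| ≤ 8 * z ^ 7 * (c / s) := by gcongr; exact hζ.d_lat i hi x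
      _ ≤ 64 * z ^ 7 * (c ^ 2 / s) := by gcongr; norm_num
      _ = _ := by ring
  · rw [e1, abs_mul, abs_of_nonneg (by positivity)]
    calc 8 * z ^ 7 * |pd 2 ζ x| ≤ 64 * z ^ 7 * c ^ 2 := by
          gcongr
          · norm_num
          · exact (hζ.d_vert x).trans hcc
      _ = _ := by ring
  · calc _ ≤ 56 * z ^ 6 * (c / s) * (c / s) + 8 * z ^ 6 * (c / lam) :=
          b2 j i _ _ _ (dall i) (dall j) (hζ.dd i j x)
      _ ≤ 56 * z ^ 6 * (c / s) * (c / s) + 8 * z ^ 6 * (c ^ 2 / lam) := by gcongr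
      _ = _ := by rw [← hs2]; ring
  · calc _ ≤ 56 * z ^ 6 * (c / s) * c + 8 * z ^ 6 * (c / s) :=
          b2 2 i _ _ _ (dall i) (hζ.d_vert x) (hζ.dd_mixed i x).1
      _ ≤ 56 * z ^ 6 * (c / s) * c + 8 * z ^ 6 * (c ^ 2 / s) := by gcongr
      _ = _ := by ring
  · calc _ ≤ 56 * z ^ 6 * c * (c / s) + 8 * z ^ 6 * (c / s) :=
          b2 i 2 _ _ _ (hζ.d_vert x) (dall i) (hζ.dd_mixed i x).2
      _ ≤ 56 * z ^ 6 * c * (c / s) + 8 * z ^ 6 * (c ^ 2 / s) := by gcongr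
      _ = _ := by ring
  · calc _ ≤ 56 * z ^ 6 * c * c + 8 * z ^ 6 * c :=
          b2 2 2 _ _ _ (hζ.d_vert x) (hζ.d_vert x) (hζ.dd_vert x)
      _ ≤ 56 * z ^ 6 * c * c + 8 * z ^ 6 * c ^ 2 := by gcongr
      _ = _ := by ring

/-- the field for the deficit bound -/
noncomputable def Psi (ζ u : E3 → ℝ) (a : ℝ) (y : E3) : ℝ :=
  ζ y ^ 6 * (u y - y 2 - a) * (gsq u y - 1)

/-- scalar absorption in the deficit bound -/
lemma deficit_scalar {z c lam ε d a X w q3 A f T Q E dz : ℝ} (hz : 0 ≤ z) (hz1 : z ≤ 1) (hc : 1 ≤ c)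
    (hl : 0 < lam) (hε : 0 ≤ ε) (hεl : ε ≤ lam) (hd : 0 < d) (hX : 0 ≤ X) (hQ0 : 0 ≤ Q)
    (hQ : Q ^ 2 ≤ 2 * E) (hw : |w| ≤ c * lam) (hdz : |dz| ≤ c)
    (hA : |A| ≤ |f| + ε * |T|) (hq : |q3| ≤ 2 * (|A| + Real.sqrt X * Q)) :
    152 * (|6 * z ^ 5 * dz * w * a| + |2 * z ^ 6 * w * q3|) ≤
      1/2 * (z ^ 6 * (a ^ 2 + X ^ 2)) +
      (152 * 36 * 304 * c ^ 4 + 608 * c / d + 152 * 16 * 304 * c ^ 2 / d ^ 2) * lam ^ 2 +
      1216 * c * lam * d * (z ^ 8 * (E + ε * T ^ 2)) + 608 * c * lam * |f| := by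
  set P := Real.sqrt X
  have hP : P ^ 2 = X := Real.sq_sqrt hX
  have hP0 : 0 ≤ P := Real.sqrt_nonneg X
  have hz4 : z ^ 4 ≤ 1 := pow_le_one₀ hz hz1
  have hz2 : z ^ 2 ≤ 1 := pow_le_one₀ hz hz1
  have hz6 : z ^ 6 ≤ 1 := pow_le_one₀ hz hz1
  have hν : (0:ℝ) < 1/304 := by norm_num
  have t1 : |6 * z ^ 5 * dz * w * a| ≤ 1/304 * (z ^ 6 * a ^ 2) + 36 * 304 * c ^ 4 * lam ^ 2 :=
    calc |6 * z ^ 5 * dz * w * a| = 6 * z ^ 5 * |dz| * |w| * |a| := by
          rw [abs_mul, abs_mul, abs_mul, abs_of_nonneg (show 0 ≤ 6 * z ^ 5 by positivity)]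
      _ ≤ 6 * z ^ 5 * c * (c * lam) * |a| := by gcongr
      _ = (z ^ 3 * |a|) * (6 * c ^ 2 * lam * z ^ 2) := by ring
      _ ≤ 1/304 * (z ^ 3 * |a|) ^ 2 + (6 * c ^ 2 * lam * z ^ 2) ^ 2 / (1/304) := young hν
      _ = 1/304 * (z ^ 6 * a ^ 2) + 36 * 304 * c ^ 4 * lam ^ 2 * z ^ 4 := by
          rw [← sq_abs a]; ring
      _ ≤ 1/304 * (z ^ 6 * a ^ 2) + 36 * 304 * c ^ 4 * lam ^ 2 * 1 := by gcongr
      _ = _ := by rw [mul_one]
  have t2 : z ^ 6 * (ε * |T|) ≤ d * (z ^ 8 * (ε * T ^ 2)) + lam / d :=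
    calc z ^ 6 * (ε * |T|) = ε * ((z ^ 4 * |T|) * z ^ 2) := by ring
      _ ≤ ε * (d * (z ^ 4 * |T|) ^ 2 + (z ^ 2) ^ 2 / d) := mul_le_mul_of_nonneg_left (young hd) hε
      _ = d * (z ^ 8 * (ε * T ^ 2)) + ε * z ^ 4 / d := by rw [← sq_abs T]; ring
      _ ≤ d * (z ^ 8 * (ε * T ^ 2)) + lam * 1 / d := by gcongr
      _ = _ := by rw [mul_one]
  have t3 : z ^ 6 * (P * Q) ≤ d * (z ^ 8 * (2 * E)) + z ^ 4 * X / d :=
    calc z ^ 6 * (P * Q) = (z ^ 4 * Q) * (z ^ 2 * P) := by ring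
      _ ≤ d * (z ^ 4 * Q) ^ 2 + (z ^ 2 * P) ^ 2 / d := young hd
      _ = d * (z ^ 8 * Q ^ 2) + z ^ 4 * X / d := by rw [← hP]; ring
      _ ≤ _ := by gcongr
  have t4 : 4 * c * lam * (z ^ 4 * X / d) ≤
      1/304 * (z ^ 6 * X ^ 2) + 16 * 304 * c ^ 2 / d ^ 2 * lam ^ 2 :=
    calc 4 * c * lam * (z ^ 4 * X / d) = (z ^ 3 * X) * (4 * c * lam * z / d) := by ring
      _ ≤ 1/304 * (z ^ 3 * X) ^ 2 + (4 * c * lam * z / d) ^ 2 / (1/304) := young hν
      _ = 1/304 * (z ^ 6 * X ^ 2) + 16 * 304 * c ^ 2 / d ^ 2 * lam ^ 2 * z ^ 2 := by ring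
      _ ≤ 1/304 * (z ^ 6 * X ^ 2) + 16 * 304 * c ^ 2 / d ^ 2 * lam ^ 2 * 1 := by gcongr
      _ = _ := by rw [mul_one]
  have t5 : |2 * z ^ 6 * w * q3| ≤ 4 * c * lam * (z ^ 6 * |f| + z ^ 6 * (ε * |T|) + z ^ 6 * (P * Q)) :=
    calc |2 * z ^ 6 * w * q3| = 2 * z ^ 6 * |w| * |q3| := by
          rw [abs_mul, abs_mul, abs_of_nonneg (show 0 ≤ 2 * z ^ 6 by positivity)]
      _ ≤ 2 * z ^ 6 * (c * lam) * (2 * (|f| + ε * |T| + P * Q)) := by gcongr; linarith only [hA, hq]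
      _ = _ := by ring
  have hE : 0 ≤ E := by nlinarith only [hQ, sq_nonneg Q]
  have t6 : 4 * c * lam * (z ^ 6 * |f| + z ^ 6 * (ε * |T|) + z ^ 6 * (P * Q)) ≤
      4 * c * lam * (|f| + (d * (z ^ 8 * (ε * T ^ 2)) + lam / d) +
        (d * (z ^ 8 * (2 * E)) + z ^ 4 * X / d)) := by
    gcongr
    exact mul_le_of_le_one_left (abs_nonneg _) hz6
  have hpos : 0 ≤ c * lam * (d * (z ^ 8 * (ε * T ^ 2))) := by positivity
  have e : 4 * c * lam * (lam / d) = 4 * (c / d * lam ^ 2) := by ring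
  linear_combination 152 * t1 + 152 * t5 + 152 * t6 + 152 * t4 + 608 * hpos

lemma deficit_pointwise (hu : ContDiff ℝ 3 u) (hζ : CutBd c lam ζ) {a d : ℝ} (hc : 1 ≤ c)
    (hl : 0 < lam) (hl1 : lam ≤ 1) (hε : 0 ≤ ε) (hεl : ε ≤ lam) (hd : 0 < d)
    (hx : FlatBd c lam a u x) :
    ζ x ^ 6 * ((gsq u x - 1) ^ 2 + pLatSq u x ^ 2 + (1 - pd 2 u x) ^ 2) / lam ≤
      304 * pd 2 (Psi ζ u a) x / lam +
      2 * (152 * 36 * 304 * c ^ 4 + 608 * c / d + 152 * 16 * 304 * c ^ 2 / d ^ 2 + 2000 * c ^ 2) * lam +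
      2432 * c * d * (ζ x ^ 8 * (qv 0 u x ^ 2 + qv 1 u x ^ 2 + ε * trH u x ^ 2)) +
      1216 * c * (|res ε u x| * (1 + |trH u x|) / Real.sqrt lam) := by
  have hz := hζ.nonneg x
  have hder : pd 2 (Psi ζ u a) x =
      6 * ζ x ^ 5 * pd 2 ζ x * (u x - x 2 - a) * (gsq u x - 1) +
      ζ x ^ 6 * (pd 2 u x - 1) * (gsq u x - 1) + ζ x ^ 6 * (u x - x 2 - a) * (2 * qv 2 u x) := by
    unfold Psi
    rw [((((HD.self (hζ.contDiff.differentiable two_ne_zero x)).comp (g := fun t => t ^ 6)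
      (hasDerivAt_pow 6 (ζ x))).mul (((HD.self (hu.differentiable (by norm_num) x)).sub
      (HD.coord 2)).sub (HD.const a))).mul ((qv_eq hu x).sub (HD.const 1))).2 2]
    norm_num
    ring
  obtain ⟨hp0, hp1, hp2⟩ := pd_near hx.near
  set z := ζ x
  set g := 1 - pd 2 u x
  set X := pLatSq u x with hX
  have hX0 : 0 ≤ X := by simp only [hX, pLatSq]; positivity
  set b := gsq u x - 1 with hb
  have hba : b = X - 2 * g + g ^ 2 := by
    simp only [hb, hX, g, gsq_eq, pLatSq]; ring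
  have hK : 0 ≤ c * lam := by positivity
  have hti : X - 3/2 * g + g ^ 2 ≤ c * lam := by
    have := hx.tilt_le
    simp only [gTilt, gsq_eq] at this
    simp only [hX, g, pLatSq]
    linarith only [this]
  have hprod := product_bound hX0 hK hp2 hba hti
  set Q := |qv 0 u x| + |qv 1 u x| with hQd
  have hQ : Q ^ 2 ≤ 2 * (qv 0 u x ^ 2 + qv 1 u x ^ 2) := by
    rw [hQd, ← sq_abs (qv 0 u x), ← sq_abs (qv 1 u x)]
    nlinarith only [sq_nonneg (|qv 0 u x| - |qv 1 u x|)]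
  have hA : |AA u x| ≤ |res ε u x| + ε * |trH u x| := by
    rw [show AA u x = res ε u x - ε * trH u x by simp only [res_eq]; ring]
    refine (abs_sub _ _).trans ?_
    rw [abs_mul, abs_of_nonneg hε]
  have hq3 : |qv 2 u x| ≤ 2 * (|AA u x| + Real.sqrt X * Q) := by
    have hp : 3/4 ≤ pd 2 u x := by have := (abs_le.1 hp2).2; linarith only [this]
    have hl0 : |pd 0 u x| ≤ Real.sqrt X := by
      rw [← Real.sqrt_sq_eq_abs, hX]
      exact Real.sqrt_le_sqrt (le_add_of_nonneg_right (sq_nonneg _))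
    have hl1' : |pd 1 u x| ≤ Real.sqrt X := by
      rw [← Real.sqrt_sq_eq_abs, hX]
      exact Real.sqrt_le_sqrt (le_add_of_nonneg_left (sq_nonneg _))
    have e : qv 2 u x * pd 2 u x = AA u x - (qv 0 u x * pd 0 u x + qv 1 u x * pd 1 u x) := by
      simp only [AA, Fin.sum_univ_three]; ring
    have h1 : |qv 2 u x| * pd 2 u x ≤ |AA u x| + Real.sqrt X * Q := by
      rw [← abs_of_pos (show 0 < pd 2 u x by linarith only [hp]), ← abs_mul, e]
      refine (abs_sub _ _).trans (add_le_add le_rfl ((abs_add_le _ _).trans ?_))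
      rw [abs_mul, abs_mul, hQd, mul_comm (Real.sqrt X), add_mul]
      gcongr
    nlinarith only [h1, hp, abs_nonneg (qv 2 u x)]
  have hs := deficit_scalar (z := z) (d := d) (a := b) (T := trH u x) hz (hζ.le_one x) hc hl hε hεl hd hX0
    (by positivity) hQ hx.height (hζ.d_vert x) hA hq3
  have hz6 : 0 ≤ z ^ 6 := by positivity
  have hz61 : z ^ 6 ≤ 1 := pow_le_one₀ hz (hζ.le_one x)
  have hprod' := mul_le_mul_of_nonneg_left hprod hz6
  have hk : z ^ 6 * (2000 * (c * lam) ^ 2) ≤ 2000 * c ^ 2 * lam ^ 2 := by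
    rw [mul_pow, ← mul_assoc (2000:ℝ)]
    exact mul_le_of_le_one_left (by positivity) hz61
  have hid : z ^ 6 * (-g * b) = pd 2 (Psi ζ u a) x - 6 * z ^ 5 * pd 2 ζ x * (u x - x 2 - a) * b
      - 2 * z ^ 6 * (u x - x 2 - a) * qv 2 u x := by
    rw [hder]; simp only [g]; ring
  have hg2 : 0 ≤ z ^ 6 * g ^ 2 := by positivity
  have hN : z ^ 6 * (b ^ 2 + X ^ 2 + g ^ 2) ≤ 304 * pd 2 (Psi ζ u a) x +
      2 * (152 * 36 * 304 * c ^ 4 + 608 * c / d + 152 * 16 * 304 * c ^ 2 / d ^ 2 + 2000 * c ^ 2) *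
        lam ^ 2 +
      2432 * c * lam * d * (z ^ 8 * (qv 0 u x ^ 2 + qv 1 u x ^ 2 + ε * trH u x ^ 2)) +
      1216 * c * lam * |res ε u x| := by
    linarith only [hs, hk, hprod', hid, hg2, neg_abs_le (6 * z ^ 5 * pd 2 ζ x * (u x - x 2 - a) * b),
      neg_abs_le (2 * z ^ 6 * (u x - x 2 - a) * qv 2 u x)]
  have hf : |res ε u x| ≤ |res ε u x| * (1 + |trH u x|) / Real.sqrt lam := by
    rw [le_div_iff₀ (Real.sqrt_pos.2 hl)]
    gcongr
    exact (Real.sqrt_le_one.2 hl1).trans (le_add_of_nonneg_right (abs_nonneg _))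
  rw [div_le_iff₀ hl]
  calc _ ≤ _ := hN
    _ ≤ 304 * pd 2 (Psi ζ u a) x +
      2 * (152 * 36 * 304 * c ^ 4 + 608 * c / d + 152 * 16 * 304 * c ^ 2 / d ^ 2 + 2000 * c ^ 2) *
        lam ^ 2 +
      2432 * c * lam * d * (z ^ 8 * (qv 0 u x ^ 2 + qv 1 u x ^ 2 + ε * trH u x ^ 2)) +
      1216 * c * lam * (|res ε u x| * (1 + |trH u x|) / Real.sqrt lam) := by gcongr
    _ = _ := by field_simp

lemma energy_pointwise (hu : ContDiff ℝ 3 u) (hζ : CutBd c lam ζ) {a : ℝ} (hc : 1 ≤ c)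
    (hl : 0 < lam) (hl1 : lam ≤ 1) (hε : 0 ≤ ε) (hεl : ε ≤ lam) (hx : FlatBd c lam a u x) :
    ζ x ^ 8 * (qv 0 u x ^ 2 + qv 1 u x ^ 2 + ε * trH u x ^ 2) / 8 ≤
      -(∑ j, pd j (Xi (fun y => ζ y ^ 8) u j) x) +
      4 * (10 ^ 6 * (64 * c ^ 2) ^ 2) *
        (ζ x ^ 6 * ((gsq u x - 1) ^ 2 + pLatSq u x ^ 2 + (1 - pd 2 u x) ^ 2) / lam) +
      4 * (10 ^ 6 * (64 * c ^ 2) ^ 2) * lam +
      (250 * (64 * c ^ 2) + 3) * (|res ε u x| * (1 + |trH u x|) / Real.sqrt lam) := by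
  have hR := reg hl hl1 hx.near
  have hpos : 0 < rr u x + pd 2 u x := by linarith only [hR.r_lo, hR.p_lo]
  have hdiv := div_Xi (φ := fun y => ζ y ^ 8) hu (hζ.contDiff.pow 8) hpos
  set C := 64 * c ^ 2
  have hC : 1 ≤ C := by nlinarith only [hc]
  set z := ζ x
  have hz : 0 ≤ z := hζ.nonneg x
  have hz1 : z ≤ 1 := hζ.le_one x
  have hη : (0:ℝ) < 1 / (2000 * C) := by positivity
  have hη1 : 1 / (2000 * C) ≤ 1 := by rw [div_le_one (by positivity)]; linarith only [hC]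
  have hb := R1_bound hR hl hl1 hε hεl (by positivity) hz hz1 hη hη1 (derivBd_pow hζ hc hl hl1 x)
  set E := qv 0 u x ^ 2 + qv 1 u x ^ 2 + ε * trH u x ^ 2
  set f := res ε u x with hf
  set T := trH u x
  set r := rr u x
  have hr : 0 < r := by linarith only [hR.r_lo]
  set R := |f| * (1 + |T|) / Real.sqrt lam
  have hs : 0 < Real.sqrt lam := Real.sqrt_pos.2 hl
  have hR1 : |f| / Real.sqrt lam ≤ R := by
    simp only [R]; gcongr
    exact le_mul_of_one_le_right (abs_nonneg _) (le_add_of_nonneg_right (abs_nonneg _))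
  have hr3 : r ^ 3 ≤ 4 := le_trans (pow_le_pow_left₀ hr.le hR.r_hi 3) (by norm_num)
  have hq : z ^ 8 * E / 4 ≤ z ^ 8 * (BB u x + ε * T ^ 2) / r ^ 3 := by
    refine div_le_div₀ (by have : 0 ≤ BB u x := Finset.sum_nonneg fun i _ => mul_self_nonneg _
                           positivity) ?_ (by positivity) hr3
    refine mul_le_mul_of_nonneg_left ?_ (by positivity)
    simp only [E, BB, Fin.sum_univ_three]
    linarith only [mul_self_nonneg (qv 2 u x)]
  have hfT : z ^ 8 * T * f / r ^ 3 ≤ 3 * R :=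
    calc z ^ 8 * T * f / r ^ 3 ≤ |z ^ 8 * T * f| / r ^ 3 := by gcongr; exact le_abs_self _
      _ ≤ (1 * |T| * |f|) / (27/64) := by
          refine div_le_div₀ (by positivity) ?_ (by norm_num) ?_
          · rw [abs_mul, abs_mul, abs_of_nonneg (by positivity : 0 ≤ z ^ 8)]
            gcongr
            exact pow_le_one₀ hz hz1
          · exact le_trans (by norm_num) (pow_le_pow_left₀ (by norm_num) hR.r_lo 3)
      _ ≤ 3 * (|f| * (1 + |T|) / 1) := by
          have := abs_nonneg f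
          have h' := mul_nonneg (abs_nonneg T) this
          rw [div_one]
          linarith only [this, h']
      _ ≤ _ := by simp only [R]; gcongr; exact Real.sqrt_le_one.2 hl1
  have key : z ^ 8 * (BB u x + ε * T ^ 2) / r ^ 3 =
      z ^ 8 * T * f / r ^ 3 + R1 (fun y => ζ y ^ 8) u x - ∑ j, pd j (Xi (fun y => ζ y ^ 8) u j) x := by
    rw [hdiv, hf, res_eq]
    ring
  set N := (gsq u x - 1) ^ 2 + pLatSq u x ^ 2 + (1 - pd 2 u x) ^ 2
  have hS2 : SS lam u x ^ 2 ≤ 4 * (N + lam ^ 2) := by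
    simp only [SS, N, ← sq_abs (gsq u x - 1), ← sq_abs (1 - pd 2 u x)]
    nlinarith only [sq_nonneg (|gsq u x - 1| - pLatSq u x), sq_nonneg (|gsq u x - 1| - |1 - pd 2 u x|),
      sq_nonneg (|gsq u x - 1| - lam), sq_nonneg (pLatSq u x - |1 - pd 2 u x|),
      sq_nonneg (pLatSq u x - lam), sq_nonneg (|1 - pd 2 u x| - lam)]
  have hU : 10 ^ 6 * C ^ 2 * (z ^ 6 * SS lam u x ^ 2 / lam) ≤
      4 * (10 ^ 6 * C ^ 2) * (z ^ 6 * N / lam) + 4 * (10 ^ 6 * C ^ 2) * lam :=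
    calc _ ≤ 10 ^ 6 * C ^ 2 * (z ^ 6 * (4 * (N + lam ^ 2)) / lam) := by gcongr
      _ = 4 * (10 ^ 6 * C ^ 2) * (z ^ 6 * N / lam) + 4 * (10 ^ 6 * C ^ 2) * (z ^ 6 * lam) := by
          field_simp
      _ ≤ _ := by
          gcongr
          exact mul_le_of_le_one_left hl.le (pow_le_one₀ hz hz1)
  have hcoef : 250 * C * (1 / (2000 * C) * z ^ 8 * E) = z ^ 8 * E / 8 := by field_simp; ring
  have hcoef2 : 500 * C / (1 / (2000 * C)) = 10 ^ 6 * C ^ 2 := by field_simp; ring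
  rw [hcoef, hcoef2] at hb
  have hR2 : 250 * C * (|f| / Real.sqrt lam) ≤ 250 * C * R := by gcongr
  linarith only [key, hq, hfT, le_abs_self (R1 (fun y => ζ y ^ 8) u x), hb, hU, hR2]

lemma pd_zero_outside {F : E3 → ℝ} (h : F =ᶠ[𝓝 x] fun _ => 0) (i : Fin 3) : pd i F x = 0 := by
  simp [pd, h.fderiv_eq]

lemma contDiffAt_Xi (hu : ContDiff ℝ 3 u) {φ : E3 → ℝ} (hφ : ContDiff ℝ 2 φ)
    (h : 0 < rr u x + pd 2 u x) (j : Fin 3) : ContDiffAt ℝ 1 (Xi φ u j) x := by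
  have hr := rr_pos h
  have p : ∀ i, ContDiffAt ℝ 1 (pd i u) x := fun i =>
    ((contDiff_pd (n := 2) hu i).of_le (by norm_num)).contDiffAt
  have p2 : ∀ i k, ContDiffAt ℝ 1 (pd2 i k u) x := fun i k => (contDiff_pd2 hu i k).contDiffAt
  have f1 : ∀ i, ContDiffAt ℝ 1 (pd i φ) x := fun i => (contDiff_pd (n := 1) hφ i).contDiffAt
  have f0 : ContDiffAt ℝ 1 φ x := (hφ.of_le (by norm_num)).contDiffAt
  have g : ContDiffAt ℝ 1 (gsq u) x := ContDiffAt.sum fun i _ => (p i).pow 2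
  have r : ContDiffAt ℝ 1 (rr u) x := g.sqrt (by rw [← rr_sq]; positivity)
  have G : ContDiffAt ℝ 1 (GG u) x := (r.add (p 2)).inv h.ne'
  have ri : ContDiffAt ℝ 1 (fun y => (rr u y)⁻¹) x := r.inv hr.ne'
  have L : ContDiffAt ℝ 1 (LL u) x :=
    ((r.add (p 2)).mul contDiffAt_const).log (by positivity)
  have q : ∀ i, ContDiffAt ℝ 1 (qv i u) x := fun i => ContDiffAt.sum fun k _ => (p2 i k).mul (p k)
  have T : ContDiffAt ℝ 1 (trH u) x := ContDiffAt.sum fun i _ => p2 i i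
  have A : ContDiffAt ℝ 1 (AA u) x := ContDiffAt.sum fun i _ => (q i).mul (p i)
  have ha' : ContDiffAt ℝ 1 (ha u) x := (contDiffAt_const.mul G).sub ri
  have n1 : ContDiffAt ℝ 1 (N1 j u) x := (T.mul (p j)).sub (q j)
  have n2 : ContDiffAt ℝ 1 (N2 j u) x := (contDiffAt_const.mul T).sub (p2 j 2)
  have n3 : ContDiffAt ℝ 1 (N3 j u) x := ((p j).mul (q 2)).sub (contDiffAt_const.mul A)
  have v : ContDiffAt ℝ 1 (VV j u) x :=
    ((ha'.mul n1).add ((contDiffAt_const.mul (r.mul G)).mul n2)).add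
      ((contDiffAt_const.mul (G.mul ri)).mul n3)
  have m : ContDiffAt ℝ 1 (MM u) x :=
    (((p 2).sub (contDiffAt_const.mul (r.mul L))).add
      ((g.sub contDiffAt_const).mul contDiffAt_const)).sub contDiffAt_const
  have hh' : ∀ i, ContDiffAt ℝ 1 (hh i u) x := fun i => by
    by_cases hi : i = 2
    · rw [show hh i u = hk u by funext y; simp [hh, hi]]
      exact contDiffAt_const.sub ((p 2).mul ri)
    · rw [show hh i u = fun y => ha u y * pd i u y by funext y; simp [hh, hi]]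
      exact ha'.mul (p i)
  exact ((f0.mul (v.sub n2)).sub
    ((ContDiffAt.sum fun i _ => (f1 i).mul (hh' i)).mul (p j))).sub ((f1 j).mul m)

end Energy

open Energy in
/-- **Energy estimate.** For a smooth `u` satisfying the flatness and one-sided Bernstein bounds
the lateral derivatives of `|Du|²` and `√ε Δu` are bounded in `L²` at scale `lam²`, and the
first-order deficit quantities in `L²`, independently of the deficit and of `ε/lam`. -/
theorem energy_estimate (c0 : ℝ) : ∃ C : ℝ, 0 ≤ C ∧ ∀ (lam ε a : ℝ) (u ζ : E3 → ℝ),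
    0 < lam → lam ≤ 1 → 0 ≤ ε → ε ≤ lam → ContDiff ℝ 3 u → CutBd c0 lam ζ →
    (∀ x ∈ tsupport ζ, FlatBd c0 lam a u x) →
    (∫ x, ζ x ^ 8 * (qv 0 u x ^ 2 + qv 1 u x ^ 2 + ε * trH u x ^ 2)) +
      (∫ x, ζ x ^ 6 * ((gsq u x - 1) ^ 2 + pLatSq u x ^ 2 + (1 - pd 2 u x) ^ 2)) / lam ≤
      C * lam ^ 2 + C / Real.sqrt lam * ∫ x in tsupport ζ, |res ε u x| * (1 + |trH u x|) := by
  set c := max c0 1
  have hc : 1 ≤ c := le_max_right _ _
  set K1 := 4 * (10 ^ 6 * (64 * c ^ 2) ^ 2)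
  have hK1 : 0 < K1 := by positivity
  set d := 1 / (16 * (K1 + 1) * (2432 * c))
  have hd : 0 < d := by positivity
  set Cd := 2 * (152 * 36 * 304 * c ^ 4 + 608 * c / d + 152 * 16 * 304 * c ^ 2 / d ^ 2 + 2000 * c ^ 2)
  have hCd : 0 ≤ Cd := by positivity
  set K2 := 250 * (64 * c ^ 2) + 3 + (K1 + 1) * (1216 * c)
  have hK2 : 0 ≤ K2 := by positivity
  set K3 := K1 + (K1 + 1) * Cd
  have hK3 : 0 ≤ K3 := by positivity
  refine ⟨16 * (K3 * c) + 16 * K2, by positivity, ?_⟩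
  intro lam ε a u ζ hl hl1 hε hεl hu hζ0 hflat0
  have hs : 0 < Real.sqrt lam := Real.sqrt_pos.2 hl
  have hc0 : c0 ≤ c := le_max_left _ _
  have hζ : CutBd c lam ζ := ⟨hζ0.contDiff, hζ0.compact, hζ0.nonneg, hζ0.le_one,
    fun i hi x => (hζ0.d_lat i hi x).trans (by gcongr), fun x => (hζ0.d_vert x).trans hc0,
    fun i j x => (hζ0.dd i j x).trans (by gcongr),
    fun i x => ⟨(hζ0.dd_mixed i x).1.trans (by gcongr), (hζ0.dd_mixed i x).2.trans (by gcongr)⟩,
    fun x => (hζ0.dd_vert x).trans hc0, hζ0.vol.trans (by gcongr)⟩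
  have hflat : ∀ x ∈ tsupport ζ, FlatBd c lam a u x := fun x hx =>
    ⟨(hflat0 x hx).height.trans (by gcongr), (hflat0 x hx).gsq_le.trans (by gcongr),
      (hflat0 x hx).tilt_le.trans (by gcongr), (hflat0 x hx).near⟩
  set φ : E3 → ℝ := fun y => ζ y ^ 8
  have hφ : ContDiff ℝ 2 φ := hζ.contDiff.pow 8
  set S := tsupport ζ
  have hSc : IsCompact S := hζ.compact
  have hSm : MeasurableSet S := hSc.measurableSet
  -- behaviour outside the support
  have hzero : ∀ x, x ∉ S → ∀ᶠ y in 𝓝 x, ζ y = 0 := fun x hx =>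
    notMem_tsupport_iff_eventuallyEq.1 hx
  have hXi0 : ∀ x, x ∉ S → ∀ j, Xi φ u j =ᶠ[𝓝 x] fun _ => 0 := by
    intro x hx j
    filter_upwards [(hzero x hx).eventually_nhds] with y hy
    have hφy : φ =ᶠ[𝓝 y] fun _ => 0 := hy.mono fun w hw => by simp [φ, hw]
    simp only [Xi, pd_zero_outside hφy, hφy.eq_of_nhds]
    simp
  have hPsi0 : ∀ x, x ∉ S → Psi ζ u a =ᶠ[𝓝 x] fun _ => 0 := fun x hx =>
    (hzero x hx).mono fun y hy => by simp [Psi, hy]
  have hXiC : ∀ j, ContDiff ℝ 1 (Xi φ u j) := fun j => contDiff_iff_contDiffAt.2 fun x => by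
    by_cases hx : x ∈ S
    · have hR := reg hl hl1 (hflat x hx).near
      exact contDiffAt_Xi hu hφ (by linarith only [hR.r_lo, hR.p_lo]) j
    · exact contDiffAt_const.congr_of_eventuallyEq (hXi0 x hx j)
  have hXis : ∀ j, HasCompactSupport (Xi φ u j) := fun j =>
    HasCompactSupport.intro hSc fun x hx => (hXi0 x hx j).eq_of_nhds
  have hg : ContDiff ℝ 1 (gsq u) :=
    ContDiff.sum fun i _ => ((contDiff_pd (n := 2) hu i).of_le (by norm_num)).pow 2
  have hPsiC : ContDiff ℝ 1 (Psi ζ u a) :=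
    (((hζ.contDiff.of_le (by norm_num)).pow 6).mul (((hu.of_le (by norm_num)).sub
      (EuclideanSpace.proj (𝕜 := ℝ) (2 : Fin 3)).contDiff).sub contDiff_const)).mul
      (hg.sub contDiff_const)
  have hPsis : HasCompactSupport (Psi ζ u a) :=
    HasCompactSupport.intro hSc fun x hx => (hPsi0 x hx).eq_of_nhds
  -- integrability
  have cp : ∀ i, Continuous (pd i u) := fun i => (contDiff_pd (n := 2) hu i).continuous
  have cp2 : ∀ i j, Continuous (pd2 i j u) := fun i j => (contDiff_pd2 hu i j).continuous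
  have cq : ∀ i, Continuous (qv i u) := fun i => continuous_finsetSum _ fun j _ => (cp2 i j).mul (cp j)
  have cT : Continuous (trH u) := continuous_finsetSum _ fun i _ => cp2 i i
  have cA : Continuous (AA u) := continuous_finsetSum _ fun i _ => (cq i).mul (cp i)
  have cres : Continuous (res ε u) := by
    rw [show res ε u = fun x => ε * trH u x + AA u x from funext (res_eq ε u)]; fun_prop
  have cζ : Continuous ζ := hζ.contDiff.continuous
  set E : E3 → ℝ := fun x => ζ x ^ 8 * (qv 0 u x ^ 2 + qv 1 u x ^ 2 + ε * trH u x ^ 2)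
  set N : E3 → ℝ := fun x =>
    ζ x ^ 6 * ((gsq u x - 1) ^ 2 + pLatSq u x ^ 2 + (1 - pd 2 u x) ^ 2)
  have cE : Continuous E := by
    have := cq 0; have := cq 1
    fun_prop
  have cN : Continuous N := by
    have := cp 0; have := cp 1; have := cp 2; have := hg.continuous
    unfold N pLatSq
    fun_prop
  have sE : HasCompactSupport E := HasCompactSupport.intro hSc fun x hx => by
    simp [E, image_eq_zero_of_notMem_tsupport hx]
  have sN : HasCompactSupport N := HasCompactSupport.intro hSc fun x hx => by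
    simp [N, image_eq_zero_of_notMem_tsupport hx]
  set B : E3 → ℝ := fun x => K3 * lam + K2 / Real.sqrt lam * (|res ε u x| * (1 + |trH u x|))
  have iB : IntegrableOn B S := (by fun_prop : Continuous B).continuousOn.integrableOn_compact hSc
  set D : E3 → ℝ := fun x =>
    304 * (K1 + 1) / lam * pd 2 (Psi ζ u a) x - ∑ j, pd j (Xi φ u j) x
  have iP : Integrable (pd 2 (Psi ζ u a)) :=
    ((hPsiC.continuous_fderiv one_ne_zero).clm_apply continuous_const).integrable_of_hasCompactSupport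
      (hPsis.fderiv_apply ℝ _)
  have iX : ∀ j, Integrable (pd j (Xi φ u j)) := fun j =>
    (((hXiC j).continuous_fderiv one_ne_zero).clm_apply continuous_const).integrable_of_hasCompactSupport
      ((hXis j).fderiv_apply ℝ _)
  have iD : Integrable D :=
    (iP.const_mul _).sub (integrable_finsetSum _ fun j _ => iX j)
  -- pointwise inequality
  have hpt : ∀ x, E x / 16 + N x / lam ≤ D x + S.indicator B x := by
    intro x
    by_cases hx : x ∈ S
    · rw [indicator_of_mem hx]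
      have e1 := energy_pointwise hu hζ hc hl hl1 hε hεl (hflat x hx)
      have e2 := deficit_pointwise hu hζ hc hl hl1 hε hεl hd (hflat x hx)
      have e2' := mul_le_mul_of_nonneg_left e2 (show 0 ≤ K1 + 1 by positivity)
      have hdd : (K1 + 1) * (2432 * c * d) = 1/16 := by simp only [d]; field_simp
      have hdd' : (K1 + 1) * (2432 * c * d * E x) = 1/16 * E x := by rw [← hdd]; ring
      simp only [D, B, K2, K3]
      simp only [E, N] at hdd' ⊢
      linear_combination e1 + e2' + hdd'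
    · rw [indicator_of_notMem hx]
      simp [D, E, N, pd_zero_outside (hPsi0 x hx), fun j => pd_zero_outside (hXi0 x hx j) j,
        image_eq_zero_of_notMem_tsupport hx]
  have hint := integral_mono
    (((cE.integrable_of_hasCompactSupport sE).div_const 16).add
      ((cN.integrable_of_hasCompactSupport sN).div_const lam))
    (iD.add (iB.integrable_indicator hSm)) hpt
  simp only [Pi.add_apply] at hint
  rw [integral_add ((cE.integrable_of_hasCompactSupport sE).div_const 16)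
      ((cN.integrable_of_hasCompactSupport sN).div_const lam),
    integral_add iD (iB.integrable_indicator hSm), integral_indicator hSm,
    integral_div, integral_div] at hint
  have hD0 : ∫ x, D x = 0 := by
    simp only [D]
    rw [integral_sub (iP.const_mul _) (integrable_finsetSum _ fun j _ => iX j), integral_const_mul,
      integral_finsetSum _ fun j _ => iX j, integral_pd_eq_zero hPsiC hPsis]
    simp [integral_pd_eq_zero (hXiC _) (hXis _)]
  have hB : ∫ x in S, B x ≤ K3 * c * lam ^ 2 +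
      K2 / Real.sqrt lam * ∫ x in S, |res ε u x| * (1 + |trH u x|) := by
    simp only [B]
    rw [integral_add (continuousOn_const.integrableOn_compact hSc)
      (((by fun_prop : Continuous fun x => |res ε u x| * (1 + |trH u x|)).continuousOn.integrableOn_compact hSc).const_mul _),
      setIntegral_const, integral_const_mul, smul_eq_mul]
    refine add_le_add ?_ le_rfl
    calc volume.real S * (K3 * lam) ≤ c * lam * (K3 * lam) :=
          mul_le_mul_of_nonneg_right hζ.vol (by positivity)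
      _ = _ := by ring
  have hE0 : 0 ≤ ∫ x, E x := integral_nonneg fun x => by
    have := hζ.nonneg x; positivity
  have hN0 : 0 ≤ (∫ x, N x) / lam := by
    refine div_nonneg (integral_nonneg fun x => ?_) hl.le
    have := hζ.nonneg x
    positivity
  have hR0 : 0 ≤ ∫ x in S, |res ε u x| * (1 + |trH u x|) :=
    setIntegral_nonneg hSm fun x _ => by positivity
  have hextra : 0 ≤ K3 * c / Real.sqrt lam * (∫ x in S, |res ε u x| * (1 + |trH u x|)) :=
    mul_nonneg (by positivity) hR0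
  have hextra2 : 0 ≤ K2 * lam ^ 2 := by positivity
  rw [hD0] at hint
  show (∫ x, E x) + (∫ x, N x) / lam ≤ _
  linear_combination 16 * hint + 16 * hB + 15 * hN0 + 16 * hextra + 16 * hextra2

end Vale.Agent.P080.C1
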