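import Vale.Agent.P080.C1.Iface
import Vale.Agent.P080.C1.Energy

/-!
# The energy bound on the inner box
-/

namespace Vale.Agent.P080.C1

open scoped ContDiff Topology RealInnerProductSpace
open Set Filter MeasureTheory

namespace Energy

/-- cutoff for `lam = 1` -/
noncomputable def cut1 (x : E3) : ℝ :=
  Real.smoothTransition ((25/64 - x 2 ^ 2) / (25/64 - 1/4)) *
    Real.smoothTransition ((1024 - latSq x) / (1024 - 576))

lemma contDiff_coord (i : Fin 3) {n : WithTop ℕ∞} : ContDiff ℝ n fun x : E3 => x i :=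
  (EuclideanSpace.proj (𝕜 := ℝ) i).contDiff

lemma contDiff_cut1 : ContDiff ℝ 2 cut1 := by
  refine (Real.smoothTransition.contDiff.comp ?_).mul (Real.smoothTransition.contDiff.comp ?_)
  · exact (contDiff_const.sub ((contDiff_coord 2).pow 2)).div_const _
  · exact (contDiff_const.sub (((contDiff_coord 0).pow 2).add ((contDiff_coord 1).pow 2))).div_const _

lemma cut1_eq_zero {x : E3} (h : 5/8 < |x 2| ∨ 1024 < latSq x) : cut1 x = 0 := by
  rcases h with h | h
  · have : (5/8:ℝ) ^ 2 < x 2 ^ 2 := by rw [← sq_abs (x 2)]; gcongr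
    rw [cut1, Real.smoothTransition.zero_of_nonpos (x := (25/64 - x 2 ^ 2) / (25/64 - 1/4))
      (div_nonpos_of_nonpos_of_nonneg (by linarith) (by norm_num)), zero_mul]
  · rw [cut1, Real.smoothTransition.zero_of_nonpos (x := (1024 - latSq x) / (1024 - 576))
      (div_nonpos_of_nonpos_of_nonneg (by linarith) (by norm_num)), mul_zero]

lemma cut1_eq_one {x : E3} (h : |x 2| ≤ 1/2) (h' : latSq x ≤ 576) : cut1 x = 1 := by
  have : x 2 ^ 2 ≤ (1/2:ℝ) ^ 2 := by rw [← sq_abs (x 2)]; gcongr
  rw [cut1, Real.smoothTransition.one_of_one_le, Real.smoothTransition.one_of_one_le, one_mul]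
  · rw [le_div_iff₀ (by norm_num)]; linarith
  · rw [le_div_iff₀ (by norm_num)]; linarith

lemma norm_le_of_mem {x : E3} (h : |x 2| ≤ 5/8) (h' : latSq x ≤ 1024) : ‖x‖ ≤ 33 := by
  have h2 : x 2 ^ 2 ≤ (5/8:ℝ) ^ 2 := by rw [← sq_abs (x 2)]; gcongr
  refine (sq_le_sq₀ (norm_nonneg _) (by norm_num)).1 ?_
  rw [EuclideanSpace.real_norm_sq_eq, Fin.sum_univ_three]
  simp only [latSq] at h'
  linarith

lemma hasCompactSupport_cut1 : HasCompactSupport cut1 :=
  HasCompactSupport.intro (isCompact_closedBall (0 : E3) 33) fun x hx => by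
    by_contra hne
    have : |x 2| ≤ 5/8 ∧ latSq x ≤ 1024 := by
      constructor <;> (by_contra hh; exact hne (cut1_eq_zero (by simp_all)))
    exact hx (by simpa using norm_le_of_mem this.1 this.2)

lemma cut1_mem : (∀ x, 0 ≤ cut1 x) ∧ ∀ x, cut1 x ≤ 1 :=
  ⟨fun _ => mul_nonneg (Real.smoothTransition.nonneg _) (Real.smoothTransition.nonneg _),
    fun _ => mul_le_one₀ (Real.smoothTransition.le_one _) (Real.smoothTransition.nonneg _)
      (Real.smoothTransition.le_one _)⟩

/-- scaling factors -/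
noncomputable def scl (s : ℝ) (i : Fin 3) : ℝ := if i = 2 then 1 else s⁻¹

/-- the parabolic scaling -/
noncomputable def scaleMap (s : ℝ) : E3 →L[ℝ] E3 :=
  ((PiLp.continuousLinearEquiv 2 ℝ fun _ : Fin 3 => ℝ).symm : (Fin 3 → ℝ) →L[ℝ] E3).comp
    (ContinuousLinearMap.pi fun i => scl s i • EuclideanSpace.proj (𝕜 := ℝ) i)

lemma scaleMap_apply (s : ℝ) (x : E3) (i : Fin 3) : scaleMap s x i = scl s i * x i := by
  simp [scaleMap, EuclideanSpace.proj]

lemma scaleMap_single (s : ℝ) (i : Fin 3) :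
    scaleMap s (EuclideanSpace.single i 1) = scl s i • EuclideanSpace.single i (1:ℝ) := by
  ext k
  rw [scaleMap_apply]
  simp [Pi.single_apply]
  split_ifs with h <;> simp [h]

lemma pd_scale {f : E3 → ℝ} (hf : ContDiff ℝ 1 f) (s : ℝ) (i : Fin 3) (x : E3) :
    pd i (fun y => f (scaleMap s y)) x = scl s i * pd i f (scaleMap s x) := by
  have h := (hf.differentiable one_ne_zero (scaleMap s x)).hasFDerivAt.comp x
    (scaleMap s).hasFDerivAt
  simp only [pd]
  rw [show (fun y => f (scaleMap s y)) = f ∘ scaleMap s from rfl, h.fderiv]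
  simp [scaleMap_single]

lemma pd2_scale {f : E3 → ℝ} (hf : ContDiff ℝ 2 f) (s : ℝ) (i j : Fin 3) (x : E3) :
    pd2 i j (fun y => f (scaleMap s y)) x = scl s i * scl s j * pd2 i j f (scaleMap s x) := by
  have h1 : ContDiff ℝ 1 (pd j f) := contDiff_pd (n := 1) hf j
  have e : pd j (fun y => f (scaleMap s y)) = fun y => scl s j * pd j f (scaleMap s y) :=
    funext fun y => pd_scale (hf.of_le (by norm_num)) s j y
  have h2 : HD (fun y => pd j f (scaleMap s y)) x fun k => scl s k * pd2 k j f (scaleMap s x) :=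
    ⟨(h1.differentiable one_ne_zero _).comp x (scaleMap s).differentiableAt,
      fun k => pd_scale h1 s k x⟩
  simp only [pd2] at h2 ⊢
  rw [e, ((HD.const (scl s j)).mul h2).2 i]
  ring

lemma volume_mbox_le {lam : ℝ} (hl : 0 < lam) : volume.real (mbox lam) ≤ 6000 * lam := by
  set S := Real.sqrt lam
  have hS : 0 ≤ S := Real.sqrt_nonneg _
  set K : Set (Fin 3 → ℝ) := Set.Icc ![-(32 * S), -(32 * S), -(5/8)] ![32 * S, 32 * S, 5/8]
  have hsub : mbox lam ⊆ (WithLp.ofLp : E3 → Fin 3 → ℝ) ⁻¹' K := by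
    rintro x ⟨hx2, hx⟩
    have hl0 : ∀ i : Fin 3, i ≠ 2 → |x i| ≤ 32 * S := fun i hi => by
      refine le_trans ?_ hx
      rw [lat, ← Real.sqrt_sq_eq_abs]
      refine Real.sqrt_le_sqrt ?_
      unfold latSq
      fin_cases i
      · exact le_add_of_nonneg_right (sq_nonneg _)
      · exact le_add_of_nonneg_left (sq_nonneg _)
      · exact absurd rfl hi
    constructor <;> intro i <;> fin_cases i
    · simpa using (abs_le.1 (hl0 0 (by decide))).1
    · simpa using (abs_le.1 (hl0 1 (by decide))).1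
    · simpa using (abs_le.1 hx2).1
    · simpa using (abs_le.1 (hl0 0 (by decide))).2
    · simpa using (abs_le.1 (hl0 1 (by decide))).2
    · simpa using (abs_le.1 hx2).2
  have hKm : MeasurableSet K := measurableSet_Icc
  have hvol : volume ((WithLp.ofLp : E3 → Fin 3 → ℝ) ⁻¹' K) =
      ENNReal.ofReal ((64 * S) * (64 * S) * (5/4)) := by
    rw [(PiLp.volume_preserving_ofLp (Fin 3)).measure_preimage hKm.nullMeasurableSet,
      Real.volume_Icc_pi]
    simp [Fin.prod_univ_three]
    rw [← ENNReal.ofReal_mul (by positivity), ← ENNReal.ofReal_mul (by positivity)]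
    congr 1
    ring
  calc volume.real (mbox lam) ≤ (volume ((WithLp.ofLp : E3 → Fin 3 → ℝ) ⁻¹' K)).toReal :=
        ENNReal.toReal_mono (by rw [hvol]; exact ENNReal.ofReal_ne_top) (measure_mono hsub)
    _ = 64 * 64 * (5/4) * (S * S) := by
        rw [hvol, ENNReal.toReal_ofReal (by positivity)]; ring
    _ ≤ _ := by rw [Real.mul_self_sqrt hl.le]; linarith

lemma continuous_lat : Continuous lat :=
  (((contDiff_coord 0 (n := 0)).continuous.pow 2).add
    ((contDiff_coord 1 (n := 0)).continuous.pow 2)).sqrt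

lemma isClosed_box (a b : ℝ) : IsClosed {x : E3 | |x 2| ≤ a ∧ lat x ≤ b} :=
  IsClosed.and (isClosed_le ((contDiff_coord 2 (n := 0)).continuous.abs) continuous_const)
    (isClosed_le continuous_lat continuous_const)

lemma isCompact_mbox {lam : ℝ} (hl : 0 ≤ lam) (hl1 : lam ≤ 1) : IsCompact (mbox lam) := by
  refine (isCompact_closedBall (0 : E3) 33).of_isClosed_subset (isClosed_box _ _) fun x hx => ?_
  have h := (Real.sqrt_le_left (by positivity : (0:ℝ) ≤ 32 * Real.sqrt lam)).1 hx.2
  rw [mul_pow, Real.sq_sqrt hl] at h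
  simpa using norm_le_of_mem hx.1 (by linarith)

lemma exists_cutoff : ∃ c : ℝ, 0 ≤ c ∧ ∀ lam : ℝ, 0 < lam → lam ≤ 1 →
    ∃ ζ : E3 → ℝ, CutBd c lam ζ ∧ tsupport ζ ⊆ mbox lam ∧ ∀ x ∈ kbox lam, ζ x = 1 := by
  have h1 : ∀ i, ∃ C, ∀ x, |pd i cut1 x| ≤ C := fun i =>
    ((contDiff_pd (n := 1) contDiff_cut1 i).continuous).bounded_above_of_compact_support
      (hasCompactSupport_cut1.fderiv_apply ℝ _)
  have h2 : ∀ i j, ∃ C, ∀ x, |pd2 i j cut1 x| ≤ C := fun i j =>
    (((contDiff_pd (n := 1) contDiff_cut1 j).continuous_fderiv one_ne_zero).clm_apply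
      continuous_const).bounded_above_of_compact_support
      ((hasCompactSupport_cut1.fderiv_apply ℝ _).fderiv_apply ℝ _)
  choose C1 hC1 using h1
  choose C2 hC2 using h2
  set c := max 6000 (∑ i, |C1 i| + ∑ i, ∑ j, |C2 i j|)
  have hc1 : ∀ i x, |pd i cut1 x| ≤ c := fun i x =>
    (hC1 i x).trans <| (le_abs_self _).trans <|
      (Finset.single_le_sum (fun k _ => abs_nonneg (C1 k)) (Finset.mem_univ i)).trans <|
      (le_add_of_nonneg_right (Finset.sum_nonneg fun k _ => Finset.sum_nonneg fun l _ => abs_nonneg _)).trans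
        (le_max_right _ _)
  have hc2 : ∀ i j x, |pd2 i j cut1 x| ≤ c := fun i j x =>
    (hC2 i j x).trans <| (le_abs_self _).trans <|
      (Finset.single_le_sum (fun l _ => abs_nonneg (C2 i l)) (Finset.mem_univ j)).trans <|
      (Finset.single_le_sum (f := fun k => ∑ l, |C2 k l|)
        (fun k _ => Finset.sum_nonneg fun l _ => abs_nonneg _) (Finset.mem_univ i)).trans <|
      (le_add_of_nonneg_left (Finset.sum_nonneg fun k _ => abs_nonneg _)).trans (le_max_right _ _)
  have hc : 0 ≤ c := le_trans (by norm_num) (le_max_left _ _)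
  refine ⟨c, hc, fun lam hl hl1 => ?_⟩
  set s := Real.sqrt lam
  have hs : 0 < s := Real.sqrt_pos.2 hl
  have hs2 : s ^ 2 = lam := Real.sq_sqrt hl.le
  have hs1 : s ≤ 1 := Real.sqrt_le_one.2 hl1
  have hi1 : 1 ≤ s⁻¹ := (one_le_inv₀ hs).2 hs1
  have hscl : ∀ i, 0 ≤ scl s i ∧ scl s i ≤ s⁻¹ := fun i => by
    unfold scl; split_ifs <;> constructor <;> linarith
  have hlat : ∀ x : E3, latSq (scaleMap s x) = latSq x / lam := fun x => by
    simp only [latSq, scaleMap_apply, scl, Fin.reduceEq, if_false, ← hs2]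
    field_simp
  have hx2 : ∀ x : E3, (scaleMap s x) 2 = x 2 := fun x => by simp [scaleMap_apply, scl]
  set ζ : E3 → ℝ := fun x => cut1 (scaleMap s x)
  have hsupp : tsupport ζ ⊆ mbox lam := by
    have hcl : IsClosed (mbox lam) := isClosed_box _ _
    refine closure_minimal (fun x hx => ?_) hcl
    by_contra hn
    refine hx (cut1_eq_zero ?_)
    rw [hx2, hlat]
    by_contra hh
    push Not at hh
    refine hn ⟨hh.1, ?_⟩
    rw [lat, Real.sqrt_le_left (by positivity), mul_pow, hs2]
    have := (div_le_iff₀ hl).1 hh.2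
    linarith
  have hbox : IsCompact (mbox lam) := isCompact_mbox hl.le hl1
  refine ⟨ζ, ⟨contDiff_cut1.comp (scaleMap s).contDiff,
    hbox.of_isClosed_subset (isClosed_tsupport _) hsupp, fun x => cut1_mem.1 _, fun x => cut1_mem.2 _,
    ?_, ?_, ?_, ?_, ?_, ?_⟩, hsupp, ?_⟩
  · intro i hi x
    rw [pd_scale (contDiff_cut1.of_le (by norm_num)), abs_mul, abs_of_nonneg (hscl i).1]
    calc _ ≤ s⁻¹ * c := by gcongr; exacts [(hscl i).2, hc1 i _]
      _ = c / s := by ring
  · intro x
    rw [pd_scale (contDiff_cut1.of_le (by norm_num))]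
    simpa [scl] using hc1 2 _
  · intro i j x
    rw [pd2_scale contDiff_cut1, abs_mul, abs_of_nonneg (mul_nonneg (hscl i).1 (hscl j).1)]
    calc _ ≤ s⁻¹ * s⁻¹ * c := by
          gcongr
          exacts [(hscl j).1, (hscl i).2, (hscl j).2, hc2 i j _]
      _ = c / lam := by rw [← hs2]; field_simp
  · intro i x
    rw [pd2_scale contDiff_cut1, pd2_scale contDiff_cut1]
    have : scl s 2 = 1 := by simp [scl]
    rw [this, mul_one, one_mul, abs_mul, abs_mul, abs_of_nonneg (hscl i).1, div_eq_inv_mul]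
    constructor <;> gcongr
    exacts [(hscl i).2, hc2 i 2 _, (hscl i).2, hc2 2 i _]
  · intro x
    rw [pd2_scale contDiff_cut1]
    simpa [scl] using hc2 2 2 _
  · calc volume.real (tsupport ζ) ≤ volume.real (mbox lam) :=
          measureReal_mono hsupp hbox.measure_lt_top.ne
      _ ≤ 6000 * lam := volume_mbox_le hl
      _ ≤ _ := by gcongr; exact le_max_left _ _
  · intro x hx
    refine cut1_eq_one (by rw [hx2]; exact hx.1) ?_
    rw [hlat, div_le_iff₀ hl]
    have h := (Real.sqrt_le_left (by positivity : (0:ℝ) ≤ 24 * s)).1 hx.2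
    rw [mul_pow, hs2] at h
    linarith

/-- Cauchy-Schwarz on a compact set -/
lemma integral_mul_le_sqrt {f g : E3 → ℝ} (hf : Continuous f) (hg : Continuous g) {K : Set E3}
    (hK : IsCompact K) (hf0 : ∀ x, 0 ≤ f x) (hg0 : ∀ x, 0 ≤ g x) :
    ∫ x in K, f x * g x ≤ Real.sqrt (∫ x in K, f x ^ 2) * Real.sqrt (∫ x in K, g x ^ 2) := by
  have : Fact (volume K < ⊤) := ⟨hK.measure_lt_top⟩
  have hm : ∀ {h : E3 → ℝ}, Continuous h → MemLp h (ENNReal.ofReal 2) (volume.restrict K) := by
    intro h hh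
    obtain ⟨C, hC⟩ := hK.exists_bound_of_continuousOn hh.continuousOn
    exact MemLp.of_bound hh.aestronglyMeasurable C
      (by filter_upwards [ae_restrict_mem hK.measurableSet] with x hx using hC x hx)
  have := integral_mul_le_Lp_mul_Lq_of_nonneg Real.HolderConjugate.two_two
    (ae_of_all _ hf0) (ae_of_all _ hg0) (hm hf) (hm hg)
  simpa [Real.sqrt_eq_rpow] using this

end Energy

open Energy in
/-- (E) -/
theorem energyOut : EnergyOut := by
  intro A
  obtain ⟨c, hc, hcut⟩ := exists_cutoff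
  set c0 := max c (max A 3)
  obtain ⟨C, hC, hen⟩ := energy_estimate c0
  refine ⟨C + 1, 1/8, by linarith, by norm_num, fun lam ε hl hlδ hε hεl => ?_⟩
  have hl1 : lam ≤ 1 := by linarith
  obtain ⟨ζ, hζ, hsupp, hone⟩ := hcut lam hl hl1
  set V := volume.real (mbox lam)
  refine ⟨C / Real.sqrt lam * (Real.sqrt (2 * V) + Real.sqrt 6), fun u hu => ?_⟩
  have hu3 : ContDiff ℝ 3 u := contDiff_infty.1 hu.smooth 3
  have hs : 0 < Real.sqrt lam := Real.sqrt_pos.2 hl
  have hs1 : Real.sqrt lam ≤ 1 := Real.sqrt_le_one.2 hl1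
  have hζ0 : CutBd c0 lam ζ := by
    have h : c ≤ c0 := le_max_left _ _
    exact ⟨hζ.contDiff, hζ.compact, hζ.nonneg, hζ.le_one,
      fun i hi x => (hζ.d_lat i hi x).trans (by gcongr), fun x => (hζ.d_vert x).trans h,
      fun i j x => (hζ.dd i j x).trans (by gcongr),
      fun i x => ⟨(hζ.dd_mixed i x).1.trans (by gcongr), (hζ.dd_mixed i x).2.trans (by gcongr)⟩,
      fun x => (hζ.dd_vert x).trans h, hζ.vol.trans (by gcongr)⟩
  have hflat : ∀ x ∈ tsupport ζ, FlatBd c0 lam 0 u x := by
    intro x hx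
    have hm := hsupp hx
    have hA : A ≤ c0 := (le_max_left _ _).trans (le_max_right _ _)
    have h3 : 3 ≤ c0 := (le_max_right _ _).trans (le_max_right _ _)
    refine ⟨?_, (hu.upper x hm).trans (by gcongr), (hu.tilt x hm).trans (by gcongr), ?_⟩
    · rw [sub_zero]; exact (hu.flat x hm).trans (by gcongr)
    · refine (sq_le_sq₀ (norm_nonneg _) (by norm_num)).1 ?_
      rw [EuclideanSpace.real_norm_sq_eq, Fin.sum_univ_three]
      have h0 := hu.slopeLat x hm
      have h2 : (pd 2 u x - 1) ^ 2 ≤ (1/8) ^ 2 := by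
        rw [← sq_abs]; gcongr
        exact (hu.slope3 x hm).trans (mul_le_of_le_one_right (by norm_num) hs1)
      simp only [pLatSq] at h0
      simp [grad, e3]
      linarith
  have main := hen lam ε 0 u ζ hl hl1 hε.le hεl hu3 hζ0 hflat
  have cp : ∀ i, Continuous (pd i u) := fun i => (contDiff_pd (n := 2) hu3 i).continuous
  have cp2 : ∀ i j, Continuous (pd2 i j u) := fun i j => (contDiff_pd2 hu3 i j).continuous
  have cq : ∀ i, Continuous (qv i u) := fun i =>
    continuous_finsetSum _ fun j _ => (cp2 i j).mul (cp j)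
  have cT : Continuous (trH u) := continuous_finsetSum _ fun i _ => cp2 i i
  have cg : Continuous (gsq u) := continuous_finsetSum _ fun i _ => (cp i).pow 2
  have cA : Continuous (AA u) := continuous_finsetSum _ fun i _ => (cq i).mul (cp i)
  have cres : Continuous (res ε u) := by
    rw [show res ε u = fun x => ε * trH u x + AA u x from funext (res_eq ε u)]; fun_prop
  have cH : Continuous (hessSq u) :=
    continuous_finsetSum _ fun i _ => continuous_finsetSum _ fun j _ => (cp2 i j).pow 2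
  have cz := hζ.contDiff.continuous
  have hbox : IsCompact (mbox lam) := isCompact_mbox hl.le hl1
  have kmeas : MeasurableSet (kbox lam) := (isClosed_box _ _).measurableSet
  have hin : ∀ (n : ℕ) (F : E3 → ℝ), 0 < n → Continuous F → (∀ x, 0 ≤ F x) →
      ∫ x in kbox lam, F x ≤ ∫ x, ζ x ^ n * F x := fun n F hn hF hF0 => by
    calc ∫ x in kbox lam, F x = ∫ x in kbox lam, ζ x ^ n * F x :=
          setIntegral_congr_fun kmeas fun x hx => by simp [hone x hx]
      _ ≤ _ := by
          refine setIntegral_le_integral ((cz.pow n).mul hF |>.integrable_of_hasCompactSupport ?_)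
            (ae_of_all _ fun x => mul_nonneg (pow_nonneg (hζ.nonneg x) n) (hF0 x))
          exact HasCompactSupport.intro hζ.compact fun x hx => by
            simp [image_eq_zero_of_notMem_tsupport hx, zero_pow hn.ne']
  have hE := hin 8 (fun x => qv 0 u x ^ 2 + qv 1 u x ^ 2 + ε * trH u x ^ 2) (by norm_num)
    (by have := cq 0; have := cq 1; fun_prop) fun x => by positivity
  have hN := hin 6 (fun x => (gsq u x - 1) ^ 2 + pLatSq u x ^ 2 + (1 - pd 2 u x) ^ 2) (by norm_num)
    (by have := cp 0; have := cp 1; have := cp 2; unfold pLatSq; fun_prop) fun x => by positivity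
  have hres : ∫ x in tsupport ζ, |res ε u x| * (1 + |trH u x|) ≤
      Real.sqrt (∫ x in mbox lam, res ε u x ^ 2) *
        ((Real.sqrt (2 * V) + Real.sqrt 6) * (1 + Real.sqrt (∫ x in mbox lam, hessSq u x))) := by
    have h1 : ∫ x in tsupport ζ, |res ε u x| * (1 + |trH u x|) ≤
        ∫ x in mbox lam, |res ε u x| * (1 + |trH u x|) :=
      setIntegral_mono_set ((by fun_prop : Continuous fun x => |res ε u x| * (1 + |trH u x|)).continuousOn.integrableOn_compact hbox)
        (ae_of_all _ fun x => by positivity) (Eventually.of_forall hsupp)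
    refine h1.trans ((integral_mul_le_sqrt cres.abs (by fun_prop) hbox (fun x => abs_nonneg _)
      fun x => by positivity).trans ?_)
    simp only [sq_abs]
    gcongr
    have hI : 0 ≤ ∫ x in mbox lam, hessSq u x := setIntegral_nonneg hbox.measurableSet fun x _ =>
      Finset.sum_nonneg fun i _ => Finset.sum_nonneg fun j _ => sq_nonneg _
    set I := ∫ x in mbox lam, hessSq u x
    have h2 : ∫ x in mbox lam, (1 + |trH u x|) ^ 2 ≤ 2 * V + 6 * I := by
      calc ∫ x in mbox lam, (1 + |trH u x|) ^ 2 ≤ ∫ x in mbox lam, (2 + 6 * hessSq u x) := by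
            refine setIntegral_mono_on ((by fun_prop : Continuous fun x => (1 + |trH u x|) ^ 2).continuousOn.integrableOn_compact hbox)
              ((by fun_prop : Continuous fun x => 2 + 6 * hessSq u x).continuousOn.integrableOn_compact hbox)
              hbox.measurableSet fun x _ => ?_
            nlinarith [trH_sq_le u x, sq_nonneg (|trH u x| - 1), sq_abs (trH u x)]
        _ = _ := by
            rw [integral_add (continuousOn_const.integrableOn_compact hbox)
              ((cH.continuousOn.integrableOn_compact hbox).const_mul 6), setIntegral_const,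
              integral_const_mul, smul_eq_mul]
            ring
    have hV : 0 ≤ V := measureReal_nonneg
    calc Real.sqrt (∫ x in mbox lam, (1 + |trH u x|) ^ 2) ≤ Real.sqrt (2 * V + 6 * I) :=
          Real.sqrt_le_sqrt h2
      _ ≤ Real.sqrt (2 * V) + Real.sqrt 6 * Real.sqrt I := by
          rw [← Real.sqrt_mul (by norm_num) I, Real.sqrt_le_left (by positivity)]
          nlinarith [Real.sq_sqrt (show 0 ≤ 2 * V by positivity),
            Real.sq_sqrt (show 0 ≤ 6 * I by positivity),
            mul_nonneg (Real.sqrt_nonneg (2 * V)) (Real.sqrt_nonneg (6 * I))]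
      _ ≤ _ := by
          have := mul_nonneg (Real.sqrt_nonneg (2 * V)) (Real.sqrt_nonneg I)
          linarith [Real.sqrt_nonneg (6:ℝ)]
  calc energy lam ε u ≤ (∫ x, ζ x ^ 8 * (qv 0 u x ^ 2 + qv 1 u x ^ 2 + ε * trH u x ^ 2)) +
        (∫ x, ζ x ^ 6 * ((gsq u x - 1) ^ 2 + pLatSq u x ^ 2 + (1 - pd 2 u x) ^ 2)) / lam := by
        unfold energy; gcongr
    _ ≤ _ := main
    _ ≤ C * lam ^ 2 + C / Real.sqrt lam * (Real.sqrt (∫ x in mbox lam, res ε u x ^ 2) *
        ((Real.sqrt (2 * V) + Real.sqrt 6) * (1 + Real.sqrt (∫ x in mbox lam, hessSq u x)))) := by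
        gcongr
    _ ≤ _ := by
        have : 0 ≤ lam ^ 2 := sq_nonneg _
        linarith

end Vale.Agent.P080.C1
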