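import Vale.Agent.P080.C1.Slope
import Vale.Agent.P080.Cone
import Mathlib.Analysis.Calculus.FDeriv.Comp
import Mathlib.Analysis.Calculus.MeanValue

/-!
# From the slope bound to continuous differentiability

Near every point an infinity-harmonic function is, at some small scale, as close as wished to a
linear function (whose direction may a priori depend on the scale); the slope bound then gives a
local Lipschitz bound for the difference, hence continuous differentiability.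
-/

namespace Vale.Agent.P080.C1

open scoped ContDiff Topology RealInnerProductSpace
open Set Filter Metric

namespace Final

/-- local Lipschitz constants at a point -/
def lipSet (u : E3 → ℝ) (U : Set E3) (x0 : E3) : Set ℝ :=
  {k | 0 ≤ k ∧ ∃ r, 0 < r ∧ ball x0 r ⊆ U ∧
    ∀ x ∈ ball x0 r, ∀ y ∈ ball x0 r, u y - u x ≤ k * ‖y - x‖}

/-- the pointwise Lipschitz constant -/
noncomputable def lipAt (u : E3 → ℝ) (U : Set E3) (x0 : E3) : ℝ := sInf (lipSet u U x0)

lemma lipSet_neg (u : E3 → ℝ) (U : Set E3) (x0 : E3) :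
    lipSet (fun x => -u x) U x0 = lipSet u U x0 := by
  ext k
  constructor <;>
  · rintro ⟨hk, r, hr, hU, h⟩
    refine ⟨hk, r, hr, hU, fun x hx y hy => ?_⟩
    have := h y hy x hx
    rw [norm_sub_rev] at this
    linarith

lemma lipSet_bddBelow (u : E3 → ℝ) (U : Set E3) (x0 : E3) : BddBelow (lipSet u U x0) :=
  ⟨0, fun _ hk => hk.1⟩

variable {u : E3 → ℝ} {U : Set E3} {x0 : E3}

/-- A bound on one sphere gives a bound on nearby pairs. -/
lemma mem_lipSet_of_sphere (hu : IsSub u U) {ρ k k' : ℝ} (hρ : 0 < ρ)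
    (hU : closedBall x0 (2 * ρ) ⊆ U) (hk : k < k') (hk' : 0 ≤ k')
    (hs : ∀ y, ‖y - x0‖ = ρ → u y - u x0 ≤ k * ρ) : k' ∈ lipSet u U x0 := by
  have huc : UniformContinuousOn u (closedBall x0 (2 * ρ)) :=
    (isCompact_closedBall _ _).uniformContinuousOn_of_continuous (hu.1.mono hU)
  obtain ⟨d, hd, hdu⟩ := Metric.uniformContinuousOn_iff.1 huc ((k' - k) * ρ / 2)
    (by have := sub_pos.2 hk; positivity)
  set r := min d ρ / 2 with hr
  have hr0 : 0 < r := half_pos (lt_min hd hρ)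
  have hrd : r < d := (half_lt_self (lt_min hd hρ)).trans_le (min_le_left _ _)
  have hrρ : r ≤ ρ / 2 := div_le_div_of_nonneg_right (min_le_right _ _) two_pos.le
  refine ⟨hk', r, hr0, (ball_subset_closedBall.trans
    (closedBall_subset_closedBall (by linarith))).trans hU, fun x hx y hy => ?_⟩
  rw [mem_ball, dist_eq_norm] at hx hy
  have hcone := hu.cone (x := x) (ρ := ρ) (k := k') hρ hk'
    ((closedBall_subset_closedBall' (by rw [dist_eq_norm]; linarith)).trans hU)
    (fun w hw => ?_) (y := y) ?_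
  · linarith
  · set w0 := x0 + (w - x) with hw0
    have hw0n : ‖w0 - x0‖ = ρ := by rw [hw0, add_sub_cancel_left, hw]
    have hwx : ‖w - x0‖ ≤ 2 * ρ := by
      calc ‖w - x0‖ = ‖(w - x) + (x - x0)‖ := by congr 1; abel
        _ ≤ ρ + r := (norm_add_le _ _).trans (by rw [hw]; linarith)
        _ ≤ 2 * ρ := by linarith
    have h1 := hdu w (by rwa [mem_closedBall, dist_eq_norm]) w0
      (by rw [mem_closedBall, dist_eq_norm, hw0n]; linarith)
      (by
        rw [dist_eq_norm, hw0, show w - (x0 + (w - x)) = x - x0 by abel]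
        linarith)
    have h2 := hdu x0 (mem_closedBall_self (by linarith)) x
      (by rw [mem_closedBall, dist_eq_norm]; linarith)
      (by rw [dist_eq_norm, norm_sub_rev]; linarith)
    rw [Real.dist_eq, abs_lt] at h1 h2
    have h3 := hs w0 hw0n
    linarith
  · calc ‖y - x‖ = ‖(y - x0) - (x - x0)‖ := by congr 1; abel
      _ ≤ ‖y - x0‖ + ‖x - x0‖ := norm_sub_le _ _
      _ ≤ ρ := by linarith

lemma lipSet_nonempty (hu : IsSub u U) (hUo : IsOpen U) (hx : x0 ∈ U) :
    (lipSet u U x0).Nonempty := by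
  obtain ⟨R, hR, hRU⟩ := nhds_basis_closedBall.mem_iff.1 (hUo.mem_nhds hx)
  obtain ⟨C, hC⟩ := (isCompact_closedBall x0 R).bddAbove_image (hu.1.mono hRU)
  refine ⟨max ((C - u x0) / (R / 2)) 0 + 1, mem_lipSet_of_sphere hu (ρ := R / 2)
    (k := max ((C - u x0) / (R / 2)) 0) (half_pos hR) (by rwa [mul_div_cancel₀ _ two_ne_zero])
    (lt_add_one _) (by positivity) fun y hy => ?_⟩
  have h1 : u y ≤ C := hC ⟨y, by rw [mem_closedBall, dist_eq_norm, hy]; linarith, rfl⟩
  have h2 := mul_le_mul_of_nonneg_right (le_max_left ((C - u x0) / (R / 2)) 0) (half_pos hR).le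
  rw [div_mul_cancel₀ _ (half_pos hR).ne'] at h2
  linarith

lemma lipAt_nonneg (u : E3 → ℝ) (U : Set E3) (x0 : E3) : 0 ≤ lipAt u U x0 :=
  Real.sInf_nonneg fun _ hk => hk.1

/-- On each small sphere the maximal increase is at least `lipAt` times the radius. -/
lemma exists_sphere (hu : IsSub u U) (hL : 0 < lipAt u U x0) {ρ : ℝ} (hρ : 0 < ρ)
    (hU : closedBall x0 (2 * ρ) ⊆ U) :
    ∃ n : E3, ‖n‖ = 1 ∧ lipAt u U x0 * ρ ≤ u (x0 + ρ • n) - u x0 := by
  set L := lipAt u U x0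
  have hsc : sphere x0 ρ ⊆ U := (sphere_subset_closedBall.trans
    (closedBall_subset_closedBall (by linarith))).trans hU
  obtain ⟨y, hy, hmax⟩ := (isCompact_sphere x0 ρ).exists_isMaxOn
    (NormedSpace.sphere_nonempty.2 hρ.le) (hu.1.mono hsc)
  rw [mem_sphere, dist_eq_norm] at hy
  refine ⟨ρ⁻¹ • (y - x0), ?_, ?_⟩
  · rw [norm_smul, hy, Real.norm_of_nonneg (by positivity), inv_mul_cancel₀ hρ.ne']
  rw [smul_inv_smul₀ hρ.ne', add_sub_cancel]
  by_contra hlt
  rw [not_le, ← div_lt_iff₀ hρ] at hlt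
  obtain ⟨k', hk1, hk2⟩ := exists_between (max_lt hlt hL)
  have hmem := mem_lipSet_of_sphere hu (x0 := x0) (k := (u y - u x0) / ρ) (k' := k') hρ hU
    ((le_max_left _ _).trans_lt hk1) ((le_max_right _ _).trans hk1.le) fun w hw => by
      rw [div_mul_cancel₀ _ hρ.ne']
      have := hmax (show w ∈ sphere x0 ρ by rw [mem_sphere, dist_eq_norm, hw])
      simp only [mem_ofPred_eq] at this
      linarith
  have : L ≤ k' := csInf_le (lipSet_bddBelow u U x0) hmem
  linarith

/-- the sphere point seen from inside -/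
lemma norm_axis_sub_le {n z : E3} {T : ℝ} (hn : ‖n‖ = 1) (hT : 0 < T) (hz : ‖z‖ ≤ T) :
    ‖T • n - z‖ ≤ T - ⟪n, z⟫ + ‖z‖ ^ 2 / (2 * T) := by
  have hp : ⟪n, z⟫ ≤ T := (real_inner_le_norm n z).trans (by rw [hn, one_mul]; exact hz)
  have hq : 0 ≤ ‖z‖ ^ 2 / (2 * T) := by positivity
  refine le_of_pow_le_pow_left₀ two_ne_zero (by linarith) ?_
  rw [norm_sub_sq_real, norm_smul, hn, real_inner_smul_left, Real.norm_of_nonneg hT.le]
  have e : 2 * T * (‖z‖ ^ 2 / (2 * T)) = ‖z‖ ^ 2 := by field_simp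
  nlinarith [sq_nonneg (‖z‖ ^ 2 / (2 * T) - ⟪n, z⟫)]

/-- Near every point the function is close, at some small scale, to a linear function. -/
lemma exists_flat (hu : IH u U) (hUo : IsOpen U) (hx : x0 ∈ U) (hL : 0 < lipAt u U x0) {lam : ℝ}
    (hlam : 0 < lam) :
    ∃ (n : E3) (r : ℝ), ‖n‖ = 1 ∧ 0 < r ∧ closedBall x0 (2 * r) ⊆ U ∧
      ∀ z : E3, ‖z‖ ≤ 2 * r →
        |u (x0 + z) - u x0 - lipAt u U x0 * ⟪n, z⟫| ≤ lam * (lipAt u U x0 * r) := by
  set L := lipAt u U x0 with hLdef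
  set δ := min 1 ((lam / 16) ^ 2) with hδ
  have hδ0 : 0 < δ := lt_min one_pos (by positivity)
  set s := Real.sqrt δ with hs
  have hs0 : 0 < s := Real.sqrt_pos.2 hδ0
  have hss : s * s = δ := Real.mul_self_sqrt hδ0.le
  have hs1 : s ≤ 1 := Real.sqrt_le_one.2 (min_le_left _ _)
  have hsl : 16 * s ≤ lam := by
    have := Real.sqrt_le_sqrt (min_le_right 1 ((lam / 16) ^ 2))
    rw [Real.sqrt_sq (by positivity), ← hδ, ← hs] at this
    linarith
  obtain ⟨k, hk, hkL⟩ := exists_lt_of_csInf_lt (lipSet_nonempty hu.1 hUo hx)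
    (show sInf (lipSet u U x0) < L * (1 + δ) by
      change L < _; nlinarith [mul_pos hL hδ0])
  obtain ⟨hk0, r0, hr0, hr0U, hlip⟩ := hk
  have hlip' : ∀ z w : E3, ‖z‖ < r0 → ‖w‖ < r0 →
      u (x0 + w) - u (x0 + z) ≤ L * (1 + δ) * ‖w - z‖ := fun z w hz hw => by
    have := hlip (x0 + z) (by rwa [mem_ball, dist_eq_norm, add_sub_cancel_left]) (x0 + w)
      (by rwa [mem_ball, dist_eq_norm, add_sub_cancel_left])
    rw [add_sub_add_left_eq_sub] at this
    exact this.trans (mul_le_mul_of_nonneg_right hkL.le (norm_nonneg _))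
  set T := r0 / 4 with hT
  have hT0 : 0 < T := by positivity
  set r := T * s / 4 with hr
  have hrr : 0 < r := by positivity
  have hrT : 2 * r ≤ T := by rw [hr]; nlinarith
  have hT2 : closedBall x0 (2 * T) ⊆ U :=
    (closedBall_subset_ball (by linarith)).trans hr0U
  obtain ⟨n, hn, hnT⟩ := exists_sphere hu.1 hL hT0 hT2
  obtain ⟨m, hm, hmT⟩ := exists_sphere (x0 := x0) hu.2
    (by rw [lipAt, lipSet_neg]; exact hL) hT0 hT2
  rw [lipAt, lipSet_neg, ← lipAt, ← hLdef] at hmT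
  have hn0 : ‖T • n‖ < r0 := by
    rw [norm_smul, hn, Real.norm_of_nonneg hT0.le]; linarith
  have hm0 : ‖T • m‖ < r0 := by
    rw [norm_smul, hm, Real.norm_of_nonneg hT0.le]; linarith
  have hsum : ‖n + m‖ ≤ 4 * s := by
    have h1 := hlip' _ _ hm0 hn0
    rw [← smul_sub, norm_smul, Real.norm_of_nonneg hT0.le] at h1
    have h2 : 2 * (L * T) ≤ (1 + δ) * ‖n - m‖ * (L * T) := by
      calc 2 * (L * T) ≤ L * (1 + δ) * (T * ‖n - m‖) := by linarith
        _ = _ := by ring
    have h3 : 2 ≤ (1 + δ) * ‖n - m‖ := le_of_mul_le_mul_right h2 (mul_pos hL hT0)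
    have hn2 : ‖n - m‖ ≤ 2 := by
      refine (norm_sub_le n m).trans ?_; rw [hn, hm]; norm_num
    have h4 : 2 - 2 * δ ≤ ‖n - m‖ := by nlinarith
    refine le_of_pow_le_pow_left₀ two_ne_zero (by positivity) ?_
    have hp := parallelogram_law_with_norm ℝ n m
    rw [hn, hm] at hp
    rw [mul_pow, sq s, hss]
    nlinarith [norm_nonneg (n - m)]
  refine ⟨n, r, hn, hrr, (closedBall_subset_closedBall (by linarith)).trans hT2, fun z hz => ?_⟩
  have hzr : ‖z‖ < r0 := by linarith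
  have hzT : ‖z‖ ≤ T := hz.trans hrT
  have hq : ‖z‖ ^ 2 / (2 * T) ≤ s * r := by
    rw [div_le_iff₀ (by positivity)]
    calc ‖z‖ ^ 2 ≤ (2 * r) ^ 2 := pow_le_pow_left₀ (norm_nonneg z) hz 2
      _ = s * r * T := by rw [hr]; ring
      _ ≤ s * r * (2 * T) := by gcongr; linarith
  have hLd : 0 ≤ L * (1 + δ) := by positivity
  have hTδ : δ * T = 4 * (s * r) := by rw [← hss, hr]; ring
  have hδs : δ ≤ s := by rw [← hss]; exact mul_le_of_le_one_left hs0.le hs1
  have hb : ∀ v : E3, ‖v‖ = 1 → |⟪v, z⟫| ≤ 2 * r := fun v hv => by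
    refine (abs_real_inner_le_norm v z).trans ?_
    rw [hv, one_mul]; exact hz
  have h1 := hlip' z (T • n) hzr hn0
  have h2 := hlip' (T • m) z hm0 hzr
  have e1 := mul_le_mul_of_nonneg_left ((norm_axis_sub_le hn hT0 hzT).trans
    (add_le_add le_rfl hq)) hLd
  have e2 := mul_le_mul_of_nonneg_left ((norm_axis_sub_le hm hT0 hzT).trans
    (add_le_add le_rfl hq)) hLd
  rw [norm_sub_rev] at h2
  have hnm : |⟪n, z⟫ + ⟪m, z⟫| ≤ 8 * (s * r) := by
    rw [← inner_add_left]
    refine (abs_real_inner_le_norm _ _).trans ?_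
    calc ‖n + m‖ * ‖z‖ ≤ 4 * s * (2 * r) := mul_le_mul hsum hz (norm_nonneg _) (by positivity)
      _ = _ := by ring
  have i1 := abs_le.1 (hb n hn)
  have i2 := abs_le.1 (hb m hm)
  rw [abs_le] at hnm ⊢
  have hLs : 0 ≤ L * (s * r) := by positivity
  have k1 : L * δ * T = 4 * (L * (s * r)) := by rw [mul_assoc, hTδ]; ring
  have k2 : ∀ p : ℝ, -(2 * r) ≤ p → p ≤ 2 * r → |L * δ * p| ≤ 2 * (L * (s * r)) := fun p hp1 hp2 => by
    rw [abs_mul, abs_of_nonneg (by positivity : 0 ≤ L * δ)]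
    calc L * δ * |p| ≤ L * s * (2 * r) :=
          mul_le_mul (mul_le_mul_of_nonneg_left hδs hL.le) (abs_le.2 ⟨hp1, hp2⟩) (abs_nonneg _)
            (by positivity)
      _ = _ := by ring
  have k3 := abs_le.1 (k2 _ i1.1 i1.2)
  have k4 := abs_le.1 (k2 _ i2.1 i2.2)
  have k5 : L * δ * (s * r) ≤ L * (s * r) := by
    calc L * δ * (s * r) ≤ L * 1 * (s * r) := by gcongr; exact min_le_left _ _
      _ = _ := by ring
  have k6 := mul_le_mul_of_nonneg_left hnm.1 hL.le
  have k7 := mul_le_mul_of_nonneg_left hnm.2 hL.le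
  have k8 : 16 * (L * (s * r)) ≤ lam * (L * r) := by
    calc 16 * (L * (s * r)) = 16 * s * (L * r) := by ring
      _ ≤ _ := mul_le_mul_of_nonneg_right hsl (by positivity)
  constructor <;> linarith

/-- From the slope bound: near every point, a local Lipschitz bound for `u` minus a linear
function, as small as wished. -/
lemma exists_linear (H : ∃ C0 lam0, 0 < C0 ∧ 0 < lam0 ∧ ∀ τ, 0 < τ → SlopeAt C0 lam0 τ)
    (hu : IH u U) (hUo : IsOpen U) (hx : x0 ∈ U) {η : ℝ} (hη : 0 < η) :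
    ∃ (a : E3) (r : ℝ), 0 < r ∧ ball x0 r ⊆ U ∧
      ∀ x ∈ ball x0 r, ∀ y ∈ ball x0 r, |u y - u x - ⟪a, y - x⟫| ≤ η * ‖y - x‖ := by
  obtain ⟨C0, lam0, hC0, hlam0, hS⟩ := H
  set L := lipAt u U x0 with hLdef
  rcases (lipAt_nonneg u U x0).eq_or_lt with hL | hL
  · obtain ⟨k, ⟨-, r, hr, hrU, hk⟩, hkη⟩ := exists_lt_of_csInf_lt (lipSet_nonempty hu.1 hUo hx)
      (show sInf (lipSet u U x0) < η by change L < η; rw [hLdef, ← hL]; exact hη)
    refine ⟨0, r, hr, hrU, fun x hx y hy => ?_⟩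
    rw [inner_zero_left, sub_zero, abs_le]
    have h1 := hk x hx y hy
    have h2 := hk y hy x hx
    rw [norm_sub_rev] at h2
    have := mul_le_mul_of_nonneg_right hkη.le (norm_nonneg (y - x))
    constructor <;> linarith
  set K := C0 + Real.sqrt C0 with hK
  have hK0 : 0 < K := by positivity
  set lam := min (min lam0 (1 / 4096)) ((η / (L * K)) ^ 2) with hlam
  have hlampos : 0 < lam := lt_min (lt_min hlam0 (by norm_num)) (by positivity)
  have hl0 : lam ≤ lam0 := (min_le_left _ _).trans (min_le_left _ _)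
  have hl1 : lam ≤ 1 / 4096 := (min_le_left _ _).trans (min_le_right _ _)
  set t := Real.sqrt lam with ht
  have ht0 : 0 < t := Real.sqrt_pos.2 hlampos
  have htt : t * t = lam := Real.mul_self_sqrt hlampos.le
  have ht1 : t ≤ 1 / 64 := by
    rw [ht, Real.sqrt_le_left (by norm_num)]; linarith
  have htη : t * (L * K) ≤ η := by
    have := Real.sqrt_le_sqrt (min_le_right (min lam0 (1 / 4096)) ((η / (L * K)) ^ 2))
    rwa [Real.sqrt_sq (by positivity), ← hlam, ← ht, le_div_iff₀ (mul_pos hL hK0)] at this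
  obtain ⟨n, r, hn, hr, hrU, hflat⟩ := exists_flat hu hUo hx hL hlampos
  obtain ⟨O, hO⟩ := exists_isometry_e3 hn
  set v : E3 → ℝ := fun z => (u (x0 + r • O z) - u x0) / (L * r) with hv
  have hLr : 0 < L * r := mul_pos hL hr
  have hin : ∀ z : E3, ⟪n, r • O z⟫ = r * z 2 := fun z => by
    rw [← hO, real_inner_smul_right, O.inner_map_map]
    simp [e3, EuclideanSpace.inner_single_left]
  have hbox : ∀ z ∈ box lam, ‖r • O z‖ ≤ 2 * r := fun z hz => by
    rw [norm_smul, O.norm_map, Real.norm_of_nonneg hr.le, mul_comm]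
    refine mul_le_mul_of_nonneg_right ?_ hr.le
    have h3 : ‖z‖ ≤ lat z + |z 2| := by
      refine le_of_pow_le_pow_left₀ two_ne_zero (add_nonneg (lat_nonneg z) (abs_nonneg _)) ?_
      rw [norm_sq_eq_lat, add_sq, lat_sq, sq_abs]
      have := mul_nonneg (lat_nonneg z) (abs_nonneg (z 2))
      linarith
    have h4 : R0 * t ≤ 1 := by norm_num [R0]; linarith
    linarith [hz.1, hz.2]
  have hconf : Conf lam v := by
    refine ⟨(fun z => x0 + r • O z) ⁻¹' U, hUo.preimage (by fun_prop),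
      hu.similar O x0 hr hLr _, fun z hz => hrU ?_, fun z hz => ?_⟩
    · rw [mem_closedBall, dist_eq_norm, add_sub_cancel_left]; exact hbox z hz
    · have h := hflat _ (hbox z hz)
      rw [hin] at h
      rw [hv, div_sub' hLr.ne', abs_div, abs_of_pos hLr, div_le_iff₀ hLr]
      calc _ = |u (x0 + r • O z) - u x0 - L * (r * z 2)| := by congr 1; ring
        _ ≤ _ := h
  refine ⟨L • n, r * t / 64, by positivity, (ball_subset_closedBall.trans
    (closedBall_subset_closedBall (by nlinarith))).trans hrU, fun x hx y hy => ?_⟩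
  rcases eq_or_ne x y with rfl | hxy
  · simp
  set z := r⁻¹ • O.symm (x - x0) with hz
  set h := r⁻¹ • O.symm (y - x) with hh
  have hzx : x0 + r • O z = x := by
    rw [hz, map_smul, O.apply_symm_apply, smul_inv_smul₀ hr.ne', add_sub_cancel]
  have hhy : r • O h = y - x := by
    rw [hh, map_smul, O.apply_symm_apply, smul_inv_smul₀ hr.ne']
  have hgau : ∀ w : E3, gau lam w ≤ ‖w‖ / t := fun w => by
    refine max_le ((abs_le_norm w).trans ?_) (div_le_div_of_nonneg_right (lat_le_norm w) ht0.le)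
    rw [le_div_iff₀ ht0]
    exact mul_le_of_le_one_right (norm_nonneg w) (by linarith)
  have hzn : ‖z‖ ≤ t / 64 := by
    rw [hz, norm_smul, LinearIsometryEquiv.norm_map, norm_inv, Real.norm_of_nonneg hr.le,
      inv_mul_le_iff₀ hr]
    rw [mem_ball, dist_eq_norm] at hx
    linarith
  have hhn : ‖h‖ = ‖y - x‖ / r := by
    rw [hh, norm_smul, LinearIsometryEquiv.norm_map, norm_inv, Real.norm_of_nonneg hr.le,
      inv_mul_eq_div]
  have hhn' : ‖h‖ ≤ t / 32 := by
    rw [hhn, div_le_iff₀ hr]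
    rw [mem_ball, dist_eq_norm] at hx hy
    calc ‖y - x‖ = ‖(y - x0) - (x - x0)‖ := by congr 1; abel
      _ ≤ _ := (norm_sub_le _ _).trans (by linarith)
  have hh0 : 0 < gau lam h := by
    rcases (gau_nonneg lam h).eq_or_lt with h0 | h0
    · exfalso
      have a1 : |h 2| ≤ 0 := h0 ▸ abs_le_gau lam h
      have a2 : lat h ≤ 0 := by
        have := lat_le_gau hlampos h
        rwa [← h0, zero_mul] at this
      have : ‖h‖ ^ 2 = 0 := by
        rw [norm_sq_eq_lat, ← lat_sq, le_antisymm a2 (lat_nonneg h),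
          abs_eq_zero.1 (le_antisymm a1 (abs_nonneg _))]
        ring
      rw [sq_eq_zero_iff, hhn, div_eq_zero_iff, norm_eq_zero, sub_eq_zero] at this
      exact this.elim (fun e => hxy e.symm) hr.ne'
    · exact h0
  have key := hS _ hh0 lam v hlampos hl0 hconf z h
    ((hgau z).trans (by rw [div_le_iff₀ ht0]; linarith)) le_rfl
    ((hgau h).trans (by rw [div_le_iff₀ ht0]; linarith))
  simp only [hv, map_add, smul_add, ← add_assoc, hzx, hhy, add_sub_cancel] at key
  have e : u y - u x - ⟪L • n, y - x⟫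
      = L * r * ((u y - u x0) / (L * r) - (u x - u x0) / (L * r) - h 2) := by
    rw [real_inner_smul_left, ← hhy, hin]
    have hL0 : L ≠ 0 := hL.ne'
    have hr0 : r ≠ 0 := hr.ne'
    field_simp
    ring
  rw [e, abs_mul, abs_of_pos hLr]
  refine (mul_le_mul_of_nonneg_left key hLr.le).trans ?_
  have b1 : C0 * lam * |h 2| + Real.sqrt (C0 * lam) * lat h ≤ K * t * ‖h‖ := by
    have c1 : C0 * lam * |h 2| ≤ C0 * t * ‖h‖ :=
      mul_le_mul (mul_le_mul_of_nonneg_left
        (by rw [← htt]; exact mul_le_of_le_one_left ht0.le (by linarith)) hC0.le)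
        (abs_le_norm h) (abs_nonneg _) (by positivity)
    have c2 : Real.sqrt (C0 * lam) * lat h ≤ Real.sqrt C0 * t * ‖h‖ := by
      rw [Real.sqrt_mul hC0.le, ← ht]
      exact mul_le_mul_of_nonneg_left (lat_le_norm h) (by positivity)
    rw [hK]; linarith
  refine (mul_le_mul_of_nonneg_left b1 hLr.le).trans (le_of_eq_of_le ?_
    (mul_le_mul_of_nonneg_right htη (norm_nonneg (y - x))))
  rw [hhn]; field_simp

/-- two local linearisations of the same function have nearby slopes -/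
lemma slope_close {a a' x0 x1 : E3} {r r' η η' : ℝ} {x : E3} (hr : x ∈ ball x0 r)
    (hr' : x ∈ ball x1 r') (hη : 0 ≤ η + η')
    (h : ∀ z ∈ ball x0 r, ∀ y ∈ ball x0 r, |u y - u z - ⟪a, y - z⟫| ≤ η * ‖y - z‖)
    (h' : ∀ z ∈ ball x1 r', ∀ y ∈ ball x1 r', |u y - u z - ⟪a', y - z⟫| ≤ η' * ‖y - z‖) :
    ‖a - a'‖ ≤ η + η' := by
  by_contra hlt
  have hv : 0 < ‖a - a'‖ := hη.trans_lt (not_le.1 hlt)
  obtain ⟨ε, hε, hεb⟩ := Metric.mem_nhds_iff.1
    ((isOpen_ball.inter isOpen_ball).mem_nhds (Set.mem_inter hr hr'))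
  set s := ε / (2 * ‖a - a'‖) with hs
  have hs0 : 0 < s := by positivity
  have hy : x + s • (a - a') ∈ ball x ε := by
    rw [mem_ball, dist_eq_norm, add_sub_cancel_left, norm_smul, Real.norm_of_nonneg hs0.le, hs,
      div_mul_eq_mul_div, div_lt_iff₀ (by positivity)]
    nlinarith
  have h1 := abs_le.1 (h x hr _ (hεb hy).1)
  have h2 := abs_le.1 (h' x hr' _ (hεb hy).2)
  rw [add_sub_cancel_left, norm_smul, Real.norm_of_nonneg hs0.le,
    real_inner_smul_right] at h1 h2
  have e : ⟪a, a - a'⟫ - ⟪a', a - a'⟫ = ‖a - a'‖ * ‖a - a'‖ := by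
    rw [← inner_sub_left, real_inner_self_eq_norm_mul_norm]
  have h3 : s * (‖a - a'‖ * ‖a - a'‖) ≤ s * ((η + η') * ‖a - a'‖) := by
    rw [← e]; linarith
  exact hlt (le_of_mul_le_mul_right (le_of_mul_le_mul_left h3 hs0) hv)

/-- A function that is, near every point, as Lipschitz-close as wished to linear functions is
continuously differentiable. -/
lemma contDiffOn_of_linear (hUo : IsOpen U)
    (h : ∀ x0 ∈ U, ∀ η : ℝ, 0 < η → ∃ (a : E3) (r : ℝ), 0 < r ∧ ball x0 r ⊆ U ∧
      ∀ x ∈ ball x0 r, ∀ y ∈ ball x0 r, |u y - u x - ⟪a, y - x⟫| ≤ η * ‖y - x‖) :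
    ContDiffOn ℝ 1 u U := by
  have hcen : ∀ x0 ∈ U, ∃ a : E3, ∀ η : ℝ, 0 < η → ∃ r, 0 < r ∧ ball x0 r ⊆ U ∧
      ∀ x ∈ ball x0 r, ∀ y ∈ ball x0 r, |u y - u x - ⟪a, y - x⟫| ≤ η * ‖y - x‖ := by
    intro x0 hx0
    choose a r hr hrU hb using fun k : ℕ => h x0 hx0 (1 / ((k : ℝ) + 1)) (by positivity)
    have hclose : ∀ i j, ‖a i - a j‖ ≤ 1 / ((i : ℝ) + 1) + 1 / ((j : ℝ) + 1) := fun i j =>
      slope_close (mem_ball_self (hr i)) (mem_ball_self (hr j)) (by positivity) (hb i) (hb j)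
    have hc : CauchySeq a := by
      refine cauchySeq_of_le_tendsto_0 (fun k : ℕ => 2 * (1 / ((k : ℝ) + 1))) (fun i j N hi hj => ?_)
        (by simpa using tendsto_one_div_add_atTop_nhds_zero_nat.const_mul (2 : ℝ))
      rw [dist_eq_norm]
      refine (hclose i j).trans ?_
      rw [two_mul]
      gcongr
    obtain ⟨l, hl⟩ := cauchySeq_tendsto_of_complete hc
    refine ⟨l, fun η hη => ?_⟩
    have hev := (tendsto_one_div_add_atTop_nhds_zero_nat.eventually
      (Iic_mem_nhds (half_pos hη))).and (hl.eventually (closedBall_mem_nhds l (half_pos hη)))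
    obtain ⟨k, hk1, hk2⟩ := hev.exists
    replace hk2 : ‖a k - l‖ ≤ η / 2 := by rwa [← dist_eq_norm]
    refine ⟨r k, hr k, hrU k, fun x hx y hy => ?_⟩
    have h1 := hb k x hx y hy
    have h2 : |⟪a k - l, y - x⟫| ≤ η / 2 * ‖y - x‖ :=
      (abs_real_inner_le_norm _ _).trans (mul_le_mul_of_nonneg_right hk2 (norm_nonneg _))
    have h3 : 1 / ((k : ℝ) + 1) * ‖y - x‖ ≤ η / 2 * ‖y - x‖ :=
      mul_le_mul_of_nonneg_right hk1 (norm_nonneg _)
    rw [inner_sub_left] at h2
    rw [abs_le] at h1 h2 ⊢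
    constructor <;> linarith
  choose! g hg using hcen
  have hd : ∀ x ∈ U, HasFDerivAt u (innerSL ℝ (g x)) x := by
    intro x hx
    refine .of_isLittleO <| Asymptotics.isLittleO_iff.2 fun η hη => ?_
    obtain ⟨r, hr, -, hb⟩ := hg x hx η hη
    filter_upwards [ball_mem_nhds x hr] with y hy
    rw [Real.norm_eq_abs, innerSL_apply_apply]
    exact hb x (mem_ball_self hr) y hy
  have hc : ContinuousOn (fun x => innerSL ℝ (g x)) U := by
    refine (innerSL ℝ).continuous.comp_continuousOn (Metric.continuousOn_iff.2 fun x hx η hη => ?_)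
    obtain ⟨r, hr, -, hb⟩ := hg x hx (η / 3) (by positivity)
    refine ⟨r, hr, fun y hy hyx => ?_⟩
    obtain ⟨r', hr', -, hb'⟩ := hg y hy (η / 3) (by positivity)
    rw [dist_eq_norm]
    refine lt_of_le_of_lt (slope_close (mem_ball_self hr') (mem_ball.2 hyx) (by positivity)
      hb' hb) (by linarith)
  rw [show (1 : WithTop ℕ∞) = 0 + 1 from rfl, contDiffOn_succ_iff_fderiv_of_isOpen hUo]
  refine ⟨fun x hx => (hd x hx).differentiableAt.differentiableWithinAt, by simp, ?_⟩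
  rw [contDiffOn_zero]
  exact hc.congr fun x hx => (hd x hx).fderiv

end Final

/-- Continuous differentiability from the slope bound. -/
theorem contDiffOn_of_slope
    (H : ∃ C0 lam0, 0 < C0 ∧ 0 < lam0 ∧ ∀ τ, 0 < τ → SlopeAt C0 lam0 τ) {u : E3 → ℝ} {U : Set E3}
    (hUo : IsOpen U) (hu : IH u U) : ContDiffOn ℝ 1 u U :=
  Final.contDiffOn_of_linear hUo fun _ hx _ hη => Final.exists_linear H hu hUo hx hη

end Vale.Agent.P080.C1
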