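import Vale.Agent.P080.C1.Basic
import Mathlib.Analysis.InnerProductSpace.Projection.Reflection
import Mathlib.Analysis.Calculus.FDeriv.Comp
import Mathlib.Analysis.Calculus.ContDiff.Operations

/-!
# Invariance of infinity-harmonicity under similarities, and the scaled gauge
-/

namespace Vale.Agent.P080.C1

open scoped ContDiff Topology RealInnerProductSpace
open Set Filter Metric

/-- infinity harmonic in the viscosity sense -/
def IH (u : E3 → ℝ) (U : Set E3) : Prop := IsSub u U ∧ IsSub (fun x => -u x) U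

/-- `infLap` is the second derivative applied twice to the gradient direction. -/
lemma infLap_eq {φ : E3 → ℝ} (hφ : ContDiff ℝ 2 φ) (x : E3) :
    infLap φ x = fderiv ℝ (fderiv ℝ φ) x (grad φ x) (grad φ x) := by
  have hd : DifferentiableAt ℝ (fderiv ℝ φ) x :=
    (hφ.fderiv_right (m := 1) (by norm_num)).differentiable (by norm_num) x
  have h2 : ∀ i j : Fin 3, pd i (pd j φ) x
      = fderiv ℝ (fderiv ℝ φ) x (EuclideanSpace.single i 1) (EuclideanSpace.single j 1) := by
    intro i j
    show fderiv ℝ (fun y => fderiv ℝ φ y (EuclideanSpace.single j 1)) x _ = _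
    rw [fderiv_clm_apply hd (differentiableAt_const _)]
    simp
  have hg : grad φ x = ∑ i, pd i φ x • EuclideanSpace.single i (1 : ℝ) := by
    ext k
    simp [grad, Finset.sum_apply, Pi.single_apply]
  rw [hg]
  simp only [map_sum, map_smul, ContinuousLinearMap.coe_sum', Finset.sum_apply,
    FunLike.coe_smul, Pi.smul_apply, smul_eq_mul, infLap, h2, Finset.mul_sum]
  rw [Finset.sum_comm]
  refine Finset.sum_congr rfl fun i _ => Finset.sum_congr rfl fun j _ => ?_
  ring

lemma inner_grad (φ : E3 → ℝ) (x v : E3) : ⟪grad φ x, v⟫ = fderiv ℝ φ x v := by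
  have hv : v = ∑ i, v i • EuclideanSpace.single i (1 : ℝ) := by
    ext k; simp [Finset.sum_apply, Pi.single_apply]
  conv_rhs => rw [hv]
  rw [map_sum, ← sum_mul_eq_inner]
  refine Finset.sum_congr rfl fun i _ => ?_
  simp [grad, pd]
  ring

/-- viscosity subsolutions are preserved by similarities of the variable and affine changes of
the value -/
lemma isSub_similar {u : E3 → ℝ} {U : Set E3} (hu : IsSub u U) (O : E3 ≃ₗᵢ[ℝ] E3) (P : E3)
    {ρ L : ℝ} (hρ : 0 < ρ) (hL : 0 < L) (b : ℝ) :
    IsSub (fun z => (u (P + ρ • O z) - b) / L) ((fun z => P + ρ • O z) ⁻¹' U) := by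
  have hg : ContinuousOn (fun z => P + ρ • O z) ((fun z => P + ρ • O z) ⁻¹' U) :=
    (continuous_const.add (O.continuous.const_smul ρ)).continuousOn
  refine ⟨((hu.1.comp hg (mapsTo_preimage _ _)).sub continuousOn_const).div_const L, ?_⟩
  intro z hz φ hφ hmax
  set x := P + ρ • O z with hx
  set T : E3 →L[ℝ] E3 := ρ⁻¹ • (O.symm : E3 →L[ℝ] E3) with hT
  have hTval : ∀ v, T v = ρ⁻¹ • O.symm v := fun v => rfl
  set ψ : E3 → ℝ := fun y => L * φ (T (y - P)) + b with hψ
  have hψ2 : ContDiff ℝ 2 ψ := by fun_prop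
  have hTx : T (x - P) = z := by
    rw [hx, add_sub_cancel_left, hTval, map_smul, smul_smul, inv_mul_cancel₀ hρ.ne',
      one_smul, LinearIsometryEquiv.symm_apply_apply]
  have hback : ∀ y, P + ρ • O (T (y - P)) = y := by
    intro y
    rw [hTval, map_smul, LinearIsometryEquiv.apply_symm_apply, smul_smul, mul_inv_cancel₀ hρ.ne',
      one_smul, add_sub_cancel]
  have hd : Differentiable ℝ φ := hφ.differentiable (by norm_num)
  have hd1 : Differentiable ℝ (fderiv ℝ φ) :=
    (hφ.fderiv_right (m := 1) (by norm_num)).differentiable (by norm_num)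
  have hin : ∀ y, HasFDerivAt (fun y => T (y - P)) T y := fun y =>
    T.hasFDerivAt.comp y ((hasFDerivAt_id y).sub_const P)
  have h1 : fderiv ℝ ψ = fun y => L • (fderiv ℝ φ (T (y - P))).comp T := by
    funext y
    exact ((((hd _).hasFDerivAt.comp y (hin y))).const_mul L |>.add_const b).fderiv
  have h2 : ∀ v v', fderiv ℝ (fderiv ℝ ψ) x v v' = L * fderiv ℝ (fderiv ℝ φ) z (T v) (T v') := by
    intro v v'
    rw [h1]
    have hc : HasFDerivAt (fun y => fderiv ℝ φ (T (y - P)))
        ((fderiv ℝ (fderiv ℝ φ) z).comp T) x := by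
      have := (hd1 (T (x - P))).hasFDerivAt.comp x (hin x)
      rwa [hTx] at this
    have := ((hc.clm_comp (hasFDerivAt_const T x)).const_smul L).fderiv
    rw [show (fun y => L • (fderiv ℝ φ (T (y - P))).comp T)
        = L • fun y => (fderiv ℝ φ (T (y - P))).comp T from rfl, this]
    simp
  have hgrad : grad ψ x = (L * ρ⁻¹) • O (grad φ z) := by
    apply ext_inner_right ℝ
    intro v
    rw [inner_grad, real_inner_smul_left, h1]
    simp only [FunLike.coe_smul, Pi.smul_apply, ContinuousLinearMap.coe_comp,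
      Function.comp_apply, smul_eq_mul, hTx, hTval, map_smul]
    rw [← inner_grad, ← O.inner_map_map (grad φ z), O.apply_symm_apply]
    ring
  have hTg : T (grad ψ x) = (L * ρ⁻¹ * ρ⁻¹) • grad φ z := by
    rw [hgrad, hTval, map_smul, LinearIsometryEquiv.symm_apply_apply, smul_smul]
    ring_nf
  have hloc : IsLocalMax (fun y => u y - ψ y) x := by
    have h : Tendsto (fun y : E3 => T (y - P)) (𝓝 x) (𝓝 z) :=
      hTx ▸ ((hin x).continuousAt).tendsto
    filter_upwards [h.eventually hmax] with y hy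
    simp only [hψ, hback, hTx] at hy ⊢
    have h := mul_le_mul_of_nonneg_left hy hL.le
    have e : ∀ v p : ℝ, L * ((v - b) / L - p) = v - b - L * p := fun v p => by field_simp
    rw [e, e] at h
    simp only [hx] at h ⊢
    linarith
  have hk := hu.2 x hz ψ hψ2 hloc
  rw [infLap_eq hψ2, h2, hTg] at hk
  simp only [map_smul, FunLike.coe_smul, Pi.smul_apply, smul_eq_mul] at hk
  rw [infLap_eq hφ]
  have : 0 < L * (L * ρ⁻¹ * ρ⁻¹ * (L * ρ⁻¹ * ρ⁻¹)) := by positivity
  exact (mul_nonneg_iff_of_pos_left this).1 (le_of_le_of_eq hk (by ring))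

/-- infinity-harmonicity is preserved by similarities -/
lemma IH.similar {u : E3 → ℝ} {U : Set E3} (hu : IH u U) (O : E3 ≃ₗᵢ[ℝ] E3) (P : E3)
    {ρ L : ℝ} (hρ : 0 < ρ) (hL : 0 < L) (b : ℝ) :
    IH (fun z => (u (P + ρ • O z) - b) / L) ((fun z => P + ρ • O z) ⁻¹' U) := by
  refine ⟨isSub_similar hu.1 O P hρ hL b, ?_⟩
  have := isSub_similar hu.2 O P hρ hL (-b)
  have he : (fun z => -((u (P + ρ • O z) - b) / L))
      = fun z => (-u (P + ρ • O z) - -b) / L := by funext z; ring
  rw [he]; exact this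

/-- infinity-harmonicity is preserved by translations -/
lemma IH.translate {u : E3 → ℝ} {U : Set E3} (hu : IH u U) (h : E3) :
    IH (fun z => u (z + h)) ((fun z => z + h) ⁻¹' U) := by
  have := hu.similar (LinearIsometryEquiv.refl ℝ E3) h one_pos one_pos 0
  simpa [add_comm] using this

lemma norm_e3 : ‖e3‖ = 1 := by simp [e3]

/-- an isometry sending the vertical unit vector to a prescribed unit vector -/
lemma exists_isometry_e3 {n : E3} (hn : ‖n‖ = 1) : ∃ O : E3 ≃ₗᵢ[ℝ] E3, O e3 = n :=
  ⟨(ℝ ∙ (e3 - n))ᗮ.reflection, Submodule.reflection_sub (by rw [norm_e3, hn])⟩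

lemma norm_sq_eq_lat (x : E3) : ‖x‖ ^ 2 = latSq x + x 2 ^ 2 := by
  rw [← sum_sq, Fin.sum_univ_three, latSq]; ring

/-- lateral length -/
noncomputable def lat (x : E3) : ℝ := Real.sqrt (latSq x)

/-- scaled gauge `max(|t|, |x'|/√λ)` -/
noncomputable def gau (lam : ℝ) (x : E3) : ℝ := max |x 2| (lat x / Real.sqrt lam)

lemma latSq_nonneg (x : E3) : 0 ≤ latSq x := by unfold latSq; positivity

lemma lat_nonneg (x : E3) : 0 ≤ lat x := Real.sqrt_nonneg _

lemma gau_nonneg (lam : ℝ) (x : E3) : 0 ≤ gau lam x := (abs_nonneg _).trans (le_max_left _ _)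

lemma lat_add_le (x y : E3) : lat (x + y) ≤ lat x + lat y := by
  rw [lat, Real.sqrt_le_left (add_nonneg (lat_nonneg x) (lat_nonneg y)), add_sq, lat, lat,
    Real.sq_sqrt (latSq_nonneg x), Real.sq_sqrt (latSq_nonneg y)]
  have h : x 0 * y 0 + x 1 * y 1 ≤ Real.sqrt (latSq x) * Real.sqrt (latSq y) := by
    rw [← Real.sqrt_mul (latSq_nonneg x)]
    refine Real.le_sqrt_of_sq_le ?_
    unfold latSq
    nlinarith [sq_nonneg (x 0 * y 1 - x 1 * y 0)]
  unfold latSq at *
  simp only [PiLp.add_apply]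
  linarith

lemma lat_smul (c : ℝ) (x : E3) : lat (c • x) = |c| * lat x := by
  rw [lat, lat, ← Real.sqrt_sq_eq_abs, ← Real.sqrt_mul (sq_nonneg c)]
  congr 1
  simp [latSq]; ring

lemma gau_add_le {lam : ℝ} (x y : E3) : gau lam (x + y) ≤ gau lam x + gau lam y := by
  refine max_le ?_ ?_
  · exact (abs_add_le _ _).trans (add_le_add (le_max_left _ _) (le_max_left _ _))
  · calc lat (x + y) / Real.sqrt lam ≤ (lat x + lat y) / Real.sqrt lam :=
          div_le_div_of_nonneg_right (lat_add_le x y) (Real.sqrt_nonneg _)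
      _ = lat x / Real.sqrt lam + lat y / Real.sqrt lam := add_div _ _ _
      _ ≤ _ := add_le_add (le_max_right _ _) (le_max_right _ _)

lemma continuous_lat : Continuous lat := by unfold lat latSq; fun_prop

lemma continuous_gau (lam : ℝ) : Continuous (gau lam) := by
  unfold gau
  exact (by fun_prop : Continuous fun x : E3 => |x 2|).max (continuous_lat.div_const _)

end Vale.Agent.P080.C1
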