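import Vale.Agent.P080.C1.GoodScale.Phases
import Vale.Agent.P080.C1.GoodScale.Select
import Vale.Agent.P080.C1.GoodScale.Params

/-!
# (R): a good scale at one of the points
-/

namespace Vale.Agent.P080.C1

open scoped ContDiff Topology RealInnerProductSpace Gradient NNReal
open Set Filter MeasureTheory Metric GoodScale

namespace GoodScale

lemma SubBd.mono {C C' ν lam Λ : ℝ} {u : E3 → ℝ} (h : SubBd C ν lam Λ u) (hC : 0 ≤ C) (hCC : C ≤ C')
    (hΛ : 0 ≤ Λ) : SubBd C' ν lam Λ u :=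
  ⟨h.flat, fun z hz => (h.grad_le z hz).mono hC hCC hΛ le_rfl, h.slope3, h.slopeLat,
    h.energy_le.trans (mul_le_mul_of_nonneg_right hCC (by positivity))⟩

lemma Improved.mono {C C' Λ d : ℝ} {u : E3 → ℝ} (h : Improved C Λ d u) (hCC : C ≤ C') (hΛ : 0 ≤ Λ)
    (hd : 0 ≤ d) : Improved C' Λ d u := by
  obtain ⟨c0, c1, s, h0, h1, hs, h⟩ := h
  refine ⟨c0, c1, s, h0, h1, hs.trans hCC, fun x a b c => (h x a b c).trans ?_⟩
  exact mul_le_mul_of_nonneg_right (mul_le_mul_of_nonneg_left hCC hΛ) (by positivity)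

/-- universal constants for one value of the tolerance -/
lemma exists_consts (hB : BernsteinOut) (hE : EnergyOut) {η : ℝ} (hη : 0 < η) :
    ∃ C d θ τ ν0 : ℝ, 1 ≤ C ∧ 0 ≤ d ∧ 0 < θ ∧ θ ≤ 1/4000 ∧ 0 < τ ∧ 0 < ν0 ∧ ν0 ≤ 1/100 ∧
      6 * C * (1000000 * θ ^ 2 + d ^ (1/8 : ℝ)) ≤ θ ∧
      3 * C * (1000000 * θ ^ 2 + d ^ (1/8 : ℝ)) ≤ η * θ ∧
      StepProp C d τ ν0 ∧ SubProp C ν0 := by
  obtain ⟨Cs, d0, hCs, hd0, hstep⟩ := step hB hE
  obtain ⟨Cd, ν1, hCd, hν1, hsub⟩ := sub_data hB hE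
  set C := max (max Cs Cd) 1
  have hC : 1 ≤ C := le_max_right _ _
  set η' := min η 1
  have hη' : 0 < η' := lt_min hη one_pos
  set θ := η' / (10000000 * C) with hθ
  have hθ0 : 0 < θ := by positivity
  have hθC : 10000000 * (C * θ) = η' := by rw [hθ]; field_simp
  have hθ1 : θ ≤ 1/4000 := by
    have h1 : θ * 1 ≤ θ * C := mul_le_mul_of_nonneg_left hC hθ0.le
    nlinarith [min_le_right η 1]
  set d := min d0 (θ ^ 16)
  have hd : 0 < d := lt_min hd0 (by positivity)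
  have hd8 : d ^ (1/8:ℝ) ≤ θ ^ 2 := by
    refine (Real.rpow_le_rpow hd.le (min_le_right _ _) (by norm_num)).trans (le_of_eq ?_)
    rw [← Real.rpow_natCast θ 16, ← Real.rpow_mul hθ0.le, ← Real.rpow_natCast θ 2]
    norm_num
  have hsum : C * (1000000 * θ ^ 2 + d ^ (1/8:ℝ)) ≤ η' / 8 * θ := by
    calc C * (1000000 * θ ^ 2 + d ^ (1/8:ℝ)) ≤ C * (1000001 * θ ^ 2) :=
          mul_le_mul_of_nonneg_left (by linarith) (by linarith)
      _ = 1000001 * (C * θ) * θ := by ring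
      _ ≤ η' / 8 * θ := mul_le_mul_of_nonneg_right (by linarith) hθ0.le
  obtain ⟨τ, ν2, hτ, hν2, hst⟩ := hstep d hd (min_le_left _ _)
  refine ⟨C, d, θ, τ, min (min ν1 ν2) (1/100), hC, hd.le, hθ0, hθ1, hτ, by positivity, min_le_right _ _,
    ?_, ?_, ?_, ?_⟩
  · have : η' * θ ≤ 1 * θ := mul_le_mul_of_nonneg_right (min_le_right _ _) hθ0.le
    linarith
  · have : η' * θ ≤ η * θ := mul_le_mul_of_nonneg_right (min_le_left _ _) hθ0.le
    linarith [mul_nonneg hη'.le hθ0.le]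
  · intro ν lam ε h ρ O a P b v F h1 h2 h3 h4 h5 h6 h7 h8
    exact (hst ν lam ε h ρ O a P b v F h1 h2 (h3.trans ((min_le_left _ _).trans (min_le_right _ _)))
      (h4.trans ((min_le_left _ _).trans (min_le_right _ _))) h5 h6 h7 h8).mono
      ((le_max_left _ _).trans (le_max_left _ _))
      (by have := h5.pos; have := h6.one_le; positivity) hd.le
  · intro ν lam ε h ρ O a P b v h3 h4 h5 h6 h7
    filter_upwards [hsub ν lam ε h ρ O a P b v (h3.trans ((min_le_left _ _).trans (min_le_left _ _)))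
      (h4.trans ((min_le_left _ _).trans (min_le_left _ _))) h5 h6 h7] with m hm
    exact hm.mono hCd.le ((le_max_right _ _).trans (le_max_left _ _))
      (by have := h5.pos; have := h6.one_le; positivity)

/-- everything known at the top scale for small mollifications -/
lemma top_eventually {A δ e lam ε : ℝ} {v : E3 → ℝ} (hlam : 0 < lam) (hlam1 : lam ≤ 1)
    (hε : 0 ≤ ε) (hεlam : ε ≤ δ * lam) (hδ : 0 ≤ δ) (hδ1 : δ ≤ 1/10) (he : 0 < e)
    (hδe : δ * A ≤ (e / 4608) * (e / 2)) (hsol : Sol0 ε (wbox lam) v)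
    (hev : ∀ᶠ m in 𝓝[>] (0 : ℝ), Pre A δ lam (moll m v) ∧ energy lam ε (moll m v) ≤ A * lam ^ 2) :
    ∀ᶠ m in 𝓝[>] (0 : ℝ), 0 ≤ A ∧ ContDiff ℝ 2 (moll m v) ∧
      (∀ x ∈ kbox lam, GradBd A lam (grad (moll m v) x) ∧ |pd 2 (moll m v) x - 1| ≤ 1/4) ∧
      (∫ x in kbox lam, |res ε (moll m v) x|) ≤ e * lam ^ 2 ∧
      ε * (∫ x in kbox lam, |trH (moll m v) x|) ≤ e * lam ^ 2 ∧
      (∫ x in kbox lam, exc lam (moll m v) x ^ 2) ≤ A * lam / 4 ∧
      (∫ x in kbox lam, qlen lam (moll m v) x ^ 2) ≤ (2 * A + 1) * lam := by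
  have hkc : IsCompact (kbox lam) := isCompact_latbox _ _
  have hlim := hsol.res_tendsto _ hkc (kbox_subset_wbox hlam)
  set κ := e * lam / 4608 with hκ
  have hκ0 : 0 < κ := by positivity
  have h1 : (0:ℝ) < min (lam ^ 2 / 6) (κ * (e * lam ^ 2 / 2)) := by positivity
  filter_upwards [hev, hlim.eventually (Iic_mem_nhds h1)] with m ⟨hpre, hen⟩ hres
  have hg2 : ContDiff ℝ 2 (moll m v) := hpre.smooth.of_le (by exact WithTop.coe_le_coe.2 le_top)
  obtain ⟨hA, hq, hexc, htr⟩ := energy_consequences hpre hlam hlam1 hε hεlam hδ hδ1 hen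
    (hres.trans (min_le_left _ _))
  refine ⟨hA, hg2, fun x hx => ⟨?_, ?_⟩, ?_, ?_, hexc, hq⟩
  · exact (gsq_tilt_iff _ x A lam).1
      ⟨hpre.upper x (kbox_subset_mbox' hx), hpre.tilt x (kbox_subset_mbox' hx)⟩
  · refine (hpre.slope3 x (kbox_subset_mbox' hx)).trans ?_
    exact ((mul_le_of_le_one_right hδ (Real.sqrt_le_one.2 hlam1)).trans hδ1).trans (by norm_num)
  · refine (integral_abs_le_of_sq (continuous_res hg2 ε) hkc hκ0).trans ?_
    have e1 : volume.real (kbox lam) * κ ≤ 2304 * lam * κ :=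
      mul_le_mul_of_nonneg_right (volume_kbox_le hlam.le) hκ0.le
    have e2 : (∫ x in kbox lam, res ε (moll m v) x ^ 2) / κ ≤ e * lam ^ 2 / 2 := by
      rw [div_le_iff₀ hκ0, mul_comm]; exact hres.trans (min_le_right _ _)
    have e3 : 2304 * lam * κ = e * lam ^ 2 / 2 := by rw [hκ]; ring
    linarith
  · refine (htr (e / 4608) (by positivity)).trans ?_
    have e1 : δ * A / (e / 4608) ≤ e / 2 := by rw [div_le_iff₀ (by positivity)]; linarith
    calc lam ^ 2 * (2304 * (e / 4608) + δ * A / (e / 4608)) ≤ lam ^ 2 * e :=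
          mul_le_mul_of_nonneg_left (by linarith) (sq_nonneg _)
      _ = _ := mul_comm _ _

end GoodScale

theorem goodOut (hB : BernsteinOut) (hE : EnergyOut) : GoodOut := by
  intro A η hη
  obtain ⟨C, d, θ, τ, ν0, hC, hd, hθ, hθ1, hτ, hν0, hν01, hθd, hθη, hst, hsd⟩ :=
    exists_consts hB hE hη
  set Aa := max A 0
  have hAa : 0 ≤ Aa := le_max_right _ _
  set G := 1152 * (2 * Aa + 1) with hG
  obtain ⟨m0, hbud⟩ := exists_budget (A := Aa) (C := C) (G := G) hAa hC (by positivity) hτ hθ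
    (hθ1.trans_lt (by norm_num))
  set n := 2 ^ m0 with hn
  have hn2 := hbud.n_large
  obtain ⟨hB1, -⟩ := tilt_facts hn2
  set ρm := scl' θ n (nsc n)
  have hρm : 0 < ρm := scl'_pos hθ hn2 _
  set N := ⌈1 / ρm⌉₊ + 1
  have hNs : 1 ≤ (N : ℝ) * ρm := by
    have h := Nat.le_ceil (1 / ρm)
    have e : (1 / ρm) * ρm = 1 := by field_simp
    have : (1 / ρm) * ρm ≤ (N : ℝ) * ρm :=
      mul_le_mul_of_nonneg_right (h.trans (by simp [N])) hρm.le
    linarith
  set e := min 1 τ * ρm ^ 2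
  have he : 0 < e := by positivity
  have hV : 0 ≤ vslope C n := by
    have : (0:ℝ) ≤ 33 * C + 400 := by linarith
    unfold vslope; positivity
  set δ := min (min (1/10) (ν0 / (1 + tilt n)))
    (min (min ((ν0 / (1 + tilt n ^ 2 + vslope C n)) ^ 2) (ν0 / (16000000 * tilt n * C ^ 2)))
      (e / 4608 * (e / 2) / (Aa + 1))) with hδ
  have hδ0 : 0 < δ := by positivity
  refine ⟨vslope C n, δ, ρm, N, ?_, hδ0, hρm, Nat.succ_pos _,
    fun lam ε hlam hlamδ hε hεlam v hsol hev P hP => ?_⟩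
  · have : 0 ≤ ((nsc n : ℝ) + 1) * (33 * C + 400) * (n : ℝ) ^ 8 := by
      have : (0:ℝ) ≤ 33 * C + 400 := by linarith
      positivity
    unfold vslope
    unfold tilt at hB1
    linarith
  have d1 : δ ≤ 1/10 := (min_le_left _ _).trans (min_le_left _ _)
  have d2 : δ * (1 + tilt n) ≤ ν0 :=
    (le_div_iff₀ (by positivity)).1 ((min_le_left _ _).trans (min_le_right _ _))
  have d3 : Real.sqrt δ * (1 + tilt n ^ 2 + vslope C n) ≤ ν0 := by
    refine (le_div_iff₀ (by positivity)).1 ?_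
    rw [Real.sqrt_le_left (by positivity)]
    exact (min_le_right _ _).trans ((min_le_left _ _).trans (min_le_left _ _))
  have d4 : δ * (16000000 * tilt n * C ^ 2) ≤ ν0 :=
    (le_div_iff₀ (by positivity)).1 ((min_le_right _ _).trans ((min_le_left _ _).trans (min_le_right _ _)))
  have d5 : δ * Aa ≤ e / 4608 * (e / 2) := by
    have h := (le_div_iff₀ (by positivity)).1 ((min_le_right _ _).trans (min_le_right _ _) :
      δ ≤ e / 4608 * (e / 2) / (Aa + 1))
    linarith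
  have hlam1 : lam ≤ 1 := hlamδ.trans (d1.trans (by norm_num))
  obtain ⟨L, hL⟩ := hsol.lip
  have hAeq : A = Aa := by
    obtain ⟨m, ⟨hpre, hen⟩, hres⟩ := (hev.and ((hsol.res_tendsto _ (isCompact_latbox _ _)
      (kbox_subset_wbox hlam)).eventually (Iic_mem_nhds (show (0:ℝ) < lam ^ 2 / 6 by positivity)))).exists
    exact (max_eq_left (energy_consequences hpre hlam hlam1 hε.le hεlam hδ0.le d1 hen hres).1).symm
  rw [hAeq] at hev
  have htop := top_eventually hlam hlam1 hε.le hεlam hδ0.le d1 he d5 hsol hev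
  have hsub : ∀ i j, sbox lam (tilt n) (P i) (scl' θ n j) ⊆ kbox lam := by
    intro i j
    have h0 := scl'_anti hθ (hθ1.trans (by norm_num)) hn2 (Nat.zero_le j)
    have e0 : scl' θ n 0 = 3 / tilt n := by simp [scl']
    refine sbox_subset_kbox hlam (gau_le_quarter (Nat.succ_pos _) hP i) ?_ ?_
    · calc 6 * tilt n * scl' θ n j ≤ 6 * tilt n * (3 / tilt n) :=
            mul_le_mul_of_nonneg_left (h0.trans e0.le) (by positivity)
        _ ≤ 23 := by field_simp; norm_num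
    · refine (h0.trans e0.le).trans ?_
      rw [div_le_iff₀ (by positivity)]
      linarith [(tilt_facts hn2).2.1]
  have hk : 5 * m0 + 1 ≤ 6 * n := by
    have h : m0 < 2 ^ m0 := Nat.lt_two_pow_self
    omega
  set M13 := n ^ 13
  set GP : Fin N → Fin M13 → ℝ → Prop := fun i j m =>
    GoodAt Aa G e lam ε θ n (P i) (moll m v) ∧
      ∀ t ≤ 5 * m0, band lam (tilt n) ((n : ℝ) ^ 6) (P i) (scl' θ n (n + j + t)) (moll m v) ≤
        6 * n / (n : ℝ) ^ 13 * (G * tilt n * (n : ℝ) ^ 6)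
  have hex : ∀ᶠ m in 𝓝[>] (0:ℝ), ∃ i j, GP i j m := by
    filter_upwards [htop] with m ⟨hA0, hg2, hgb, hr, ht, hexc, hq⟩
    obtain ⟨i, hi⟩ := exists_point hlam hθ (hθ1.trans (by norm_num)) hn2 (Nat.succ_pos _) hNs hP
      hsub hg2 hq
    have hK6 := hi ((n : ℝ) ^ 6) (by simp)
    obtain ⟨j0, hj1, hj2, hw⟩ := exists_window
      (f := fun j => band lam (tilt n) ((n:ℝ) ^ 6) (P i) (scl' θ n j) (moll m v))
      (fun j => band_nonneg hlam.le _ _ _ _ _) n (5 * m0 + 1) M13 (by positivity)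
    refine ⟨i, ⟨j0 - n, by omega⟩, ⟨hg2, hgb, hr, ht, hexc, fun K hK => ?_⟩, fun t ht => ?_⟩
    · rw [hG]; exact hi K hK
    · show band lam _ _ (P i) (scl' θ n (n + (j0 - n) + t)) _ ≤ _
      rw [Nat.add_sub_cancel' hj1]
      refine (hw t (Nat.lt_succ_of_le ht)).trans (mul_le_mul ?_ ?_ ?_ (by positivity))
      · push_cast [M13]
        refine div_le_div_of_nonneg_right ?_ (by positivity)
        exact_mod_cast hk
      · refine le_trans (Finset.sum_le_sum_of_subset_of_nonneg (Finset.range_mono ?_)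
          fun j _ _ => band_nonneg hlam.le _ _ _ _ _) (hK6.trans (le_of_eq (by rw [hG])))
        show n + n ^ 13 + (5 * m0 + 1) ≤ n + n ^ 13 + 6 * n
        omega
      · exact Finset.sum_nonneg fun j _ => band_nonneg hlam.le _ _ _ _ _
  obtain ⟨i, j, hfr⟩ : ∃ i j, ∃ᶠ m in 𝓝[>] (0:ℝ), GP i j m := by
    by_contra hc
    simp only [not_exists, not_frequently] at hc
    obtain ⟨m, ⟨i, j, h⟩, hm⟩ := (hex.and (eventually_all.2 fun i => eventually_all.2 (hc i))).exists
    exact hm i j h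
  set F := 𝓝[>] (0:ℝ) ⊓ 𝓟 {m | GP i j m} with hF
  have hFne : F.NeBot := frequently_mem_iff_neBot.1 hfr
  have hFG : ∀ᶠ m in F, GP i j m := by
    rw [hF, eventually_inf_principal]; exact Eventually.of_forall fun m h => h
  have hflat : ∀ x ∈ kbox lam, |v x - x 2| ≤ 3 * lam := by
    intro x hx
    have ht : Tendsto (fun m : ℝ => 3 * lam + (L : ℝ) * m) (𝓝[>] (0:ℝ)) (𝓝 (3 * lam)) :=
      ((continuous_const.add (continuous_const.mul continuous_id)).tendsto' (0:ℝ) (3 * lam)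
        (by simp)).mono_left nhdsWithin_le_nhds
    refine ge_of_tendsto ht ?_
    filter_upwards [hev, self_mem_nhdsWithin] with m hm hm0
    have h1 := hm.1.flat x (kbox_subset_mbox' hx)
    have h2 := Approx.abs_moll_sub_le hm0 hL x
    have h3 := abs_sub_le (v x) (moll m v x) (x 2)
    rw [abs_sub_comm] at h2
    linarith
  have hsl : Real.sqrt lam ≤ Real.sqrt δ := Real.sqrt_le_sqrt hlamδ
  have htn : 0 ≤ tilt n := by linarith
  have hlt : tilt n * lam ≤ tilt n * δ := mul_le_mul_of_nonneg_left hlamδ htn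
  have S : Setting Aa C G τ θ e ν0 ν0 lam ε n (P i) v F := by
    refine ⟨hbud, hθ, hθ1, hC, hAa, hτ, ?_, ?_, le_rfl, hν01, inf_le_left, hFne,
      ⟨hlam, hlam1, hε, hεlam.trans (mul_le_mul_of_nonneg_right ?_ hlam.le), hsol, ?_⟩,
      gau_le_quarter (Nat.succ_pos _) hP i, hFG.mono fun m hm => hm.1, ?_, ?_, ?_, ?_⟩
    · exact mul_le_of_le_one_left (sq_nonneg _) (min_le_left _ _)
    · exact mul_le_mul_of_nonneg_right (min_le_right _ _) (sq_nonneg _)
    · nlinarith [mul_nonneg hδ0.le htn]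
    · filter_upwards [hev] with m hm x hx
      have hδν : δ ≤ ν0 := by nlinarith [mul_nonneg hδ0.le htn]
      exact ⟨(hm.1.slope3 x hx).trans (mul_le_mul_of_nonneg_right hδν (Real.sqrt_nonneg _)),
        ((Real.sqrt_le_left hδ0.le).2 (hm.1.slopeLat x hx)).trans hδν⟩
    · refine le_trans ?_ d3
      exact mul_le_mul hsl (by linarith) (by positivity) (Real.sqrt_nonneg _)
    · calc 16 * tilt n * lam * C ^ 2 ≤ 16 * tilt n * δ * C ^ 2 :=
            mul_le_mul_of_nonneg_right (mul_le_mul_of_nonneg_left hlamδ (by linarith)) (sq_nonneg C)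
        _ = δ * (16000000 * tilt n * C ^ 2) / 1000000 := by ring
        _ ≤ 1 / 1000000 := div_le_div_of_nonneg_right (d4.trans (hν01.trans (by norm_num)))
            (by norm_num)
    · linarith
    · filter_upwards [hev] with m hm x hx
      calc lat (grad (moll m v) x) * tilt n ≤ δ * tilt n :=
            mul_le_mul_of_nonneg_right ((Real.sqrt_le_left hδ0.le).2 (hm.1.slopeLat x hx)) htn
        _ ≤ ν0 := by nlinarith
  obtain ⟨a, b, ρ, h1, h2, h3, h4, h5⟩ := S.conclude (j0 := n + j) (m0 := m0) (η := η) hst hsd hd hθd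
    hθη hflat hn (Nat.le_add_right _ _) (Nat.add_lt_add_left j.2 n)
    (hFG.mono fun m hm => hm.2)
  exact ⟨i, a, b, ρ, h1, h2, h3, h4, h5⟩

end Vale.Agent.P080.C1
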