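import Vale.Agent.P080.C1.Improve
import Mathlib.Analysis.Calculus.ContDiff.Operations
import Mathlib.Analysis.InnerProductSpace.PiL2
import Mathlib.MeasureTheory.Constructions.Pi

/-!
# Improvement of flatness in the original variables
-/

namespace Vale.Agent.P080.C1

open scoped ContDiff Topology
open Set Filter MeasureTheory
open Vale.Agent.P080 Improve

/-- the unscaled cylinder used by `improve3` -/
def qbox (lam : ℝ) : Set E3 :=
  {x | |x 2| ≤ 1 ∧ |x 0| ≤ 4 * Real.sqrt lam ∧ |x 1| ≤ 4 * Real.sqrt lam}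

namespace Improve

instance : (volume : Measure T3).IsAddHaarMeasure := by
  rw [Measure.volume_eq_prod P2 ℝ]; infer_instance

/-- coordinates -/
noncomputable def emb : T3 ≃L[ℝ] E3 :=
  LinearEquiv.toContinuousLinearEquiv
  { toFun := fun z => WithLp.toLp 2 ![z.1.1, z.1.2, z.2]
    invFun := fun x => ((x 0, x 1), x 2)
    map_add' := fun a b => by ext i; fin_cases i <;> simp
    map_smul' := fun c a => by ext i; fin_cases i <;> simp
    left_inv := fun z => by simp
    right_inv := fun x => by ext i; fin_cases i <;> simp }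

lemma emb_apply (z : T3) (i : Fin 3) : emb z i = ![z.1.1, z.1.2, z.2] i := rfl

lemma measurePreserving_emb : MeasurePreserving emb (volume : Measure T3) volume := by
  have h1 := volume_preserving_piFinSuccAbove (fun _ : Fin 3 => ℝ) 2
  have h2 := (MeasurePreserving.id (volume : Measure ℝ)).prod
    (volume_preserving_piFinTwo (fun _ : Fin 2 => ℝ))
  rw [← Measure.volume_eq_prod, ← Measure.volume_eq_prod] at h2
  have h3 : MeasurePreserving (Prod.swap : ℝ × P2 → T3) volume volume := by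
    rw [Measure.volume_eq_prod P2 ℝ, Measure.volume_eq_prod ℝ P2]
    exact Measure.measurePreserving_swap
  have h4 := ((h3.comp h2).comp h1).comp (PiLp.volume_preserving_ofLp (Fin 3))
  have h5 : MeasurePreserving (emb.symm.toHomeomorph.toMeasurableEquiv) volume volume := by
    refine (congrArg (fun F => MeasurePreserving F volume volume) ?_).mpr h4
    funext x
    show ((x 0, x 1), x 2) = _
    simp [Fin.removeNth, Fin.succAbove, Function.comp]
  simpa using h5.symm

/-- lateral scaling -/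
noncomputable def scl (r : ℝ) : T3 →L[ℝ] T3 :=
  (r • ContinuousLinearMap.id ℝ P2).prodMap (ContinuousLinearMap.id ℝ ℝ)

lemma scl_apply (r : ℝ) (z : T3) : scl r z = ((r * z.1.1, r * z.1.2), z.2) := by
  ext <;> simp [scl]

lemma det_scl (r : ℝ) : (scl r).det = r ^ 2 := by
  rw [ContinuousLinearMap.det, show ((scl r : T3 →L[ℝ] T3) : T3 →ₗ[ℝ] T3)
    = (r • LinearMap.id).prodMap LinearMap.id from rfl, LinearMap.det_prodMap, LinearMap.det_smul,
    LinearMap.det_id, LinearMap.det_id]
  simp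

lemma setIntegral_change {lam : ℝ} (hl : 0 < lam) (g : E3 → ℝ) :
    ∫ x in qbox lam, g x = lam * ∫ z in box, g (emb (scl (Real.sqrt lam) z)) := by
  set r := Real.sqrt lam with hr
  have hr0 : 0 < r := Real.sqrt_pos.2 hl
  have himg : scl r '' box = emb ⁻¹' qbox lam := by
    ext z
    constructor
    · rintro ⟨y, ⟨h1, h2⟩, rfl⟩
      rw [mem_sq] at h1
      simp only [mem_preimage, qbox, mem_ofPred_eq, emb_apply, scl_apply, ← hr]
      refine ⟨abs_le.2 h2, ?_, ?_⟩ <;>
        simp [abs_mul, abs_of_pos hr0] <;> rw [mul_comm 4 r] <;>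
          exact mul_le_mul_of_nonneg_left (by first | exact h1.1 | exact h1.2) hr0.le
    · intro hz
      simp only [mem_preimage, qbox, mem_ofPred_eq, emb_apply, ← hr] at hz
      refine ⟨((z.1.1 / r, z.1.2 / r), z.2), ⟨mem_sq.2 ?_, abs_le.1 hz.1⟩, ?_⟩
      · simp only [abs_div, abs_of_pos hr0, div_le_iff₀ hr0]
        exact ⟨by simpa using hz.2.1, by simpa using hz.2.2⟩
      · rw [scl_apply]
        simp [mul_div_cancel₀ _ hr0.ne']
  rw [← measurePreserving_emb.setIntegral_preimage_emb emb.toHomeomorph.measurableEmbedding g,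
    ← himg, integral_image_eq_integral_abs_det_fderiv_smul volume isCompact_box.measurableSet
      (fun z _ => (scl r).hasFDerivWithinAt) (fun a _ b _ h => ?_), ← integral_const_mul]
  · simp only [det_scl, smul_eq_mul, hr, Real.sq_sqrt hl.le, abs_of_pos hl]
  · rw [scl_apply, scl_apply] at h
    simp only [Prod.mk.injEq] at h
    ext
    · exact mul_left_cancel₀ hr0.ne' h.1.1
    · exact mul_left_cancel₀ hr0.ne' h.1.2
    · exact h.2

/-- scaled deviation -/
noncomputable def wOf (lam : ℝ) (u : E3 → ℝ) (z : T3) : ℝ :=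
  (u (emb (scl (Real.sqrt lam) z)) - z.2) / lam

lemma emb_scl_basis (r : ℝ) :
    emb (scl r ((1, 0), 0)) = r • EuclideanSpace.single (0 : Fin 3) (1 : ℝ) ∧
    emb (scl r ((0, 1), 0)) = r • EuclideanSpace.single (1 : Fin 3) (1 : ℝ) ∧
    emb (scl r ((0, 0), 1)) = EuclideanSpace.single (2 : Fin 3) (1 : ℝ) := by
  refine ⟨?_, ?_, ?_⟩ <;>
    · ext i
      rw [emb_apply, scl_apply]
      fin_cases i <;> simp

lemma d_comp (r : ℝ) {g : E3 → ℝ} (hg : ContDiff ℝ 1 g) (z : T3) :
    d0 (fun y => g (emb (scl r y))) z = r * pd 0 g (emb (scl r z)) ∧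
    d1 (fun y => g (emb (scl r y))) z = r * pd 1 g (emb (scl r z)) ∧
    dt (fun y => g (emb (scl r y))) z = pd 2 g (emb (scl r z)) := by
  set L : T3 →L[ℝ] E3 := (emb : T3 →L[ℝ] E3).comp (scl r)
  have h := ((hg.differentiable one_ne_zero) (L z)).hasFDerivAt.comp z L.hasFDerivAt
  have e : fderiv ℝ (fun y => g (emb (scl r y))) z = (fderiv ℝ g (L z)).comp L :=
    HasFDerivAt.fderiv (f := fun y => g (emb (scl r y))) h
  obtain ⟨b0, b1, b2⟩ := emb_scl_basis r
  refine ⟨?_, ?_, ?_⟩
  · rw [d0, e]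
    show fderiv ℝ g (L z) (emb (scl r ((1, 0), 0))) = _
    rw [b0, map_smul]; rfl
  · rw [d1, e]
    show fderiv ℝ g (L z) (emb (scl r ((0, 1), 0))) = _
    rw [b1, map_smul]; rfl
  · rw [dt, e]
    show fderiv ℝ g (L z) (emb (scl r ((0, 0), 1))) = _
    rw [b2]; rfl

lemma d_affine (c k : ℝ) {g : T3 → ℝ} {z : T3} (hg : DifferentiableAt ℝ g z) :
    d0 (fun y => (g y - k * y.2) / c) z = d0 g z / c ∧
    d1 (fun y => (g y - k * y.2) / c) z = d1 g z / c ∧
    dt (fun y => (g y - k * y.2) / c) z = (dt g z - k) / c := by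
  have h := (hg.hasFDerivAt.sub
    ((ContinuousLinearMap.snd ℝ P2 ℝ).hasFDerivAt.const_mul k)).mul_const c⁻¹
  have e : fderiv ℝ (fun y => (g y - k * y.2) / c) z = _ :=
    HasFDerivAt.fderiv (f := fun y : T3 => (g y - k * y.2) * c⁻¹) h
  refine ⟨?_, ?_, ?_⟩ <;> simp [d0, d1, dt, e] <;> ring

lemma contDiff_pd3 {n : ℕ} {u : E3 → ℝ} (hu : ContDiff ℝ (n + 1) u) (i : Fin 3) :
    ContDiff ℝ n (pd i u) :=
  (hu.fderiv_right le_rfl).clm_apply contDiff_const

lemma wOf_pd {lam : ℝ} {u : E3 → ℝ} (hu : ContDiff ℝ 3 u) (z : T3) :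
    d0 (wOf lam u) z = Real.sqrt lam / lam * pd 0 u (emb (scl (Real.sqrt lam) z)) ∧
    d1 (wOf lam u) z = Real.sqrt lam / lam * pd 1 u (emb (scl (Real.sqrt lam) z)) ∧
    dt (wOf lam u) z = (pd 2 u (emb (scl (Real.sqrt lam) z)) - 1) / lam := by
  have hd : DifferentiableAt ℝ (fun y => u (emb (scl (Real.sqrt lam) y))) z :=
    ((hu.comp ((emb : T3 →L[ℝ] E3).comp (scl (Real.sqrt lam))).contDiff).differentiable
      (by norm_num)) z
  obtain ⟨a, b, c⟩ := d_affine lam 1 hd
  obtain ⟨a', b', c'⟩ := d_comp (Real.sqrt lam) (hu.of_le (by norm_num)) z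
  have e : wOf lam u = fun y => (u (emb (scl (Real.sqrt lam) y)) - 1 * y.2) / lam := by
    funext y; simp [wOf]
  rw [e, a, b, c, a', b', c']
  refine ⟨?_, ?_, rfl⟩ <;> ring

lemma Fw_wOf {lam : ℝ} (hl : 0 < lam) {u : E3 → ℝ} (hu : ContDiff ℝ 3 u) (z : T3) :
    Fw lam (wOf lam u) z = (gsq u (emb (scl (Real.sqrt lam) z)) - 1) / (2 * lam) := by
  obtain ⟨a, b, c⟩ := wOf_pd (lam := lam) hu z
  have hs := Real.mul_self_sqrt hl.le
  simp only [Fw, a, b, c, gsq, Fin.sum_univ_three]
  generalize Real.sqrt lam = r at hs ⊢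
  subst hs
  have : r ≠ 0 := fun h => by simp [h] at hl
  field_simp
  ring

lemma pd_gsq {u : E3 → ℝ} (hu : ContDiff ℝ 3 u) (i : Fin 3) (x : E3) :
    pd i (gsq u) x = 2 * ∑ j, pd j u x * pd i (pd j u) x := by
  have h : HasFDerivAt (fun y => ∑ j, pd j u y ^ 2) _ x :=
    HasFDerivAt.fun_sum fun j _ =>
      (((contDiff_pd3 (n := 2) hu j).differentiable (by norm_num)) x).hasFDerivAt.pow 2
  rw [pd, show gsq u = fun y => ∑ j, pd j u y ^ 2 from rfl, h.fderiv]
  simp [pd, Fin.sum_univ_three]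
  ring

lemma rho_wOf {lam sig : ℝ} (hl : 0 < lam) {u : E3 → ℝ} (hu : ContDiff ℝ 3 u) (z : T3) :
    rho lam sig (wOf lam u) z = res (sig * lam) u (emb (scl (Real.sqrt lam) z)) / lam := by
  set r := Real.sqrt lam with hr
  have hs : r * r = lam := Real.mul_self_sqrt hl.le
  have hr0 : r ≠ 0 := fun h => by simp [h] at hs; linarith
  have hG : ContDiff ℝ 1 fun x => (gsq u x - 1) / (2 * lam) := by
    refine ((ContDiff.sum fun j _ => ?_).sub contDiff_const).div_const _
    exact ((contDiff_pd3 (n := 2) hu j).of_le one_le_two).pow 2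
  have eF : Fw lam (wOf lam u) = fun y => (fun x => (gsq u x - 1) / (2 * lam)) (emb (scl r y)) :=
    funext (Fw_wOf hl hu)
  obtain ⟨F0, F1, F2⟩ := d_comp r hG z
  have hpdG : ∀ i, pd i (fun x => (gsq u x - 1) / (2 * lam)) (emb (scl r z))
      = (∑ j, pd j u (emb (scl r z)) * pd i (pd j u) (emb (scl r z))) / lam := by
    intro i
    have hd : DifferentiableAt ℝ (gsq u) (emb (scl r z)) :=
      DifferentiableAt.fun_sum fun j _ =>
        (((contDiff_pd3 (n := 2) hu j).differentiable (by norm_num)) _).pow 2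
    have h := (hd.hasFDerivAt.sub_const 1).mul_const (2 * lam)⁻¹
    rw [pd, HasFDerivAt.fderiv (f := fun x => (gsq u x - 1) / (2 * lam)) h]
    have := pd_gsq hu i (emb (scl r z))
    simp only [pd] at this
    simp [this]
    field_simp
    rfl
  obtain ⟨a, b, c⟩ := wOf_pd (lam := lam) hu z
  have e0 : d0 (wOf lam u) = fun y => (r / lam) * pd 0 u (emb (scl r y)) :=
    funext fun y => (wOf_pd hu y).1
  have e1 : d1 (wOf lam u) = fun y => (r / lam) * pd 1 u (emb (scl r y)) :=
    funext fun y => (wOf_pd hu y).2.1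
  have e2 : dt (wOf lam u) = fun y => (pd 2 u (emb (scl r y)) - 1) / lam :=
    funext fun y => (wOf_pd hu y).2.2
  have g0 : d0 (d0 (wOf lam u)) z = pd 0 (pd 0 u) (emb (scl r z)) := by
    rw [e0]
    have := (d_comp r (contDiff_const.mul ((contDiff_pd3 (n := 2) hu 0).of_le one_le_two)) z
      (g := fun x => r / lam * pd 0 u x)).1
    rw [this, pd, fderiv_const_mul ((contDiff_pd3 (n := 2) hu 0).differentiable (by norm_num) _)]
    show r * (r / lam * pd 0 (pd 0 u) _) = _
    rw [← mul_assoc, mul_div_assoc', hs, div_self hl.ne', one_mul]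
  have g1 : d1 (d1 (wOf lam u)) z = pd 1 (pd 1 u) (emb (scl r z)) := by
    rw [e1]
    have := (d_comp r (contDiff_const.mul ((contDiff_pd3 (n := 2) hu 1).of_le one_le_two)) z
      (g := fun x => r / lam * pd 1 u x)).2.1
    rw [this, pd, fderiv_const_mul ((contDiff_pd3 (n := 2) hu 1).differentiable (by norm_num) _)]
    show r * (r / lam * pd 1 (pd 1 u) _) = _
    rw [← mul_assoc, mul_div_assoc', hs, div_self hl.ne', one_mul]
  have g2 : dt (dt (wOf lam u)) z = pd 2 (pd 2 u) (emb (scl r z)) / lam := by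
    rw [e2]
    have hc := (contDiff_pd3 (n := 2) hu 2).of_le one_le_two
    have := (d_comp r (g := fun x => (pd 2 u x - 1) / lam)
      ((hc.sub contDiff_const).div_const lam) z).2.2
    rw [this, pd, HasFDerivAt.fderiv (f := fun x => (pd 2 u x - 1) / lam)
      ((((hc.differentiable one_ne_zero) _).hasFDerivAt.sub_const 1).mul_const lam⁻¹)]
    simp [pd, div_eq_inv_mul]
  simp only [rho, vt, g0, g1, g2]
  simp only [eF, F0, F1, F2, hpdG, a, b, c, ← hr, res, trH, pd2, infLap, Fin.sum_univ_three]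
  clear_value r
  subst hs
  field_simp
  ring

end Improve

/-- Improvement of flatness, original variables. -/
theorem improve3 (A : ℝ) : ∃ C d0 : ℝ, 0 < C ∧ 0 < d0 ∧
    ∀ (lam eps f d : ℝ) (u : E3 → ℝ), 0 < lam → 0 < eps → eps ≤ d * lam → d ≤ d0 →
      ContDiff ℝ ∞ u →
      (∀ x ∈ qbox lam, |u x - x 2| ≤ lam ∧ gsq u x - 1 ≤ 2 * A * lam ∧ |pd 2 u x - 1| ≤ 1 / 4 ∧
        (pd 2 u x - 1) ^ 2 * (1 + pLatSq u x) ≤ d * lam) →
      ∫ x in qbox lam, |gsq u x - 1 - 2 * lam * f| ≤ 2 * lam ^ 2 * d →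
      Real.exp ((A + 8) / (eps / lam)) * ∫ x in qbox lam, |res eps u x| ≤ d * lam ^ 2 →
      -8 ≤ f ∧ ∃ c0 c1 : ℝ, |c0| ≤ 16 ∧ |c1| ≤ 16 ∧ ∀ x : E3, |x 2| ≤ 1 / 8 →
        |x 0| ≤ Real.sqrt lam / 8 → |x 1| ≤ Real.sqrt lam / 8 →
        |u x - (u 0 + Real.sqrt lam * c0 * x 0 + Real.sqrt lam * c1 * x 1
            + (1 + lam * (f - (c0 ^ 2 + c1 ^ 2) / 2)) * x 2)|
          ≤ lam * C * (((|x 0| + |x 1|) / Real.sqrt lam + |x 2|) ^ 2 + d ^ (1 / 8 : ℝ)) := by
  obtain ⟨C, d0, hC, hd0, hI⟩ := Improve.improve A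
  refine ⟨C, d0, hC, hd0, fun lam eps f d u hl he hed hd hu hp hF hres => ?_⟩
  have hu3 : ContDiff ℝ 3 u := hu.of_le (WithTop.coe_le_coe.2 le_top)
  set r := Real.sqrt lam with hr
  have hr0 : 0 < r := Real.sqrt_pos.2 hl
  have hs : r * r = lam := Real.mul_self_sqrt hl.le
  have hmem : ∀ z ∈ box, emb (scl r z) ∈ qbox lam := by
    rintro z ⟨h1, h2⟩
    rw [mem_sq] at h1
    simp only [qbox, mem_ofPred_eq, emb_apply, scl_apply, ← hr]
    refine ⟨abs_le.2 h2, ?_, ?_⟩ <;>
      simp [abs_mul, abs_of_pos hr0] <;> rw [mul_comm 4 r] <;>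
        exact mul_le_mul_of_nonneg_left (by first | exact h1.1 | exact h1.2) hr0.le
  have hcfg : Cfg (wOf lam u) lam (eps / lam) A f d :=
    { smooth := ((hu3.comp ((emb : T3 →L[ℝ] E3).comp (scl r)).contDiff).sub contDiff_snd).div_const _
      lam_pos := hl
      sig_pos := div_pos he hl
      sig_le := (div_le_iff₀ hl).2 hed
      bound := fun z hz => by
        have h := (hp _ (hmem z hz)).1
        have e : emb (scl r z) 2 = z.2 := by rw [emb_apply, scl_apply]; simp
        rw [e] at h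
        rw [wOf, abs_div, abs_of_pos hl, div_le_one hl]
        exact h
      F_le := fun z hz => by
        rw [Fw_wOf hl hu3, div_le_iff₀ (by positivity)]
        linarith [(hp _ (hmem z hz)).2.1]
      lam_dt := fun z hz => by
        rw [(wOf_pd hu3 z).2.2, mul_div_cancel₀ _ hl.ne']
        linarith [(hp _ (hmem z hz)).2.2.1]
      small := fun z hz => by
        obtain ⟨a, b, c⟩ := wOf_pd (lam := lam) hu3 z
        have h := (hp _ (hmem z hz)).2.2.2
        rw [a, b, c, ← hr]
        simp only [pLatSq] at h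
        refine le_trans (le_of_eq ?_) ((div_le_iff₀ hl).2 h)
        clear_value r
        subst hs
        field_simp
      F_L1 := by
        rw [setIntegral_change hl] at hF
        have e : ∀ z, |gsq u (emb (scl r z)) - 1 - 2 * lam * f|
            = 2 * lam * |Fw lam (wOf lam u) z - f| := by
          intro z
          rw [Fw_wOf hl hu3, ← hr, ← abs_of_pos (by positivity : (0:ℝ) < 2 * lam), ← abs_mul,
            abs_of_pos (by positivity : (0:ℝ) < 2 * lam)]
          congr 1
          field_simp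
        simp only [← hr, e, integral_const_mul] at hF
        exact le_of_mul_le_mul_left (a := 2 * lam * lam) (by linarith) (by positivity)
      res := by
        rw [setIntegral_change hl] at hres
        have e : ∀ z, |res eps u (emb (scl r z))| = lam * |rho lam (eps / lam) (wOf lam u) z| := by
          intro z
          rw [rho_wOf hl hu3, ← hr, div_mul_cancel₀ _ hl.ne', abs_div, abs_of_pos hl,
            mul_div_cancel₀ _ hl.ne']
        simp only [← hr, e, integral_const_mul] at hres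
        exact le_of_mul_le_mul_left (a := lam * lam) (by linarith) (by positivity) }
  obtain ⟨hf, c, hc1, hc2, hz⟩ := hI _ lam _ f d hcfg hd
  refine ⟨hf, c.1, c.2, hc1, hc2, fun x h2 h0 h1 => ?_⟩
  have key := hz ((x 0 / r, x 1 / r), x 2) (by
      simp only [abs_div, abs_of_pos hr0]; rw [div_le_iff₀ hr0]; linarith) (by
      simp only [abs_div, abs_of_pos hr0]; rw [div_le_iff₀ hr0]; linarith) h2
  have e1 : emb (scl r ((x 0 / r, x 1 / r), x 2)) = x := by
    ext i
    rw [emb_apply, scl_apply]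
    fin_cases i <;> simp [mul_div_cancel₀ _ hr0.ne']
  simp only [wOf, ← hr, e1, sqn, Prod.snd_zero, map_zero, sub_zero, abs_div,
    abs_of_pos hr0] at key
  have key' := mul_le_mul_of_nonneg_left key hl.le
  rw [← abs_of_pos hl, ← abs_mul, abs_of_pos hl] at key'
  have e2 : u x - (u 0 + r * c.1 * x 0 + r * c.2 * x 1
      + (1 + lam * (f - (c.1 ^ 2 + c.2 ^ 2) / 2)) * x 2)
      = lam * ((u x - x 2) / lam - (u 0 / lam + c.1 * (x 0 / r) + c.2 * (x 1 / r)
        + (f - (c.1 ^ 2 + c.2 ^ 2) / 2) * x 2)) := by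
    clear_value r
    subst hs
    field_simp
    ring
  rw [e2]
  refine key'.trans (le_of_eq ?_)
  ring

end Vale.Agent.P080.C1
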