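import Vale.Agent.P080.C1.Slope

/-!
# Interfaces between the modules of the three-dimensional gradient estimate

Every `…Out` below is to be proved by one module; none is an axiom.
-/

namespace Vale.Agent.P080.C1

open scoped ContDiff Topology RealInnerProductSpace
open Set Filter MeasureTheory

/-- open working cylinder of the comparison solution -/
def wbox (lam : ℝ) : Set E3 := {x | |x 2| < 7 / 10 ∧ lat x < 40 * Real.sqrt lam}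

/-- region where the Bernstein bounds hold -/
def mbox (lam : ℝ) : Set E3 := {x | |x 2| ≤ 5 / 8 ∧ lat x ≤ 32 * Real.sqrt lam}

/-- region where the energy is bounded -/
def kbox (lam : ℝ) : Set E3 := {x | |x 2| ≤ 1 / 2 ∧ lat x ≤ 24 * Real.sqrt lam}

/-- (C)+(A): comparison solutions close to `u` whose gradient is globally near the vertical -/
def CompareOut : Prop :=
  ∀ w0 : ℝ, 0 < w0 → ∃ Λ lam0 : ℝ, 0 < Λ ∧ 0 < lam0 ∧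
    ∀ lam u, 0 < lam → lam ≤ lam0 → Conf lam u → ∃ v : ℝ → E3 → ℝ,
      ∀ᶠ ε in 𝓝[>] (0 : ℝ), Sol0 ε (wbox lam) (v ε) ∧
        (∀ x ∈ wbox lam, |v ε x - u x| ≤ w0 * lam) ∧
        ∀ K, IsCompact K → K ⊆ wbox lam → ∀ᶠ η in 𝓝[>] (0 : ℝ), ∀ x ∈ K,
          |pd 2 (moll η (v ε)) x - 1| ≤ Λ * lam ∧ pLatSq (moll η (v ε)) x ≤ Λ ^ 2 * lam

/-- (B): Bernstein bounds, independent of the a priori closeness `δ` -/
def BernsteinOut : Prop :=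
  ∃ C δ : ℝ, 0 < C ∧ 0 < δ ∧ ∀ (lam ε : ℝ) (v : E3 → ℝ), 0 < lam → lam ≤ δ → ε ≤ lam →
    Sol0 ε (wbox lam) v → (∀ x ∈ wbox lam, |v x - x 2| ≤ 2 * lam) →
    (∀ K, IsCompact K → K ⊆ wbox lam → ∀ᶠ η in 𝓝[>] (0 : ℝ), ∀ x ∈ K,
      |pd 2 (moll η v) x - 1| ≤ δ ∧ pLatSq (moll η v) x ≤ δ) →
    ∀ᶠ η in 𝓝[>] (0 : ℝ), ∀ x ∈ mbox lam,
      gsq (moll η v) x - 1 ≤ C * lam ∧ gTilt (moll η v) x ≤ C * lam

/-- pointwise hypotheses on a smooth approximate configuration -/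
structure Pre (A δ lam : ℝ) (u : E3 → ℝ) : Prop where
  smooth : ContDiff ℝ ∞ u
  flat : ∀ x ∈ mbox lam, |u x - x 2| ≤ 3 * lam
  slope3 : ∀ x ∈ mbox lam, |pd 2 u x - 1| ≤ δ * Real.sqrt lam
  slopeLat : ∀ x ∈ mbox lam, pLatSq u x ≤ δ ^ 2
  upper : ∀ x ∈ mbox lam, gsq u x - 1 ≤ A * lam
  tilt : ∀ x ∈ mbox lam, gTilt u x ≤ A * lam

/-- the energy of a smooth configuration -/
noncomputable def energy (lam ε : ℝ) (u : E3 → ℝ) : ℝ :=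
  (∫ x in kbox lam, (qv 0 u x ^ 2 + qv 1 u x ^ 2 + ε * trH u x ^ 2)) +
    (∫ x in kbox lam, ((gsq u x - 1) ^ 2 + pLatSq u x ^ 2 + (1 - pd 2 u x) ^ 2)) / lam

/-- (E): the energy bound -/
def EnergyOut : Prop :=
  ∀ A : ℝ, ∃ C δ : ℝ, 0 < C ∧ 0 < δ ∧ ∀ lam ε : ℝ, 0 < lam → lam ≤ δ → 0 < ε → ε ≤ lam →
    ∃ K : ℝ, ∀ u, Pre A δ lam u → energy lam ε u ≤ C * lam ^ 2 +
      K * Real.sqrt (∫ x in mbox lam, res ε u x ^ 2) *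
        (1 + Real.sqrt (∫ x in mbox lam, hessSq u x))

/-- (R): the good scale -/
def GoodOut : Prop :=
  ∀ A η : ℝ, 0 < η → ∃ A' δ ρmin : ℝ, ∃ N : ℕ, 0 < A' ∧ 0 < δ ∧ 0 < ρmin ∧ 0 < N ∧
    ∀ lam ε : ℝ, 0 < lam → lam ≤ δ → 0 < ε → ε ≤ δ * lam → ∀ v : E3 → ℝ,
      Sol0 ε (wbox lam) v →
      (∀ᶠ m in 𝓝[>] (0 : ℝ), Pre A δ lam (moll m v) ∧ energy lam ε (moll m v) ≤ A * lam ^ 2) →
        ∀ P : Fin N → E3, (∀ i, gau lam (P i) = 1 / 8 + (i : ℝ) / (8 * N)) →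
        ∃ (i : Fin N) (a : E3) (b ρ : ℝ), ρmin ≤ ρ ∧ 8 * ρ * (1 + 2 * A') ≤ 1 ∧
          |a 2 - 1| ≤ A' * lam ∧ lat a ≤ A' * Real.sqrt lam ∧
          ∀ z ∈ ocyl a (P i) ρ (R0 * Real.sqrt (lam / 32) * ρ),
            z ∈ kbox lam ∧ |v z - (⟪a, z⟫ + b)| ≤ η * lam * ρ

end Vale.Agent.P080.C1
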