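import Vale.Agent.P080.C1.ImproveLower
import Vale.Agent.P080.C1.Basic
import Mathlib.MeasureTheory.Constructions.Pi
import Mathlib.MeasureTheory.Measure.Haar.InnerProductSpace
import Mathlib.Analysis.SpecialFunctions.Pow.Real
import Mathlib.MeasureTheory.Measure.Haar.Unique

/-!
# Improvement of flatness for the scaled regularised equation

If `F` is close to a constant in `L¹` and the viscosity is small, then the scaled deviation is,
up to quadratic and small errors, affine near the centre.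
-/

namespace Vale.Agent.P080.C1.Improve

open scoped ContDiff Topology
open Set Filter MeasureTheory

variable {w : T3 → ℝ} {lam sig A f d : ℝ}

/-! ### time reversal -/

/-- `(ξ, t) ↦ (ξ, -t)` -/
noncomputable def refl : T3 →L[ℝ] T3 :=
  (ContinuousLinearMap.fst ℝ P2 ℝ).prod (-ContinuousLinearMap.snd ℝ P2 ℝ)

lemma refl_apply (z : T3) : refl z = (z.1, -z.2) := rfl

lemma fderiv_comp_refl {g : T3 → ℝ} (hg : ContDiff ℝ 1 g) (z v : T3) :
    fderiv ℝ (fun y => g (refl y)) z v = fderiv ℝ g (refl z) (refl v) := by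
  have h := (((hg.differentiable one_ne_zero) (refl z)).hasFDerivAt).comp z refl.hasFDerivAt
  rw [HasFDerivAt.fderiv (f := fun y => g (refl y)) h]
  rfl

lemma d_comp_refl {g : T3 → ℝ} (hg : ContDiff ℝ 1 g) (z : T3) :
    d0 (fun y => g (refl y)) z = d0 g (refl z) ∧ d1 (fun y => g (refl y)) z = d1 g (refl z) ∧
      dt (fun y => g (refl y)) z = -dt g (refl z) := by
  refine ⟨?_, ?_, ?_⟩
  · rw [d0, fderiv_comp_refl hg]; simp [refl_apply, d0]
  · rw [d1, fderiv_comp_refl hg]; simp [refl_apply, d1]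
  · rw [dt, fderiv_comp_refl hg, dt, ← map_neg]
    congr 1
    simp [refl_apply]

lemma d_neg (g : T3 → ℝ) (z : T3) :
    d0 (fun y => -g y) z = -d0 g z ∧ d1 (fun y => -g y) z = -d1 g z
      ∧ dt (fun y => -g y) z = -dt g z := by
  simp [d0, d1, dt, fderiv_fun_neg]

/-- the time-reversed function -/
noncomputable def rev (w : T3 → ℝ) : T3 → ℝ := fun z => -w (refl z)

lemma refl_mem_box {z : T3} : refl z ∈ box ↔ z ∈ box := by
  simp only [refl_apply, box, mem_prod, mem_Icc]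
  constructor <;> rintro ⟨h1, h2, h3⟩ <;> exact ⟨h1, by linarith, by linarith⟩

lemma setIntegral_refl (g : T3 → ℝ) : ∫ z in box, g (refl z) = ∫ z in box, g z := by
  have hmp : MeasurePreserving (fun z : T3 => (z.1, -z.2)) volume volume := by
    rw [Measure.volume_eq_prod P2 ℝ]
    exact (MeasurePreserving.id _).prod (Measure.measurePreserving_neg _)
  have he : MeasurableEmbedding (fun z : T3 => (z.1, -z.2)) :=
    ((MeasurableEquiv.refl P2).prodCongr (MeasurableEquiv.neg ℝ)).measurableEmbedding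
  have h := hmp.setIntegral_preimage_emb he g box
  rwa [show (fun z : T3 => (z.1, -z.2)) ⁻¹' box = box from
    Set.ext fun z => refl_mem_box] at h

lemma rev_pd (hw : ContDiff ℝ 3 w) (z : T3) :
    d0 (rev w) z = -d0 w (refl z) ∧ d1 (rev w) z = -d1 w (refl z)
      ∧ dt (rev w) z = dt w (refl z) := by
  obtain ⟨a, b, c⟩ := d_neg (fun y => w (refl y)) z
  obtain ⟨a', b', c'⟩ := d_comp_refl (hw.of_le (by norm_num)) z
  exact ⟨a.trans (by rw [a']), b.trans (by rw [b']), c.trans (by rw [c', neg_neg])⟩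

lemma Fw_rev (hw : ContDiff ℝ 3 w) (lam : ℝ) (z : T3) : Fw lam (rev w) z = Fw lam w (refl z) := by
  obtain ⟨a, b, c⟩ := rev_pd hw z
  simp only [Fw, a, b, c, neg_sq]

lemma rho_rev (hw : ContDiff ℝ 3 w) (lam sig : ℝ) (z : T3) :
    rho lam sig (rev w) z = -rho lam sig w (refl z) := by
  obtain ⟨a, b, c⟩ := rev_pd hw z
  have eF : Fw lam (rev w) = fun y => Fw lam w (refl y) := funext (Fw_rev hw lam)
  have e0 : d0 (rev w) = fun y => -d0 w (refl y) := funext fun y => (rev_pd hw y).1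
  have e1 : d1 (rev w) = fun y => -d1 w (refl y) := funext fun y => (rev_pd hw y).2.1
  have e2 : dt (rev w) = fun y => dt w (refl y) := funext fun y => (rev_pd hw y).2.2
  obtain ⟨h0, h1, h2⟩ := contDiff_d hw
  obtain ⟨F0, F1, F2⟩ := d_comp_refl ((contDiff_Fw hw lam).of_le one_le_two) z
  have g0 : d0 (d0 (rev w)) z = -d0 (d0 w) (refl z) := by
    rw [e0, (d_neg (fun y => d0 w (refl y)) z).1, (d_comp_refl (h0.of_le one_le_two) z).1]
  have g1 : d1 (d1 (rev w)) z = -d1 (d1 w) (refl z) := by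
    rw [e1, (d_neg (fun y => d1 w (refl y)) z).2.1, (d_comp_refl (h1.of_le one_le_two) z).2.1]
  have g2 : dt (dt (rev w)) z = -dt (dt w) (refl z) := by
    rw [e2, (d_comp_refl (h2.of_le one_le_two) z).2.2]
  simp only [rho, vt, g0, g1, g2, a, b, c, eF, F0, F1, F2]
  ring

lemma Cfg.rev (H : Cfg w lam sig A f d) : Cfg (rev w) lam sig A f d := by
  have hz : ∀ {z}, z ∈ box → refl z ∈ box := fun hz => refl_mem_box.2 hz
  exact
  { smooth := (H.smooth.comp refl.contDiff).neg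
    lam_pos := H.lam_pos
    sig_pos := H.sig_pos
    sig_le := H.sig_le
    bound := fun z h => by simpa [Improve.rev] using H.bound _ (hz h)
    F_le := fun z h => by rw [Fw_rev H.smooth]; exact H.F_le _ (hz h)
    lam_dt := fun z h => by rw [(rev_pd H.smooth z).2.2]; exact H.lam_dt _ (hz h)
    small := fun z h => by
      obtain ⟨a, b, c⟩ := rev_pd H.smooth z
      rw [a, b, c, neg_sq, neg_sq]; exact H.small _ (hz h)
    F_L1 := by
      simp only [Fw_rev H.smooth]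
      rw [setIntegral_refl (fun z => |Fw lam w z - f|)]; exact H.F_L1
    res := by
      simp only [rho_rev H.smooth, abs_neg]
      rw [setIntegral_refl (fun z => |rho lam sig w z|)]; exact H.res }

/-! ### the affine approximation -/

lemma f_le (H : Cfg w lam sig A f d) (hd : d ≤ 1) : f ≤ A + 1 := by
  have hv : volume.real box = 128 := by
    rw [box, measureReal_def, Measure.volume_eq_prod P2 ℝ, Measure.prod_prod, ENNReal.toReal_mul,
      ← measureReal_def, ← measureReal_def, volume_sq (by norm_num),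
      Real.volume_real_Icc_of_le (by norm_num)]
    norm_num
  have hi : IntegrableOn (fun z => |Fw lam w z - f|) box volume :=
    ((continuous_Fw H.smooth lam).sub continuous_const).abs.continuousOn.integrableOn_compact
      isCompact_box
  have h := setIntegral_mono_on (integrableOn_const (C := f - A) isCompact_box.measure_lt_top.ne)
    hi isCompact_box.measurableSet fun z hz => by
      have := H.F_le z hz
      linarith [neg_abs_le (Fw lam w z - f)]
  rw [integral_const, measureReal_restrict_apply_univ, hv, smul_eq_mul] at h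
  linarith [H.F_L1]

lemma upper_simple (H : Cfg w lam sig A f d) {A' κ : ℝ} (hA : A + 1 ≤ A') (hκ : 0 < κ)
    (hκ1 : κ ≤ 1 / 100) (hd : d ≤ κ ^ 4) (hf : |f| ≤ A') {x y : P2} {t1 t2 : ℝ} (hx : x ∈ sq 3)
    (hy : y ∈ sq 3) (h1 : -1 ≤ t1) (h2 : t2 ≤ 1) (hT : 1 / 8 ≤ t2 - t1) :
    w (y, t2) - w (x, t1) ≤ sqn (y - x) / (2 * (t2 - t1)) + f * (t2 - t1) + κ * (7000 + 4 * A') := by
  have h := upper H hκ (by linarith) hx hy h1 h2 (by linarith)
  set T := t2 - t1 with hTdef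
  have hs : sqn (y - x) ≤ 72 := by
    obtain ⟨a1, a2⟩ := mem_sq.1 hx
    obtain ⟨b1, b2⟩ := mem_sq.1 hy
    simp only [sqn, Prod.fst_sub, Prod.snd_sub]
    have c1 := pow_le_pow_left₀ (abs_nonneg _) ((abs_sub _ _).trans (add_le_add b1 a1)) 2
    have c2 := pow_le_pow_left₀ (abs_nonneg _) ((abs_sub _ _).trans (add_le_add b2 a2)) 2
    rw [sq_abs] at c1 c2
    norm_num at c1 c2
    linarith
  have hT' : 0 < T - 2 * κ := by linarith
  have e : sqn (y - x) / (2 * (T - 2 * κ))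
      = sqn (y - x) / (2 * T) + κ * (sqn (y - x) / (T * (T - 2 * κ))) := by
    have : T ≠ 0 := by linarith
    field_simp
    ring
  have hq : sqn (y - x) / (T * (T - 2 * κ)) ≤ 6999 := by
    rw [div_le_iff₀ (mul_pos (by linarith) hT')]
    have := mul_le_mul hT (show (21 / 200 : ℝ) ≤ T - 2 * κ by linarith) (by norm_num) (by linarith)
    linarith
  have hd' : d / (4 * κ ^ 2) ≤ κ := by
    rw [div_le_iff₀ (by positivity)]
    calc d ≤ κ ^ 4 := hd
      _ ≤ 1 * κ ^ 3 := by rw [pow_succ' κ 3]; exact mul_le_mul_of_nonneg_right (by linarith) (by positivity)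
      _ ≤ _ := by linarith [pow_pos hκ 3]
  rw [e] at h
  linarith [mul_le_mul_of_nonneg_left hq hκ.le, mul_le_mul_of_nonneg_left hA hκ.le,
    mul_le_mul_of_nonneg_left ((abs_le.1 hf).1) hκ.le]

lemma lower_simple (H : Cfg w lam sig A f d) {A' κ : ℝ} (hA : A + 1 ≤ A') (hκ : 0 < κ)
    (hκ1 : κ ≤ 1 / 10000) (hd : d ≤ κ ^ 4) (hf : |f| ≤ A') (hf5 : -5 ≤ f) :
    ∃ y ∈ sq 3, 2 * sqn y + f / 4 - κ * (3000 + 4 * A') ≤ w (y, 1 / 4) - w 0 := by
  have hd3 : d ≤ κ ^ 3 / 10000 := by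
    calc d ≤ κ * κ ^ 3 := by rw [← pow_succ']; exact hd
      _ ≤ 1 / 10000 * κ ^ 3 := mul_le_mul_of_nonneg_right hκ1 (by positivity)
      _ = _ := by ring
  obtain ⟨t0, ht0, x, hx, y, hy, h⟩ :=
    lower H hκ (by linarith) (τ := 1 / 4) (by norm_num) le_rfl hf5 hd3
  refine ⟨y, hy, ?_⟩
  obtain ⟨x1, x2⟩ := mem_sq.1 hx
  obtain ⟨y1, y2⟩ := mem_sq.1 hy
  have hη : 2000 * d / κ ^ 3 ≤ 2000 * κ := by
    rw [div_le_iff₀ (by positivity)]; linarith
  have h0 := seg_short H (a := x) (b := 0) (s1 := t0) (s2 := 0) (by linarith [ht0.2])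
    (by linarith [ht0.1]) zero_le_one (mem_sq.2 ⟨by linarith, by linarith⟩)
    (mem_sq.2 (by norm_num))
  simp only [zero_sub] at h0
  have hxs : sqn (-x) ≤ 2 * κ ^ 2 := by
    have c1 := pow_le_pow_left₀ (abs_nonneg _) x1 2
    have c2 := pow_le_pow_left₀ (abs_nonneg _) x2 2
    rw [sq_abs] at c1 c2
    simp only [sqn, Prod.fst_neg, Prod.snd_neg, neg_sq]
    linarith
  have h0' : sqn (-x) / (2 * -t0) ≤ κ := by
    rw [div_le_iff₀ (by linarith [ht0.2])]
    linarith [mul_le_mul_of_nonneg_left ht0.2 hκ.le]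
  have hAt : A * -t0 ≤ A' * (2 * κ) := by
    calc A * -t0 ≤ A' * -t0 := mul_le_mul_of_nonneg_right (by linarith) (by linarith [ht0.2])
      _ ≤ _ := mul_le_mul_of_nonneg_left (by linarith [ht0.1])
          ((abs_nonneg f).trans hf)
  set T := 1 / 4 - t0 with hT
  have hT1 : 1 / 4 ≤ T := by linarith [ht0.2]
  have hfT : f / 4 - 2 * κ * A' ≤ f * T := by
    have h1 : -(A' * -t0) ≤ f * -t0 := by
      have := mul_le_mul_of_nonneg_right (abs_le.1 hf).1 (by linarith [ht0.2] : (0:ℝ) ≤ -t0)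
      linarith
    have h2 : A' * -t0 ≤ A' * (2 * κ) :=
      mul_le_mul_of_nonneg_left (by linarith [ht0.1]) ((abs_nonneg f).trans hf)
    rw [hT]; linarith
  have hyx : sqn y ≤ sqn (y - x) + 12 * κ := by
    have m1 : y.1 * x.1 ≤ 3 * κ := (le_abs_self _).trans
      ((abs_mul _ _).trans_le (mul_le_mul y1 x1 (abs_nonneg _) (by norm_num)))
    have m2 : y.2 * x.2 ≤ 3 * κ := (le_abs_self _).trans
      ((abs_mul _ _).trans_le (mul_le_mul y2 x2 (abs_nonneg _) (by norm_num)))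
    simp only [sqn, Prod.fst_sub, Prod.snd_sub]
    linarith [sq_nonneg x.1, sq_nonneg x.2]
  have hy18 : sqn y ≤ 18 := by
    have c1 := pow_le_pow_left₀ (abs_nonneg _) y1 2
    have c2 := pow_le_pow_left₀ (abs_nonneg _) y2 2
    rw [sq_abs] at c1 c2
    simp only [sqn]; linarith
  have hq : 2 * (1 - 8 * κ) * (sqn y - 12 * κ) ≤ sqn (y - x) / (2 * T) := by
    rw [le_div_iff₀ (by positivity)]
    have h3 : 4 * (1 - 8 * κ) * T ≤ 1 := by
      have h4 : T ≤ 1 / 4 + 2 * κ := by linarith [ht0.1]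
      have := mul_le_mul_of_nonneg_left h4 (show 0 ≤ 4 * (1 - 8 * κ) by linarith)
      linarith [sq_nonneg κ]
    calc 2 * (1 - 8 * κ) * (sqn y - 12 * κ) * (2 * T) = (4 * (1 - 8 * κ) * T) * (sqn y - 12 * κ) := by ring
      _ ≤ (4 * (1 - 8 * κ) * T) * sqn (y - x) := mul_le_mul_of_nonneg_left (by linarith)
          (mul_nonneg (by linarith) (by linarith))
      _ ≤ 1 * sqn (y - x) := mul_le_mul_of_nonneg_right h3 (sqn_nonneg _)
      _ = _ := one_mul _
  rw [show ((0 : P2), (0 : ℝ)) = (0 : T3) from rfl] at h0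
  linarith [mul_le_mul_of_nonneg_left hy18 hκ.le, sq_nonneg κ]

/-- Lower bound for `f`. -/
lemma f_ge (H : Cfg w lam sig A f d) {A' κ : ℝ} (hAA : A + 1 ≤ A') (hA8 : 8 ≤ A') (hκ : 0 < κ)
    (hκs : κ ≤ 1 / 10000) (hd : d ≤ κ ^ 4) (hκA : κ * A' ≤ 1 / 10) : -5 ≤ f := by
  have hO : (0 : P2) ∈ sq 3 := mem_sq.2 (by norm_num)
  have h := upper H hκ (by linarith) hO hO (t1 := -1 / 2) (t2 := 1 / 2) (by norm_num)
    (by norm_num) (by linarith)
  have e0 : sqn ((0 : P2) - 0) = 0 := by simp [sqn]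
  have hb : ∀ t : ℝ, |t| ≤ 1 → ((0 : P2), t) ∈ box := fun t ht =>
    ⟨mem_sq.2 (by norm_num), (abs_le.1 ht).1, (abs_le.1 ht).2⟩
  have b1 := abs_le.1 (H.bound _ (hb (-1 / 2) (by norm_num)))
  have b2 := abs_le.1 (H.bound _ (hb (1 / 2) (by norm_num)))
  rw [e0, zero_div] at h
  have hd' : d / (4 * κ ^ 2) ≤ κ := by
    rw [div_le_iff₀ (by positivity)]
    calc d ≤ κ * κ ^ 3 := by rw [← pow_succ']; exact hd
      _ ≤ 1 * κ ^ 3 := mul_le_mul_of_nonneg_right (by linarith) (by positivity)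
      _ ≤ _ := by linarith [pow_pos hκ 3]
  have h5 := mul_le_mul_of_nonneg_left hAA hκ.le
  by_contra hc
  push Not at hc
  have h7 : f * (1 / 2 - -1 / 2 - 2 * κ) ≤ -5 * (1 / 2 - -1 / 2 - 2 * κ) :=
    mul_le_mul_of_nonneg_right hc.le (by linarith)
  linarith

lemma swap_bound {p q : P2} {u v σ δ : ℝ} (h1 : |p.1 + q.1| ≤ σ) (h2 : |p.2 + q.2| ≤ σ)
    (a1 : |p.1| ≤ 3) (a2 : |p.2| ≤ 3) (b1 : |q.1| ≤ 3) (b2 : |q.2| ≤ 3) (hu : |u| ≤ 1 / 8)
    (hv : |v| ≤ 1 / 8) (hδ : 1 / 4 ≤ δ) (hσ : 0 ≤ σ) :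
    sqn ((u, v) - q) / δ - 2 * sqn q ≤ sqn ((u, v) + p) / δ - 2 * sqn p + 100 * σ := by
  have key : ∀ {p q r : ℝ}, |p + q| ≤ σ → |q| ≤ 3 → |p| ≤ 3 → |r| ≤ 1 / 8 →
      (r - q) ^ 2 - (r + p) ^ 2 ≤ 7 * σ ∧ p ^ 2 - q ^ 2 ≤ 6 * σ := by
    intro p q r h1 h2 h3 h4
    have := abs_le.1 h2
    have := abs_le.1 h3
    have := abs_le.1 h4
    constructor
    · rw [show (r - q) ^ 2 - (r + p) ^ 2 = (p + q) * (q - p - 2 * r) by ring, mul_comm (7 : ℝ)]
      refine (le_abs_self _).trans ((abs_mul _ _).trans_le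
        (mul_le_mul h1 ?_ (abs_nonneg _) hσ))
      rw [abs_le]; constructor <;> linarith
    · rw [show p ^ 2 - q ^ 2 = (p + q) * (p - q) by ring, mul_comm (6 : ℝ)]
      exact (le_abs_self _).trans ((abs_mul _ _).trans_le
        (mul_le_mul h1 ((abs_sub _ _).trans (by linarith)) (abs_nonneg _) hσ))
  obtain ⟨k1, m1⟩ := key h1 b1 a1 hu
  obtain ⟨k2, m2⟩ := key h2 b2 a2 hv
  have : (sqn ((u, v) - q) - sqn ((u, v) + p)) / δ ≤ 56 * σ := by
    rw [div_le_iff₀ (by linarith)]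
    have := mul_le_mul_of_nonneg_left hδ (show (0:ℝ) ≤ 56 * σ by linarith)
    simp only [sqn, Prod.fst_sub, Prod.snd_sub, Prod.fst_add, Prod.snd_add]
    linarith
  rw [sub_div] at this
  simp only [sqn] at *
  linarith

lemma affine_id (y : P2) (u v t f : ℝ) (h1 : t - -(1 / 4) ≠ 0) (h2 : 1 / 4 - t ≠ 0) :
    sqn ((u, v) + y) / (2 * (t - -(1 / 4))) - 2 * sqn y + f * t
        = 4 * y.1 * u + 4 * y.2 * v + (f - sqn (4 * y.1, 4 * y.2) / 2) * t
          + ((u - 4 * y.1 * t) ^ 2 + (v - 4 * y.2 * t) ^ 2) / (2 * (t - -(1 / 4))) ∧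
    sqn (y - (u, v)) / (2 * (1 / 4 - t)) - 2 * sqn y - f * t
        = -(4 * y.1 * u + 4 * y.2 * v + (f - sqn (4 * y.1, 4 * y.2) / 2) * t)
          + ((u - 4 * y.1 * t) ^ 2 + (v - 4 * y.2 * t) ^ 2) / (2 * (1 / 4 - t)) := by
  constructor
  · obtain ⟨δ, hδ, hd⟩ : ∃ δ, δ = t - -(1 / 4) ∧ δ ≠ 0 := ⟨_, rfl, h1⟩
    rw [← hδ]
    have et : t = δ - 1 / 4 := by linarith
    simp only [sqn, Prod.fst_add, Prod.snd_add, et]
    field_simp
    ring
  · obtain ⟨δ, hδ, hd⟩ : ∃ δ, δ = 1 / 4 - t ∧ δ ≠ 0 := ⟨_, rfl, h2⟩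
    rw [← hδ]
    have et : t = 1 / 4 - δ := by linarith
    simp only [sqn, Prod.fst_sub, Prod.snd_sub, et]
    field_simp
    ring

/-- Improvement of flatness. -/
theorem improve (A : ℝ) : ∃ C d0 : ℝ, 0 < C ∧ 0 < d0 ∧ ∀ (w : T3 → ℝ) (lam sig f d : ℝ),
    Cfg w lam sig A f d → d ≤ d0 → -8 ≤ f ∧ ∃ c : P2, |c.1| ≤ 16 ∧ |c.2| ≤ 16 ∧
      ∀ z : T3, |z.1.1| ≤ 1 / 8 → |z.1.2| ≤ 1 / 8 → |z.2| ≤ 1 / 8 →
        |w z - (w 0 + c.1 * z.1.1 + c.2 * z.1.2 + (f - sqn c / 2) * z.2)|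
          ≤ C * (|z.1.1| + |z.1.2| + |z.2|) ^ 2 + C * d ^ (1 / 8 : ℝ) := by
  set A' := |A| + 8 with hA'
  have hA8 : 8 ≤ A' := by linarith [abs_nonneg A]
  set B := 30000 * A' with hB
  refine ⟨1000 * B, (1 / (10 * B)) ^ 4, by positivity, by positivity, fun w lam sig f d H hd => ?_⟩
  have hd0 : 0 < d := H.sig_pos.trans_le H.sig_le
  set s := d ^ (1 / 8 : ℝ) with hs
  have hs0 : 0 < s := Real.rpow_pos_of_pos hd0 _
  have hs8 : s ^ 8 = d := by
    rw [hs, ← Real.rpow_natCast, ← Real.rpow_mul hd0.le]; norm_num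
  set κ := s ^ 2 with hκdef
  have hκ : 0 < κ := by positivity
  have hκ4 : d = κ ^ 4 := by rw [← hs8, hκdef]; ring
  have hκB : κ ≤ 1 / (10 * B) :=
    le_of_pow_le_pow_left₀ (by norm_num) (by positivity) (hκ4 ▸ hd)
  have hκB' : κ * (10 * B) ≤ 1 := (le_div_iff₀ (by positivity)).1 hκB
  have hκs : κ ≤ 1 / 10000 := by
    have : (10000 : ℝ) ≤ 10 * B := by linarith
    linarith [mul_le_mul_of_nonneg_left this hκ.le]
  have hd1 : d ≤ 1 := by rw [hκ4]; exact pow_le_one₀ hκ.le (by linarith)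
  have hAA : A + 1 ≤ A' := by linarith [le_abs_self A]
  -- bounds for `f`
  have hfu := f_le H hd1
  have hf5 : -5 ≤ f := f_ge H hAA hA8 hκ hκs hκ4.le (by linarith)
  have hf : |f| ≤ A' := abs_le.2 ⟨by linarith, by linarith⟩
  refine ⟨by linarith, ?_⟩
  obtain ⟨y1, hy1, L1⟩ := lower_simple H hAA hκ hκs hκ4.le hf hf5
  obtain ⟨y0, hy0, L0⟩ := lower_simple H.rev hAA hκ hκs hκ4.le hf hf5
  simp only [rev, refl_apply, Prod.fst_zero, Prod.snd_zero, neg_zero] at L0
  rw [show ((0 : P2), (0 : ℝ)) = (0 : T3) from rfl] at L0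
  have hn : 0 < A' := by linarith
  set E := κ * (7000 + 4 * A') with hE
  have hE0 : 0 ≤ E := by positivity
  have hEB : E ≤ B * κ := by
    rw [hE, mul_comm]; exact mul_le_mul_of_nonneg_right (by linarith) hκ.le
  have hE1 : κ * (3000 + 4 * A') ≤ E := mul_le_mul_of_nonneg_left (by linarith) hκ.le
  -- the two slopes agree
  have U := upper_simple H hAA hκ (by linarith) hκ4.le hf hy0 hy1 (t1 := -(1 / 4)) (t2 := 1 / 4)
    (by norm_num) (by norm_num) (by norm_num)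
  norm_num at U L0 L1
  have hpar : sqn (y1 + y0) ≤ 3 * E := by
    have e : 2 * sqn y1 + 2 * sqn y0 = sqn (y1 - y0) + sqn (y1 + y0) := by
      simp [sqn]; ring
    linarith
  have hSB : 3 * E ≤ (s * B) ^ 2 := by
    calc 3 * E ≤ 3 * (B * κ) := by linarith
      _ ≤ B * (B * κ) := mul_le_mul_of_nonneg_right (by linarith) (by positivity)
      _ = _ := by rw [hκdef]; ring
  have hsum : |y1.1 + y0.1| ≤ s * B ∧ |y1.2 + y0.2| ≤ s * B := by
    simp only [sqn, Prod.fst_add, Prod.snd_add] at hpar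
    have h0 : 0 ≤ s * B := by positivity
    exact ⟨abs_le_of_sq_le_sq (by linarith [sq_nonneg (y1.2 + y0.2)]) h0,
      abs_le_of_sq_le_sq (by linarith [sq_nonneg (y1.1 + y0.1)]) h0⟩
  obtain ⟨a1, a2⟩ := mem_sq.1 hy1
  obtain ⟨b1, b2⟩ := mem_sq.1 hy0
  refine ⟨(4 * y1.1, 4 * y1.2), by rw [abs_mul]; norm_num; linarith,
    by rw [abs_mul]; norm_num; linarith, ?_⟩
  rintro ⟨⟨u, v⟩, t⟩ hu hv ht
  have hξ : ((u, v) : P2) ∈ sq 3 := mem_sq.2 ⟨hu.trans (by norm_num), hv.trans (by norm_num)⟩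
  have ht' := abs_le.1 ht
  have U1 := upper_simple H hAA hκ (by linarith) hκ4.le hf hy0 hξ (t1 := -(1 / 4)) (t2 := t)
    (by norm_num) (by linarith) (by linarith)
  have U2 := upper_simple H hAA hκ (by linarith) hκ4.le hf hξ hy1 (t1 := t) (t2 := 1 / 4)
    (by linarith) (by norm_num) (by linarith)
  set r := |u| + |v| + |t| with hr
  set S := (u - 4 * y1.1 * t) ^ 2 + (v - 4 * y1.2 * t) ^ 2 with hS
  have hS0 : 0 ≤ S := by positivity
  have hSr : S ≤ 338 * r ^ 2 := by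
    have k1 : |u - 4 * y1.1 * t| ≤ 13 * r := by
      refine (abs_sub _ _).trans ?_
      rw [abs_mul, abs_mul, abs_of_pos (by norm_num : (0:ℝ) < 4)]
      have := mul_le_mul_of_nonneg_right a1 (abs_nonneg t)
      linarith [abs_nonneg u, abs_nonneg v, abs_nonneg t]
    have k2 : |v - 4 * y1.2 * t| ≤ 13 * r := by
      refine (abs_sub _ _).trans ?_
      rw [abs_mul, abs_mul, abs_of_pos (by norm_num : (0:ℝ) < 4)]
      have := mul_le_mul_of_nonneg_right a2 (abs_nonneg t)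
      linarith [abs_nonneg u, abs_nonneg v, abs_nonneg t]
    have c1 := pow_le_pow_left₀ (abs_nonneg _) k1 2
    have c2 := pow_le_pow_left₀ (abs_nonneg _) k2 2
    rw [sq_abs] at c1 c2
    linarith
  set l := w 0 + 4 * y1.1 * u + 4 * y1.2 * v + (f - sqn (4 * y1.1, 4 * y1.2) / 2) * t with hl
  -- upper side
  have hswap := swap_bound (p := y1) (q := y0) hsum.1 hsum.2 a1 a2 b1 b2 hu hv
    (show 1 / 4 ≤ 2 * (t - -(1 / 4)) by linarith) (by positivity)
  obtain ⟨e1, e2⟩ := affine_id y1 u v t f (show t - -(1 / 4) ≠ 0 by linarith)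
    (show 1 / 4 - t ≠ 0 by linarith)
  rw [← hS] at e1 e2
  have q1 : S / (2 * (t - -(1 / 4))) ≤ 4 * S := by
    rw [div_le_iff₀ (by linarith)]
    linarith [mul_le_mul_of_nonneg_left (show (1:ℝ) / 4 ≤ 2 * (t - -(1 / 4)) by linarith) hS0]
  have q2 : S / (2 * (1 / 4 - t)) ≤ 4 * S := by
    rw [div_le_iff₀ (by linarith)]
    linarith [mul_le_mul_of_nonneg_left (show (1:ℝ) / 4 ≤ 2 * (1 / 4 - t) by linarith) hS0]
  have hEs : E ≤ s * B := by
    refine hEB.trans ?_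
    rw [hκdef, pow_two, mul_comm B]
    have hs1 : s ≤ 1 := le_of_pow_le_pow_left₀ (two_ne_zero) zero_le_one
      (by rw [← hκdef, one_pow]; linarith)
    calc s * s * B ≤ 1 * s * B :=
          mul_le_mul_of_nonneg_right (mul_le_mul_of_nonneg_right hs1 hs0.le) (by positivity)
      _ = _ := by ring
  have hBr : 1352 * r ^ 2 ≤ 1000 * B * r ^ 2 :=
    mul_le_mul_of_nonneg_right (by linarith) (sq_nonneg r)
  rw [abs_le]
  constructor <;> linarith [mul_pos hs0 (show 0 < B by positivity)]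

end Vale.Agent.P080.C1.Improve
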