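import Mathlib.Analysis.Calculus.ContDiff.Basic
import Mathlib.Analysis.Calculus.ContDiff.FiniteDimension
import Mathlib.Analysis.Calculus.FDeriv.Prod
import Mathlib.Analysis.Calculus.Deriv.Prod
import Mathlib.Analysis.Calculus.Deriv.Comp
import Mathlib.MeasureTheory.Integral.IntervalIntegral.FundThmCalculus
import Mathlib.MeasureTheory.Integral.Average
import Mathlib.MeasureTheory.Constructions.BorelSpace.Real
import Mathlib.MeasureTheory.Measure.Haar.OfBasis
import Mathlib.MeasureTheory.Integral.Prod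
import Mathlib.MeasureTheory.Group.Prod
import Mathlib.MeasureTheory.Measure.Lebesgue.EqHaar

/-!
# Improvement of flatness: scaled variables

`z = (ξ, t)`, `F = w_t + λ w_t²/2 + |Dw|²/2`, `ρ` the residual of the scaled regularised equation.
-/

namespace Vale.Agent.P080.C1.Improve

open scoped ContDiff Topology
open Set Filter MeasureTheory

abbrev P2 := ℝ × ℝ

abbrev T3 := P2 × ℝ

instance : (volume : Measure P2).IsAddHaarMeasure := by
  rw [Measure.volume_eq_prod ℝ ℝ]; infer_instance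

/-- squared Euclidean length in the lateral variables -/
def sqn (v : P2) : ℝ := v.1 ^ 2 + v.2 ^ 2

lemma sqn_nonneg (v : P2) : 0 ≤ sqn v := by unfold sqn; positivity

lemma sqn_smul (c : ℝ) (v : P2) : sqn (c • v) = c ^ 2 * sqn v := by
  simp [sqn, Prod.smul_def]; ring

/-- lateral partial derivatives and the time derivative -/
noncomputable def d0 (g : T3 → ℝ) (z : T3) : ℝ := fderiv ℝ g z ((1, 0), 0)

noncomputable def d1 (g : T3 → ℝ) (z : T3) : ℝ := fderiv ℝ g z ((0, 1), 0)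

noncomputable def dt (g : T3 → ℝ) (z : T3) : ℝ := fderiv ℝ g z ((0, 0), 1)

lemma fderiv_eq (g : T3 → ℝ) (z : T3) (a b c : ℝ) :
    fderiv ℝ g z ((a, b), c) = a * d0 g z + b * d1 g z + c * dt g z := by
  have h : (((a, b), c) : T3) = a • ((1, 0), 0) + b • ((0, 1), 0) + c • ((0, 0), 1) := by
    simp
  rw [h, map_add, map_add, map_smul, map_smul, map_smul]
  simp [d0, d1, dt]

/-- `F = w_t + λ w_t²/2 + |Dw|²/2` -/
noncomputable def Fw (lam : ℝ) (w : T3 → ℝ) (z : T3) : ℝ :=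
  dt w z + lam * dt w z ^ 2 / 2 + (d0 w z ^ 2 + d1 w z ^ 2) / 2

/-- the vertical component of the velocity -/
noncomputable def vt (lam : ℝ) (w : T3 → ℝ) (z : T3) : ℝ := 1 + lam * dt w z

/-- scaled residual -/
noncomputable def rho (lam sig : ℝ) (w : T3 → ℝ) (z : T3) : ℝ :=
  vt lam w z * dt (Fw lam w) z + d0 w z * d0 (Fw lam w) z + d1 w z * d1 (Fw lam w) z
    + sig * (d0 (d0 w) z + d1 (d1 w) z + lam * dt (dt w) z)

/-- closed square of half side `a` -/
def sq (a : ℝ) : Set P2 := Icc (-a) a ×ˢ Icc (-a) a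

/-- the fixed box -/
def box : Set T3 := sq 4 ×ˢ Icc (-1 : ℝ) 1

lemma mem_sq {a : ℝ} {v : P2} : v ∈ sq a ↔ |v.1| ≤ a ∧ |v.2| ≤ a := by
  rw [sq, mem_prod, mem_Icc, mem_Icc, abs_le, abs_le]

lemma isCompact_sq (a : ℝ) : IsCompact (sq a) := isCompact_Icc.prod isCompact_Icc

lemma isCompact_box : IsCompact box := (isCompact_sq 4).prod isCompact_Icc

/-- Normalised configuration. -/
structure Cfg (w : T3 → ℝ) (lam sig A f d : ℝ) : Prop where
  smooth : ContDiff ℝ 3 w
  lam_pos : 0 < lam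
  sig_pos : 0 < sig
  sig_le : sig ≤ d
  bound : ∀ z ∈ box, |w z| ≤ 1
  F_le : ∀ z ∈ box, Fw lam w z ≤ A
  lam_dt : ∀ z ∈ box, |lam * dt w z| ≤ 1 / 2
  small : ∀ z ∈ box, lam * dt w z ^ 2 * (1 + lam * (d0 w z ^ 2 + d1 w z ^ 2)) ≤ d
  F_L1 : ∫ z in box, |Fw lam w z - f| ≤ d
  res : Real.exp ((A + 8) / sig) * ∫ z in box, |rho lam sig w z| ≤ d

section smooth

variable {w : T3 → ℝ}

lemma contDiff_pd {n : ℕ} (hw : ContDiff ℝ (n + 1) w) (v : T3) :
    ContDiff ℝ n (fun z => fderiv ℝ w z v) :=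
  (hw.fderiv_right le_rfl).clm_apply contDiff_const

lemma contDiff_d (hw : ContDiff ℝ 3 w) :
    ContDiff ℝ 2 (d0 w) ∧ ContDiff ℝ 2 (d1 w) ∧ ContDiff ℝ 2 (dt w) :=
  ⟨contDiff_pd (n := 2) hw _, contDiff_pd (n := 2) hw _, contDiff_pd (n := 2) hw _⟩

lemma contDiff_Fw (hw : ContDiff ℝ 3 w) (lam : ℝ) : ContDiff ℝ 2 (Fw lam w) := by
  obtain ⟨h0, h1, h2⟩ := contDiff_d hw
  exact (h2.add ((contDiff_const.mul (h2.pow 2)).div_const 2)).add
    (((h0.pow 2).add (h1.pow 2)).div_const 2)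

lemma continuous_Fw (hw : ContDiff ℝ 3 w) (lam : ℝ) : Continuous (Fw lam w) :=
  (contDiff_Fw hw lam).continuous

lemma continuous_rho (hw : ContDiff ℝ 3 w) (lam sig : ℝ) : Continuous (rho lam sig w) := by
  obtain ⟨h0, h1, h2⟩ := contDiff_d hw
  have hF := contDiff_Fw hw lam
  have hc : ∀ {g : T3 → ℝ}, ContDiff ℝ 2 g → ∀ v, Continuous (fun z => fderiv ℝ g z v) :=
    fun hg v => (contDiff_pd (n := 1) hg v).continuous
  exact ((((continuous_const.add (continuous_const.mul h2.continuous)).mul (hc hF _)).add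
    (h0.continuous.mul (hc hF _))).add (h1.continuous.mul (hc hF _))).add
    (continuous_const.mul (((hc h0 _).add (hc h1 _)).add (continuous_const.mul (hc h2 _))))

end smooth

end Vale.Agent.P080.C1.Improve
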