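import Vale.Agent.P080.C1.ImproveBasic
import Mathlib.Analysis.Calculus.Deriv.Mul
import Mathlib.Analysis.Convex.Basic

/-!
# Improvement of flatness: the upper inequality
-/

namespace Vale.Agent.P080.C1.Improve

open scoped ContDiff Topology
open Set Filter MeasureTheory intervalIntegral

variable {w : T3 → ℝ} {lam sig A f d : ℝ}

/-- `w` increases along a segment by at most `∫ F + |c|²/2`. -/
lemma seg_le (hw : ContDiff ℝ 3 w) (hlam : 0 < lam) (a c : P2) {s1 s2 : ℝ} (h : s1 ≤ s2) :
    w (a + (s2 - s1) • c, s2) - w (a, s1)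
      ≤ (∫ s in s1..s2, Fw lam w (a + (s - s1) • c, s)) + sqn c / 2 * (s2 - s1) := by
  set γ : ℝ → T3 := fun s => (a + (s - s1) • c, s) with hγ
  have hγd : ∀ s, HasDerivAt γ (c, (1 : ℝ)) s := fun s => by
    have h1 : HasDerivAt (fun s : ℝ => a + (s - s1) • c) ((1 : ℝ) • c) s :=
      (((hasDerivAt_id s).sub_const s1).smul_const c).const_add a
    simpa using h1.prodMk (hasDerivAt_id s)
  have hγc : Continuous γ := continuous_iff_continuousAt.2 fun s => (hγd s).continuousAt
  have hd : ∀ s, HasDerivAt (fun s => w (γ s))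
      (c.1 * d0 w (γ s) + c.2 * d1 w (γ s) + dt w (γ s)) s := fun s => by
    have := ((hw.differentiable (by norm_num)) (γ s)).hasFDerivAt.comp_hasDerivAt s (hγd s)
    refine this.congr_deriv ?_
    have e := fderiv_eq w (γ s) c.1 c.2 1
    rw [one_mul] at e
    exact e
  obtain ⟨h0, h1, h2⟩ := contDiff_d hw
  have hc1 : Continuous fun s => c.1 * d0 w (γ s) + c.2 * d1 w (γ s) + dt w (γ s) :=
    ((continuous_const.mul (h0.continuous.comp hγc)).add
      (continuous_const.mul (h1.continuous.comp hγc))).add (h2.continuous.comp hγc)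
  have hc2 : Continuous fun s => Fw lam w (γ s) := (continuous_Fw hw lam).comp hγc
  have e := integral_eq_sub_of_hasDerivAt (fun s _ => hd s) (hc1.intervalIntegrable s1 s2)
  have hle : (∫ s in s1..s2, c.1 * d0 w (γ s) + c.2 * d1 w (γ s) + dt w (γ s))
      ≤ ∫ s in s1..s2, (Fw lam w (γ s) + sqn c / 2) := by
    refine integral_mono_on h (hc1.intervalIntegrable _ _)
      ((hc2.add continuous_const).intervalIntegrable _ _) fun s _ => ?_
    have := mul_nonneg hlam.le (sq_nonneg (dt w (γ s)))
    simp only [Fw, sqn]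
    nlinarith [sq_nonneg (c.1 - d0 w (γ s)), sq_nonneg (c.2 - d1 w (γ s))]
  rw [intervalIntegral.integral_add (hc2.intervalIntegrable _ _) (intervalIntegrable_const),
    intervalIntegral.integral_const, smul_eq_mul, e] at hle
  simp only [hγ, sub_self, zero_smul, add_zero] at hle
  linarith

lemma seg_mem {a c : P2} {s1 s2 s r : ℝ} (ha : a ∈ sq r) (hb : a + (s2 - s1) • c ∈ sq r)
    (hs : s ∈ Icc s1 s2) : a + (s - s1) • c ∈ sq r := by
  rcases eq_or_lt_of_le (hs.1.trans hs.2) with h | h
  · have : s = s1 := by linarith [hs.1, hs.2, h]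
    simpa [this] using ha
  have hθ : (s - s1) / (s2 - s1) ∈ Icc (0 : ℝ) 1 :=
    ⟨div_nonneg (by linarith [hs.1]) (by linarith),
      (div_le_one (by linarith)).2 (by linarith [hs.2])⟩
  have := (convex_Icc (-r) r |>.prod (convex_Icc (-r) r)).add_smul_sub_mem ha hb hθ
  convert this using 1
  rw [add_sub_cancel_left, smul_smul, div_mul_cancel₀ _ (by linarith : (s2 - s1) ≠ 0)]

/-- Short segments only use `F ≤ A`. -/
lemma seg_short (H : Cfg w lam sig A f d) {a b : P2} {s1 s2 : ℝ} (h : s1 < s2)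
    (h1 : -1 ≤ s1) (h2 : s2 ≤ 1) (ha : a ∈ sq 4) (hb : b ∈ sq 4) :
    w (b, s2) - w (a, s1) ≤ A * (s2 - s1) + sqn (b - a) / (2 * (s2 - s1)) := by
  set c := (s2 - s1)⁻¹ • (b - a) with hc
  have hne : s2 - s1 ≠ 0 := by linarith
  have hb' : a + (s2 - s1) • c = b := by
    rw [hc, smul_smul, mul_inv_cancel₀ hne, one_smul]; simp
  have hS := seg_le H.smooth H.lam_pos a c h.le
  rw [hb'] at hS
  have hI : (∫ s in s1..s2, Fw lam w (a + (s - s1) • c, s)) ≤ ∫ _ in s1..s2, A := by
    refine integral_mono_on h.le (Continuous.intervalIntegrable ?_ _ _) intervalIntegrable_const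
      fun s hs => H.F_le _ ⟨seg_mem ha (by rw [hb']; exact hb) hs,
        by linarith [hs.1], by linarith [hs.2]⟩
    exact (continuous_Fw H.smooth lam).comp (by fun_prop)
  rw [intervalIntegral.integral_const, smul_eq_mul] at hI
  have e : sqn c / 2 * (s2 - s1) = sqn (b - a) / (2 * (s2 - s1)) := by
    rw [hc, sqn_smul]; field_simp
  rw [e] at hS
  linarith

lemma volume_sq {a : ℝ} (ha : 0 ≤ a) : volume.real (sq a) = 4 * a ^ 2 := by
  rw [measureReal_def, sq, Measure.volume_eq_prod, Measure.prod_prod, Real.volume_Icc,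
    ← ENNReal.ofReal_mul (by linarith), ENNReal.toReal_ofReal (by nlinarith)]
  ring

/-- Some small shift makes the integral of `|F - f|` along a segment small. -/
lemma exists_shift (H : Cfg w lam sig A f d) {a c : P2} {s1 s2 κ : ℝ} (hκ : 0 < κ) (hκ1 : κ ≤ 1)
    (hs : s1 ≤ s2) (h1 : -1 ≤ s1) (h2 : s2 ≤ 1) (ha : a ∈ sq 3)
    (hb : a + (s2 - s1) • c ∈ sq 3) :
    ∃ z ∈ sq κ, (∫ s in s1..s2, Fw lam w (a + z + (s - s1) • c, s))
      ≤ f * (s2 - s1) + d / (4 * κ ^ 2) := by
  set G : P2 × ℝ → ℝ := fun p => |Fw lam w (p.1 + (a + (p.2 - s1) • c), p.2) - f| with hG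
  have hGc : Continuous G := by
    refine ((continuous_Fw H.smooth lam).comp ?_).sub continuous_const |>.abs
    fun_prop
  set T : Set (P2 × ℝ) := sq κ ×ˢ Icc s1 s2 with hT
  have hTi : IntegrableOn G T :=
    hGc.continuousOn.integrableOn_compact ((isCompact_sq κ).prod isCompact_Icc)
  -- the shifted tube maps into the box
  set Φ : P2 × ℝ → T3 := fun p => (p.1 + (a + (p.2 - s1) • c), p.2) with hΦ
  have hmem : ∀ z ∈ sq κ, ∀ s ∈ Icc s1 s2, z + (a + (s - s1) • c) ∈ sq 4 := by
    intro z hz s hs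
    have h3 := mem_sq.1 (seg_mem ha hb hs)
    have hz' := mem_sq.1 hz
    refine mem_sq.2 ⟨?_, ?_⟩
    · exact (abs_add_le _ _).trans (by linarith [hz'.1, h3.1])
    · exact (abs_add_le _ _).trans (by linarith [hz'.2, h3.2])
  have hgF : Continuous fun q : T3 => |Fw lam w q - f| :=
    ((continuous_Fw H.smooth lam).sub continuous_const).abs
  have hbox : IntegrableOn (fun q : T3 => |Fw lam w q - f|) box :=
    hgF.continuousOn.integrableOn_compact isCompact_box
  have hswap : IntegrableOn (fun p : ℝ × P2 => G p.swap) (Icc s1 s2 ×ˢ sq κ)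
      ((volume : Measure ℝ).prod volume) := by
    rw [← Measure.volume_eq_prod ℝ P2]
    exact (hGc.comp continuous_swap).continuousOn.integrableOn_compact
      (isCompact_Icc.prod (isCompact_sq κ))
  have hswap2 : IntegrableOn (fun p : ℝ × P2 => |Fw lam w p.swap - f|) (Icc (-1) 1 ×ˢ sq 4)
      ((volume : Measure ℝ).prod volume) := by
    rw [← Measure.volume_eq_prod ℝ P2]
    exact (hgF.comp continuous_swap).continuousOn.integrableOn_compact
      (isCompact_Icc.prod (isCompact_sq 4))
  have key : ∫ p in T, G p ≤ d := by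
    refine le_trans ?_ H.F_L1
    rw [hT, Measure.volume_eq_prod P2 ℝ, ← setIntegral_prod_swap, setIntegral_prod _ hswap,
      box, ← setIntegral_prod_swap, setIntegral_prod _ hswap2]
    have hslice : ∀ s ∈ Icc s1 s2,
        (∫ z in sq κ, G (z, s)) ≤ ∫ x in sq 4, |Fw lam w (x, s) - f| := by
      intro s hs
      set b := a + (s - s1) • c with hb'
      have e : (∫ z in sq κ, G (z, s)) = ∫ x in (· + b) '' sq κ, |Fw lam w (x, s) - f| := by
        rw [MeasurePreserving.setIntegral_image_emb (measurePreserving_add_right volume b)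
          (MeasurableEquiv.addRight b).measurableEmbedding]
      rw [e]
      refine setIntegral_mono_set ((hgF.comp (by fun_prop)).continuousOn.integrableOn_compact
        (isCompact_sq 4)) (Eventually.of_forall fun _ => abs_nonneg _) (LE.le.eventuallyLE ?_)
      rintro _ ⟨z, hz, rfl⟩
      exact hmem z hz s hs
    have hc1 : Continuous fun s => ∫ z in sq κ, G (z, s) :=
      continuous_parametric_integral_of_continuous (by fun_prop) (isCompact_sq κ)
    have hc2 : Continuous fun s => ∫ x in sq 4, |Fw lam w (x, s) - f| :=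
      continuous_parametric_integral_of_continuous
        (f := fun s x => |Fw lam w (x, s) - f|) (hgF.comp (by fun_prop)) (isCompact_sq 4)
    calc (∫ s in Icc s1 s2, ∫ z in sq κ, G (z, s))
        ≤ ∫ s in Icc s1 s2, ∫ x in sq 4, |Fw lam w (x, s) - f| :=
          setIntegral_mono_on (hc1.continuousOn.integrableOn_compact isCompact_Icc)
            (hc2.continuousOn.integrableOn_compact isCompact_Icc) measurableSet_Icc hslice
      _ ≤ _ := setIntegral_mono_set (hc2.continuousOn.integrableOn_compact isCompact_Icc)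
          (Eventually.of_forall fun s => setIntegral_nonneg (isCompact_sq 4).measurableSet
            fun _ _ => abs_nonneg _) (LE.le.eventuallyLE (Icc_subset_Icc h1 h2))
  rw [hT, Measure.volume_eq_prod P2 ℝ,
    setIntegral_prod G (by rw [← Measure.volume_eq_prod P2 ℝ]; exact hTi)] at key
  have hc3 : Continuous fun z => ∫ s in Icc s1 s2, G (z, s) :=
    continuous_parametric_integral_of_continuous (by fun_prop) isCompact_Icc
  have hvol := volume_sq hκ.le
  have hne : volume (sq κ) ≠ 0 := fun h0 => by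
    simp [measureReal_def, h0] at hvol; linarith [hκ]
  obtain ⟨z, hz, hz'⟩ := exists_le_setAverage hne (isCompact_sq κ).measure_lt_top.ne
    (hc3.continuousOn.integrableOn_compact (isCompact_sq κ))
  refine ⟨z, hz, ?_⟩
  rw [setAverage_eq, hvol, smul_eq_mul] at hz'
  have hzd : (∫ s in Icc s1 s2, G (z, s)) ≤ d / (4 * κ ^ 2) := by
    refine hz'.trans ?_
    rw [div_eq_inv_mul]
    exact mul_le_mul_of_nonneg_left key (by positivity)
  have hcont : Continuous fun s => Fw lam w (a + z + (s - s1) • c, s) :=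
    (continuous_Fw H.smooth lam).comp (by fun_prop)
  calc (∫ s in s1..s2, Fw lam w (a + z + (s - s1) • c, s))
      ≤ ∫ s in s1..s2, (f + G (z, s)) := by
        refine integral_mono_on hs (hcont.intervalIntegrable _ _)
          (Continuous.intervalIntegrable (by fun_prop) _ _) fun s _ => ?_
        simp only [hG]
        rw [show z + (a + (s - s1) • c) = a + z + (s - s1) • c by abel]
        linarith [le_abs_self (Fw lam w (a + z + (s - s1) • c, s) - f)]
    _ = f * (s2 - s1) + ∫ s in Icc s1 s2, G (z, s) := by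
        rw [intervalIntegral.integral_add intervalIntegrable_const
          (Continuous.intervalIntegrable (by fun_prop) _ _), intervalIntegral.integral_const,
          intervalIntegral.integral_of_le hs, ← integral_Icc_eq_integral_Ioc, smul_eq_mul]
        ring
    _ ≤ _ := by linarith

/-- The upper inequality. -/
theorem upper (H : Cfg w lam sig A f d) {x y : P2} {t1 t2 κ : ℝ} (hκ : 0 < κ) (hκ1 : κ ≤ 1)
    (hx : x ∈ sq 3) (hy : y ∈ sq 3) (h1 : -1 ≤ t1) (h2 : t2 ≤ 1) (h : t1 + 2 * κ < t2) :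
    w (y, t2) - w (x, t1) ≤ sqn (y - x) / (2 * (t2 - t1 - 2 * κ))
      + f * (t2 - t1 - 2 * κ) + 2 * κ * (A + 1) + d / (4 * κ ^ 2) := by
  set T := t2 - t1 - 2 * κ with hT
  have hT0 : 0 < T := by linarith
  set c := T⁻¹ • (y - x) with hc
  have hb : x + ((t2 - κ) - (t1 + κ)) • c = y := by
    rw [show t2 - κ - (t1 + κ) = T by ring, hc, smul_smul, mul_inv_cancel₀ hT0.ne', one_smul]
    simp
  obtain ⟨z, hz, hzI⟩ := exists_shift H (a := x) (c := c) hκ hκ1 (by linarith : t1 + κ ≤ t2 - κ)
    (by linarith) (by linarith) hx (by rw [hb]; exact hy)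
  have hS := seg_le H.smooth H.lam_pos (x + z) c (s1 := t1 + κ) (s2 := t2 - κ) (by linarith)
  rw [show x + z + (t2 - κ - (t1 + κ)) • c = y + z by rw [← hb]; abel] at hS
  have hzz := mem_sq.1 hz
  have hsz : sqn z ≤ 2 * κ ^ 2 := by
    have := sq_le_sq' (abs_le.1 hzz.1).1 (abs_le.1 hzz.1).2
    have := sq_le_sq' (abs_le.1 hzz.2).1 (abs_le.1 hzz.2).2
    simp only [sqn]; linarith
  have h3x := mem_sq.1 hx
  have h3y := mem_sq.1 hy
  have hx4 : x ∈ sq 4 := mem_sq.2 ⟨by linarith [h3x.1], by linarith [h3x.2]⟩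
  have hy4 : y ∈ sq 4 := mem_sq.2 ⟨by linarith [h3y.1], by linarith [h3y.2]⟩
  have hxz : x + z ∈ sq 4 := mem_sq.2
    ⟨(abs_add_le _ _).trans (by linarith [h3x.1, hzz.1]),
      (abs_add_le _ _).trans (by linarith [h3x.2, hzz.2])⟩
  have hyz : y + z ∈ sq 4 := mem_sq.2
    ⟨(abs_add_le _ _).trans (by linarith [h3y.1, hzz.1]),
      (abs_add_le _ _).trans (by linarith [h3y.2, hzz.2])⟩
  have hA := seg_short H (s1 := t1) (s2 := t1 + κ) (by linarith) h1 (by linarith) hx4 hxz
  have hB := seg_short H (s1 := t2 - κ) (s2 := t2) (by linarith) (by linarith) h2 hyz hy4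
  rw [add_sub_cancel_left, add_sub_cancel_left] at hA
  rw [show y - (y + z) = (-1 : ℝ) • z by simp, sqn_smul,
    show t2 - (t2 - κ) = κ by ring] at hB
  have e : sqn c / 2 * T = sqn (y - x) / (2 * T) := by
    rw [hc, sqn_smul]; field_simp
  rw [show t2 - κ - (t1 + κ) = T by ring] at hS hzI
  rw [e] at hS
  have hz2 : sqn z / (2 * κ) ≤ κ := by rw [div_le_iff₀ (by positivity)]; linarith
  norm_num at hB
  linarith

end Vale.Agent.P080.C1.Improve
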