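import Vale.Agent.P080.C1.ImproveStep
import Vale.Agent.P080.C1.ImproveUpper
import Mathlib.MeasureTheory.Function.Jacobian
import Mathlib.Analysis.Calculus.FDeriv.Comp
import Mathlib.Algebra.Order.Chebyshev

/-!
# Improvement of flatness: discrete streamlines
-/

namespace Vale.Agent.P080.C1.Improve

open scoped ContDiff Topology
open Set Filter MeasureTheory Finset

variable {w : T3 → ℝ} {lam sig A f d : ℝ}

/-- data of a discrete flow: step size and initial time -/
structure Flow where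
  h : ℝ
  t0 : ℝ

namespace Flow

variable (D : Flow)

/-- time after `k` steps -/
noncomputable def tk (k : ℕ) : ℝ := D.t0 + k * D.h

lemma tk_succ (k : ℕ) : D.tk (k + 1) = D.tk k + D.h := by simp [tk]; ring

/-- position after `k` steps -/
noncomputable def pos (lam : ℝ) (w : T3 → ℝ) : ℕ → P2 → P2
  | 0 => id
  | k + 1 => fun x => pos lam w k x + D.h • vel lam w (pos lam w k x, D.tk k)

/-- derivative of `pos` -/
noncomputable def dpos (lam : ℝ) (w : T3 → ℝ) : ℕ → P2 → (P2 →L[ℝ] P2)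
  | 0 => fun _ => ContinuousLinearMap.id ℝ P2
  | k + 1 => fun x => (ContinuousLinearMap.id ℝ P2 + D.h • velD lam w (D.pos lam w k x, D.tk k)).comp
      (dpos lam w k x)

/-- modified Jacobian of `pos` -/
noncomputable def jk (lam : ℝ) (w : T3 → ℝ) : ℕ → P2 → ℝ
  | 0 => fun _ => 1
  | k + 1 => fun x => jk lam w k x * jac lam w D.h (D.tk k) (D.pos lam w k x)

/-- accumulated residual -/
noncomputable def acc (lam sig : ℝ) (w : T3 → ℝ) (k : ℕ) (x : P2) : ℝ :=
  ∑ j ∈ range k, 2 * D.h * |rho lam sig w (D.pos lam w j x, D.tk j)|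

/-- points that are still followed after `k` steps -/
noncomputable def live (lam sig : ℝ) (w : T3 → ℝ) (A0 : Set P2) : ℕ → Set P2
  | 0 => A0
  | k + 1 => live lam sig w A0 k ∩
      {x | D.pos lam w (k + 1) x ∈ sq 3 ∧ D.acc lam sig w (k + 1) x ≤ 1}

/-- hypotheses for `n` good steps -/
structure Good (H : Cfg w lam sig A f d) (n : ℕ) (A0 : Set P2) (ε : ℝ) : Prop where
  h_pos : 0 < D.h
  t0_ge : -1 ≤ D.t0
  tn_le : D.tk n ≤ 1
  compact : IsCompact A0
  sub : A0 ⊆ sq 3
  inj : ∀ k < n, InjOn (fun x : P2 => x + D.h • vel lam w (x, D.tk k)) (sq 3)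
  good : ∀ k < n, ∀ ξ ∈ sq 3, ξ + D.h • vel lam w (ξ, D.tk k) ∈ sq 4 ∧
    D.h * (Fw lam w (ξ, D.tk k) + sqn (vel lam w (ξ, D.tk k)) / 2 - 2 * d - ε)
      ≤ w (ξ + D.h • vel lam w (ξ, D.tk k), D.tk k + D.h) - w (ξ, D.tk k) ∧
    0 < jac lam w D.h (D.tk k) ξ ∧
    0 < (ContinuousLinearMap.id ℝ P2 + D.h • velD lam w (ξ, D.tk k)).det ∧
    -(D.h * (2 * |rho lam sig w (ξ, D.tk k)| + ε))
      ≤ Fw lam w (ξ + D.h • vel lam w (ξ, D.tk k), D.tk k + D.h) - Fw lam w (ξ, D.tk k)
        + sig * Real.log (jac lam w D.h (D.tk k) ξ)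

variable {D} {H : Cfg w lam sig A f d} {n : ℕ} {A0 : Set P2} {ε : ℝ}

lemma live_anti {k : ℕ} : D.live lam sig w A0 (k + 1) ⊆ D.live lam sig w A0 k :=
  inter_subset_left

lemma live_mono {j k : ℕ} (h : j ≤ k) : D.live lam sig w A0 k ⊆ D.live lam sig w A0 j := by
  induction h with
  | refl => exact subset_rfl
  | step _ ih => exact live_anti.trans ih

lemma live_sub (k : ℕ) : D.live lam sig w A0 k ⊆ A0 := live_mono (Nat.zero_le k)

lemma tk_mem (G : D.Good H n A0 ε) {k : ℕ} (hk : k ≤ n) : D.tk k ∈ Icc (-1 : ℝ) 1 := by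
  have h1 : (0 : ℝ) ≤ k * D.h := mul_nonneg (Nat.cast_nonneg k) G.h_pos.le
  have h2 : (k : ℝ) * D.h ≤ n * D.h := mul_le_mul_of_nonneg_right (Nat.cast_le.2 hk) G.h_pos.le
  have := G.tn_le
  have := G.t0_ge
  simp only [tk] at *
  constructor <;> linarith

lemma pos_mem (G : D.Good H n A0 ε) {k : ℕ} {x : P2} (hx : x ∈ D.live lam sig w A0 k) :
    D.pos lam w k x ∈ sq 3 := by
  cases k with
  | zero => exact G.sub hx
  | succ k => exact hx.2.1

lemma acc_le (_G : D.Good H n A0 ε) {k : ℕ} {x : P2} (hx : x ∈ D.live lam sig w A0 k) :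
    D.acc lam sig w k x ≤ 1 := by
  cases k with
  | zero => simp [acc]
  | succ k => exact hx.2.2

lemma pos_box (G : D.Good H n A0 ε) {k : ℕ} (hk : k ≤ n) {x : P2}
    (hx : x ∈ D.live lam sig w A0 k) : (D.pos lam w k x, D.tk k) ∈ box := by
  have h := mem_sq.1 (pos_mem G hx)
  exact ⟨mem_sq.2 ⟨by linarith [h.1], by linarith [h.2]⟩, tk_mem G hk⟩

lemma hasFDeriv_pos (G : D.Good H n A0 ε) : ∀ {k : ℕ}, k ≤ n + 1 → ∀ {x : P2},
    (k = 0 ∨ x ∈ D.live lam sig w A0 (k - 1)) →
      HasFDerivAt (D.pos lam w k) (D.dpos lam w k x) x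
  | 0, _, x, _ => hasFDerivAt_id x
  | k + 1, hk, x, hx => by
    have hx' : x ∈ D.live lam sig w A0 k := by simpa using hx
    have h1 := hasFDeriv_pos G (k := k) (by omega) (x := x)
      (by rcases k with _ | k
          · exact Or.inl rfl
          · exact Or.inr (live_anti hx'))
    exact (hasFDerivAt_step H D.h (D.tk k) (pos_box G (by omega) hx')).comp x h1

lemma contOn_pos (G : D.Good H n A0 ε) {j k : ℕ} (hk : k ≤ n) (hj : j ≤ k + 1) :
    ContinuousOn (D.pos lam w j) (D.live lam sig w A0 k) := fun x hx =>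
  (hasFDeriv_pos G (by omega) (x := x)
    (by rcases j with _ | j
        · exact Or.inl rfl
        · exact Or.inr (live_mono (by omega : j + 1 - 1 ≤ k) hx))).continuousAt.continuousWithinAt

lemma contOn_comp (G : D.Good H n A0 ε) {g : T3 → ℝ} (hg : Continuous g) {j k : ℕ} (hk : k ≤ n)
    (hj : j ≤ k + 1) :
    ContinuousOn (fun x => g (D.pos lam w j x, D.tk j)) (D.live lam sig w A0 k) :=
  hg.comp_continuousOn ((contOn_pos G hk hj).prodMk continuousOn_const)

lemma contOn_acc (G : D.Good H n A0 ε) {j k : ℕ} (hk : k ≤ n) (hj : j ≤ k + 1) :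
    ContinuousOn (D.acc lam sig w j) (D.live lam sig w A0 k) :=
  continuousOn_finsetSum _ fun i hi => continuousOn_const.mul
    (contOn_comp G (continuous_rho H.smooth lam sig).abs hk
      (by have := Finset.mem_range.1 hi; omega))

lemma isCompact_live (G : D.Good H n A0 ε) : ∀ {k : ℕ}, k ≤ n → IsCompact (D.live lam sig w A0 k)
  | 0, _ => G.compact
  | k + 1, hk => by
    have hc := isCompact_live G (k := k) (by omega)
    have h1 : IsClosed (D.live lam sig w A0 k ∩ D.pos lam w (k + 1) ⁻¹' sq 3) :=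
      (contOn_pos G (by omega) le_rfl).preimage_isClosed_of_isClosed hc.isClosed
        (isCompact_sq 3).isClosed
    have h2 : IsClosed (D.live lam sig w A0 k ∩ D.acc lam sig w (k + 1) ⁻¹' Iic 1) :=
      (contOn_acc G (by omega) le_rfl).preimage_isClosed_of_isClosed hc.isClosed isClosed_Iic
    refine hc.of_isClosed_subset ?_ live_anti
    have e : D.live lam sig w A0 (k + 1) = (D.live lam sig w A0 k ∩ D.pos lam w (k + 1) ⁻¹' sq 3)
        ∩ (D.live lam sig w A0 k ∩ D.acc lam sig w (k + 1) ⁻¹' Iic 1) := by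
      ext x; simp [live]; tauto
    rw [e]; exact h1.inter h2

lemma injOn_pos (G : D.Good H n A0 ε) : ∀ {k : ℕ}, k ≤ n →
    InjOn (D.pos lam w k) (D.live lam sig w A0 k)
  | 0, _ => injOn_id _
  | k + 1, hk => by
    intro x hx y hy hxy
    have hk' : k < n := by omega
    exact injOn_pos G (k := k) (by omega) (live_anti hx) (live_anti hy)
      (G.inj k hk' (pos_mem G (live_anti hx)) (pos_mem G (live_anti hy)) hxy)

lemma jk_spec (G : D.Good H n A0 ε) : ∀ {k : ℕ}, k ≤ n → ∀ {x : P2},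
    x ∈ D.live lam sig w A0 k → 0 < D.jk lam w k x ∧ 0 < (D.dpos lam w k x).det ∧
      D.jk lam w k x * vt lam w (x, D.t0)
        = (D.dpos lam w k x).det * vt lam w (D.pos lam w k x, D.tk k) ∧
      -(D.acc lam sig w k x + k * D.h * ε) ≤ Fw lam w (D.pos lam w k x, D.tk k)
        - Fw lam w (x, D.t0) + sig * Real.log (D.jk lam w k x)
  | 0, _, x, _ => by
    simp [jk, dpos, pos, tk, acc, ContinuousLinearMap.det]
  | k + 1, hk, x, hx => by
    obtain ⟨i1, i2, i3, i4⟩ := jk_spec G (k := k) (by omega) (live_anti hx)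
    obtain ⟨-, -, g1, g2, g3⟩ := G.good k (by omega) _ (pos_mem G (live_anti hx))
    have hbox := pos_box G (by omega : k ≤ n) (live_anti hx)
    have hvt := vt_pos H hbox
    have edet : (D.dpos lam w (k + 1) x).det
        = (ContinuousLinearMap.id ℝ P2 + D.h • velD lam w (D.pos lam w k x, D.tk k)).det
          * (D.dpos lam w k x).det := by
      rw [ContinuousLinearMap.det, ContinuousLinearMap.det, ContinuousLinearMap.det]
      exact LinearMap.det_comp _ _
    refine ⟨mul_pos i1 g1, by rw [edet]; exact mul_pos g2 i2, ?_, ?_⟩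
    · rw [edet, tk_succ]
      simp only [jk, pos]
      rw [mul_right_comm, i3, jac]
      field_simp
    · simp only [jk, pos, tk_succ, acc, Finset.sum_range_succ, Nat.cast_succ]
      rw [Real.log_mul i1.ne' g1.ne']
      simp only [acc] at i4
      linarith

lemma jk_bound (G : D.Good H n A0 ε) {k : ℕ} (hk : k ≤ n) {x : P2}
    (hx : x ∈ D.live lam sig w A0 k) :
    D.jk lam w k x ≤ 3 * (D.dpos lam w k x).det ∧ 1 ≤ 3 * (D.dpos lam w k x).det / D.jk lam w k x := by
  obtain ⟨i1, i2, i3, -⟩ := jk_spec G hk hx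
  have h0 := vt_pos H (pos_box G (Nat.zero_le n) (live_sub k hx))
  have h1 := abs_le.1 (H.lam_dt _ (pos_box G hk hx))
  simp only [pos, id_eq, tk, Nat.cast_zero, zero_mul, add_zero] at h0
  have h3 : vt lam w (D.pos lam w k x, D.tk k) ≤ 3 / 2 := by simp only [vt]; linarith
  have key : D.jk lam w k x ≤ 3 * (D.dpos lam w k x).det := by
    nlinarith [mul_le_mul_of_nonneg_left h3 i2.le, mul_le_mul_of_nonneg_left h0 i1.le]
  exact ⟨key, (one_le_div i1).2 key⟩

/-- `∫ log` of the Jacobian is bounded by the volume of the box. -/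
lemma integral_dpos (G : D.Good H n A0 ε) {k : ℕ} (hk : k ≤ n) {g : P2 → ℝ} (hg : Continuous g)
    (hg0 : ∀ y, 0 ≤ g y) :
    IntegrableOn (fun x => (D.dpos lam w k x).det * g (D.pos lam w k x))
        (D.live lam sig w A0 k) ∧
      ∫ x in D.live lam sig w A0 k, (D.dpos lam w k x).det * g (D.pos lam w k x)
        ≤ ∫ y in sq 4, g y := by
  set S := D.live lam sig w A0 k
  have hS := (isCompact_live G hk).measurableSet
  have hd : ∀ x ∈ S, HasFDerivWithinAt (D.pos lam w k) (D.dpos lam w k x) S x := fun x hx =>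
    (hasFDeriv_pos G (by omega) (x := x)
      (Or.inr (live_mono (Nat.sub_le k 1) hx))).hasFDerivWithinAt
  have hsub : D.pos lam w k '' S ⊆ sq 4 := by
    rintro _ ⟨x, hx, rfl⟩
    exact (pos_box G hk hx).1
  have hg4 : IntegrableOn g (sq 4) := hg.continuousOn.integrableOn_compact (isCompact_sq 4)
  have hi := hg4.mono_set hsub
  rw [integrableOn_image_iff_integrableOn_abs_det_fderiv_smul volume hS hd (injOn_pos G hk)] at hi
  have habs : ∀ x ∈ S, |(D.dpos lam w k x).det| • g (D.pos lam w k x)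
      = (D.dpos lam w k x).det * g (D.pos lam w k x) := fun x hx => by
    rw [abs_of_pos (jk_spec G hk hx).2.1, smul_eq_mul]
  refine ⟨hi.congr_fun habs hS, ?_⟩
  have e := integral_image_eq_integral_abs_det_fderiv_smul volume hS hd (injOn_pos G hk) g
  rw [setIntegral_congr_fun hS habs] at e
  rw [← e]
  exact setIntegral_mono_set hg4 (Eventually.of_forall hg0) hsub.eventuallyLE

end Flow

end Vale.Agent.P080.C1.Improve
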