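import Vale.Agent.P080.C1.ImproveFlow
import Mathlib.MeasureTheory.Integral.Bochner.Set

/-!
# Improvement of flatness: the lower inequality
-/

namespace Vale.Agent.P080.C1.Improve

open scoped ContDiff Topology
open Set Filter MeasureTheory

variable {w : T3 → ℝ} {lam sig A f d : ℝ}

/-- integral of `|g(·,t)|` over the square -/
noncomputable def slice (g : T3 → ℝ) (t : ℝ) : ℝ := ∫ x in sq 4, |g (x, t)|

lemma continuous_slice {g : T3 → ℝ} (hg : Continuous g) : Continuous (slice g) :=
  continuous_parametric_integral_of_continuous (f := fun t x => |g (x, t)|) (by fun_prop)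
    (isCompact_sq 4)

lemma slice_nonneg (g : T3 → ℝ) (t : ℝ) : 0 ≤ slice g t :=
  setIntegral_nonneg (isCompact_sq 4).measurableSet fun _ _ => abs_nonneg _

lemma slice_le_box {g : T3 → ℝ} (hg : Continuous g) {a b : ℝ} (hab : a ≤ b) (ha : -1 ≤ a)
    (hb : b ≤ 1) : ∫ t in a..b, slice g t ≤ ∫ z in box, |g z| := by
  have hi : IntegrableOn (fun p : ℝ × P2 => |g p.swap|) (Icc (-1) 1 ×ˢ sq 4)
      ((volume : Measure ℝ).prod volume) := by
    rw [← Measure.volume_eq_prod ℝ P2]
    exact (hg.comp continuous_swap).abs.continuousOn.integrableOn_compact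
      (isCompact_Icc.prod (isCompact_sq 4))
  rw [box, Measure.volume_eq_prod P2 ℝ, ← setIntegral_prod_swap, setIntegral_prod _ hi,
    intervalIntegral.integral_of_le hab, ← integral_Icc_eq_integral_Ioc]
  exact setIntegral_mono_set ((continuous_slice hg).continuousOn.integrableOn_compact isCompact_Icc)
    (Eventually.of_forall fun t => slice_nonneg g t) (Icc_subset_Icc ha hb).eventuallyLE

/-- A good initial time. -/
lemma exists_time (H : Cfg w lam sig A f d) {κ : ℝ} (hκ : 0 < κ) (hκ1 : κ ≤ 1 / 4) :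
    ∃ t0 ∈ Icc (-2 * κ) (-κ), slice (fun z => Fw lam w z - f) t0 ≤ d / κ := by
  have hc : Continuous fun z => Fw lam w z - f := (continuous_Fw H.smooth lam).sub continuous_const
  have h := slice_le_box hc (a := -2 * κ) (b := -κ) (by linarith) (by linarith) (by linarith)
  rw [intervalIntegral.integral_of_le (by linarith : -2 * κ ≤ -κ),
    ← integral_Icc_eq_integral_Ioc] at h
  have hv : volume.real (Icc (-2 * κ) (-κ)) = κ := by
    rw [Real.volume_real_Icc_of_le (by linarith)]; ring
  obtain ⟨t, ht, ht'⟩ := exists_le_setAverage (μ := volume) (s := Icc (-2 * κ) (-κ))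
    (by simp; linarith) isCompact_Icc.measure_lt_top.ne
    ((continuous_slice hc).continuousOn.integrableOn_compact isCompact_Icc)
  refine ⟨t, ht, ?_⟩
  rw [setAverage_eq, hv, smul_eq_mul] at ht'
  refine ht'.trans ?_
  rw [div_eq_inv_mul]
  exact mul_le_mul_of_nonneg_left (h.trans H.F_L1) (by positivity)

/-- Riemann sums. -/
lemma riemann_le {g : ℝ → ℝ} (hg : Continuous g) {ε : ℝ} (hε : 0 < ε) :
    ∃ h0 > 0, ∀ (h a : ℝ) (n : ℕ), 0 < h → h ≤ h0 → -1 ≤ a → a + n * h ≤ 1 →
      ∑ k ∈ Finset.range n, h * g (a + k * h) ≤ (∫ t in a..(a + n * h), g t) + ε * (n * h) := by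
  obtain ⟨δ, hδ, hδ'⟩ := Metric.uniformContinuousOn_iff.1
    ((isCompact_Icc (a := (-1 : ℝ)) (b := 1)).uniformContinuousOn_of_continuous hg.continuousOn)
    ε hε
  refine ⟨δ / 2, by positivity, fun h a n hh hh0 ha hn => ?_⟩
  induction n with
  | zero => simp
  | succ n ih =>
    push_cast at hn ⊢
    have hn' : a + n * h ≤ 1 := by linarith
    rw [Finset.sum_range_succ,
      ← intervalIntegral.integral_add_adjacent_intervals (hg.intervalIntegrable a (a + n * h))
        (hg.intervalIntegrable _ _)]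
    have h1 : ∫ _ in (a + n * h)..(a + (↑n + 1) * h), (g (a + n * h) - ε)
        ≤ ∫ t in (a + n * h)..(a + (↑n + 1) * h), g t := by
      refine intervalIntegral.integral_mono_on (by linarith) intervalIntegrable_const
        (hg.intervalIntegrable _ _) fun t ht => ?_
      have h0 : 0 ≤ (n : ℝ) * h := mul_nonneg (Nat.cast_nonneg n) hh.le
      have := hδ' (a + n * h) ⟨by linarith, hn'⟩ t ⟨by linarith [ht.1], by linarith [ht.2]⟩ (by
        rw [Real.dist_eq, abs_lt]; constructor <;> linarith [ht.1, ht.2])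
      rw [Real.dist_eq, abs_lt] at this
      linarith
    rw [intervalIntegral.integral_const, smul_eq_mul] at h1
    linarith [ih hn']

/-- Markov: most of the small square has `|F - f| ≤ 1`. -/
lemma good_start (H : Cfg w lam sig A f d) {κ t0 : ℝ} (hκ : 0 < κ) (hκ1 : κ ≤ 1)
    (ht : slice (fun z => Fw lam w z - f) t0 ≤ d / κ) (hd : d ≤ 2 * κ ^ 3) :
    IsCompact (sq κ ∩ {x | |Fw lam w (x, t0) - f| ≤ 1}) ∧
      2 * κ ^ 2 ≤ volume.real (sq κ ∩ {x | |Fw lam w (x, t0) - f| ≤ 1}) := by
  set g : P2 → ℝ := fun x => |Fw lam w (x, t0) - f| with hg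
  have hgc : Continuous g :=
    (((continuous_Fw H.smooth lam).comp (by fun_prop)).sub continuous_const).abs
  have hcl : IsClosed {x | g x ≤ 1} := isClosed_le hgc continuous_const
  refine ⟨(isCompact_sq κ).inter_right hcl, ?_⟩
  set S := sq κ \ {x | g x ≤ 1} with hS
  have hSm : MeasurableSet S := (isCompact_sq κ).measurableSet.diff hcl.measurableSet
  have hfin : volume S ≠ ⊤ :=
    ((measure_mono sdiff_le).trans_lt (isCompact_sq κ).measure_lt_top).ne
  have h1 : volume.real S ≤ d / κ := by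
    refine le_trans ?_ ht
    have hsub : S ⊆ sq 4 := fun x hx => mem_sq.2
      ⟨by linarith [(mem_sq.1 hx.1).1], by linarith [(mem_sq.1 hx.1).2]⟩
    have hi := hgc.continuousOn.integrableOn_compact (μ := volume) (isCompact_sq 4)
    calc volume.real S = ∫ _ in S, (1 : ℝ) := by simp [measureReal_def]
      _ ≤ ∫ x in S, g x := setIntegral_mono_on (integrableOn_const hfin) (hi.mono_set hsub) hSm
          fun x hx => (not_le.1 hx.2).le
      _ ≤ _ := setIntegral_mono_set hi (Eventually.of_forall fun _ => abs_nonneg _) hsub.eventuallyLE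
  have h2 := measureReal_union_le (μ := volume) (sq κ ∩ {x | g x ≤ 1}) S
  rw [hS, Set.inter_union_sdiff, volume_sq hκ.le] at h2
  have h3 : d / κ ≤ 2 * κ ^ 2 := by rw [div_le_iff₀ hκ]; linarith
  simp only [← hS] at h2
  linarith

namespace Flow

variable {D : Flow} {H : Cfg w lam sig A f d} {n : ℕ} {A0 : Set P2} {ε : ℝ}

/-- Lower bound for `∫ (F - f)` along the discrete flow, and upper bound for the residual. -/
lemma step_integrals (G : D.Good H n A0 ε) {k : ℕ} (hk : k ≤ n) (hε : 0 ≤ ε) (hnε : n * D.h * ε ≤ 1)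
    (hf : -5 ≤ f) (hA0 : A0 ⊆ {x | |Fw lam w (x, D.t0) - f| ≤ 1}) :
    ∫ x in D.live lam sig w A0 k, |rho lam sig w (D.pos lam w k x, D.tk k)|
        ≤ 3 * Real.exp ((A + 8) / sig) * slice (rho lam sig w) (D.tk k) ∧
      -(slice (fun z => Fw lam w z - f) D.t0 + 192 * sig + n * D.h * ε * volume.real A0
          + ∫ x in D.live lam sig w A0 k, D.acc lam sig w k x)
        ≤ ∫ x in D.live lam sig w A0 k, (Fw lam w (D.pos lam w k x, D.tk k) - f) := by
  set S := D.live lam sig w A0 k with hSdef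
  have hSc := isCompact_live G hk
  have hSm := hSc.measurableSet
  have hρ := (continuous_rho H.smooth lam sig).abs
  obtain ⟨hi1, hle1⟩ := integral_dpos G hk (g := fun y => |rho lam sig w (y, D.tk k)|)
    (hρ.comp (by fun_prop)) fun y => abs_nonneg _
  have hkh : (k : ℝ) * D.h * ε ≤ n * D.h * ε := mul_le_mul_of_nonneg_right
    (mul_le_mul_of_nonneg_right (Nat.cast_le.2 hk) G.h_pos.le) hε
  have hcF : ContinuousOn (fun x => Fw lam w (D.pos lam w k x, D.tk k)) S :=
    contOn_comp G (continuous_Fw H.smooth lam) hk (Nat.le_succ k)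
  constructor
  · have hb : ∀ x ∈ S, |rho lam sig w (D.pos lam w k x, D.tk k)|
        ≤ 3 * Real.exp ((A + 8) / sig)
          * ((D.dpos lam w k x).det * |rho lam sig w (D.pos lam w k x, D.tk k)|) := by
      intro x hx
      obtain ⟨i1, -, -, i4⟩ := jk_spec G hk hx
      have hF := H.F_le _ (pos_box G hk hx)
      have h0 : |Fw lam w (x, D.t0) - f| ≤ 1 := hA0 (live_sub k hx)
      have h0' := (abs_le.1 h0).1
      have hacc := acc_le G hx
      have hlog : -((A + 8) / sig) ≤ Real.log (D.jk lam w k x) := by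
        rw [← neg_div, div_le_iff₀ H.sig_pos]
        linarith
      have hJ := (Real.le_log_iff_exp_le i1).1 hlog
      rw [Real.exp_neg, inv_le_iff_one_le_mul₀ (Real.exp_pos _)] at hJ
      have hk1 := (jk_bound G hk hx).1
      have h3 : 1 ≤ 3 * Real.exp ((A + 8) / sig) * (D.dpos lam w k x).det := by
        linarith [mul_le_mul_of_nonneg_right hk1 (Real.exp_pos ((A + 8) / sig)).le]
      calc |rho lam sig w (D.pos lam w k x, D.tk k)|
          = 1 * |rho lam sig w (D.pos lam w k x, D.tk k)| := (one_mul _).symm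
        _ ≤ _ := mul_le_mul_of_nonneg_right h3 (abs_nonneg _)
        _ = _ := by ring
    refine (setIntegral_mono_on ((contOn_comp G hρ hk (Nat.le_succ k)).integrableOn_compact hSc)
      (hi1.const_mul _) hSm hb).trans ?_
    rw [integral_const_mul]
    exact mul_le_mul_of_nonneg_left hle1 (by positivity)
  · obtain ⟨hi2, hle2⟩ := integral_dpos G hk (g := fun _ => (1 : ℝ)) continuous_const
      fun _ => zero_le_one
    rw [integral_const, smul_eq_mul, mul_one, measureReal_restrict_apply_univ,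
      volume_sq (by norm_num)] at hle2
    simp only [mul_one] at hi2 hle2
    set a : P2 → ℝ := fun x => Fw lam w (x, D.t0) - f with ha
    have hac : ContinuousOn a S := by
      refine Continuous.continuousOn ?_
      exact ((continuous_Fw H.smooth lam).comp (by fun_prop)).sub continuous_const
    have hacci := (contOn_acc G hk (Nat.le_succ k)).integrableOn_compact (μ := volume) hSc
    have hpt : ∀ x ∈ S, a x - 3 * sig * (D.dpos lam w k x).det - D.acc lam sig w k x
        - n * D.h * ε ≤ Fw lam w (D.pos lam w k x, D.tk k) - f := by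
      intro x hx
      obtain ⟨i1, i2, -, i4⟩ := jk_spec G hk hx
      have h1 : Real.log (D.jk lam w k x) ≤ 3 * (D.dpos lam w k x).det := by
        linarith [Real.log_le_sub_one_of_pos i1, (jk_bound G hk hx).1]
      simp only [ha]
      linarith [mul_le_mul_of_nonneg_left h1 H.sig_pos.le]
    have hfin : volume S ≠ ⊤ := hSc.measure_lt_top.ne
    have iA := hac.integrableOn_compact (μ := volume) hSc
    have iB : IntegrableOn (fun x => 3 * sig * (D.dpos lam w k x).det) S volume := hi2.const_mul _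
    have iC : IntegrableOn (fun _ : P2 => (n : ℝ) * D.h * ε) S volume := integrableOn_const hfin
    have iAB : IntegrableOn (fun x => a x - 3 * sig * (D.dpos lam w k x).det) S volume := iA.sub iB
    have iABC : IntegrableOn
        (fun x => a x - 3 * sig * (D.dpos lam w k x).det - D.acc lam sig w k x) S volume :=
      iAB.sub hacci
    have iABCD : IntegrableOn
        (fun x => a x - 3 * sig * (D.dpos lam w k x).det - D.acc lam sig w k x - n * D.h * ε)
        S volume := iABC.sub iC
    have iF : IntegrableOn (fun x => Fw lam w (D.pos lam w k x, D.tk k) - f) S volume :=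
      (hcF.sub continuousOn_const).integrableOn_compact hSc
    have h2 := setIntegral_mono_on iABCD iF hSm hpt
    rw [integral_sub iABC iC, integral_sub iAB hacci, integral_sub iA iB, integral_const_mul, integral_const, measureReal_restrict_apply_univ,
      smul_eq_mul] at h2
    have hs4 : S ⊆ sq 4 := fun x hx => mem_sq.2
      ⟨by linarith [(mem_sq.1 (G.sub (live_sub k hx))).1],
        by linarith [(mem_sq.1 (G.sub (live_sub k hx))).2]⟩
    have hA : -slice (fun z => Fw lam w z - f) D.t0 ≤ ∫ x in S, a x := by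
      have hi : IntegrableOn (fun x => |a x|) (sq 4) volume := Continuous.continuousOn
        (((continuous_Fw H.smooth lam).comp (by fun_prop)).sub continuous_const).abs
        |>.integrableOn_compact (isCompact_sq 4)
      have e1 := setIntegral_mono_set hi (Eventually.of_forall fun _ => abs_nonneg _)
        hs4.eventuallyLE
      have e2 := (abs_le.1 (abs_integral_le_integral_abs (f := a) (μ := volume.restrict S))).1
      simp only [slice]
      simp only [ha] at e1
      linarith
    have hvol : volume.real S ≤ volume.real A0 :=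
      measureReal_mono (live_sub k) G.compact.measure_lt_top.ne
    linarith [mul_le_mul_of_nonneg_left hle2 (by linarith [H.sig_pos] : (0:ℝ) ≤ 3 * sig),
      mul_le_mul_of_nonneg_right hvol (mul_nonneg (mul_nonneg (Nat.cast_nonneg n) G.h_pos.le) hε :
        (0:ℝ) ≤ n * D.h * ε)]

/-- Along one trajectory: the gain of `w` until it stops. -/
lemma traj_gain (G : D.Good H n A0 ε) {x : P2} (hx : x ∈ A0) :
    ∃ M, M ≤ n ∧ (∀ k, k < M → x ∈ D.live lam sig w A0 k)
      ∧ (∀ k, M ≤ k → k < n → x ∉ D.live lam sig w A0 k)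
      ∧ D.pos lam w M x ∈ sq 4
      ∧ (x ∈ D.live lam sig w A0 n ∧ M = n ∨ 3 < |(D.pos lam w M x).1| ∨
          3 < |(D.pos lam w M x).2| ∨ 1 < D.acc lam sig w M x)
      ∧ ∑ k ∈ Finset.range M, D.h * (Fw lam w (D.pos lam w k x, D.tk k) - f - 2 * d - ε)
          + (M * D.h) * f + sqn (D.pos lam w M x - x) / (2 * (n * D.h))
        ≤ w (D.pos lam w M x, D.tk M) - w (x, D.t0) := by
  classical
  have hex : ∃ M, M ≤ n ∧ (∀ k, k < M → x ∈ D.live lam sig w A0 k)
      ∧ (M = n ∧ x ∈ D.live lam sig w A0 M ∨ x ∉ D.live lam sig w A0 M) := by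
    by_cases h : ∃ k, k ≤ n ∧ x ∉ D.live lam sig w A0 k
    · refine ⟨Nat.find h, (Nat.find_spec h).1, fun k hk => ?_, Or.inr (Nat.find_spec h).2⟩
      have := Nat.find_min h hk
      push Not at this
      exact this (by have := (Nat.find_spec h).1; omega)
    · push Not at h
      exact ⟨n, le_rfl, fun k hk => h k hk.le, Or.inl ⟨rfl, h n le_rfl⟩⟩
  obtain ⟨M, hMn, hlive, hend⟩ := hex
  refine ⟨M, hMn, hlive, fun k hk1 hk2 => ?_, ?_, ?_, ?_⟩
  · rcases hend with ⟨hM, -⟩ | hM
    · omega
    · exact fun h => hM (live_mono hk1 h)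
  · rcases M with _ | M
    · show x ∈ sq 4
      exact mem_sq.2 ⟨by linarith [(mem_sq.1 (G.sub hx)).1], by linarith [(mem_sq.1 (G.sub hx)).2]⟩
    · exact (G.good M (by omega) _ (pos_mem G (hlive M (by omega)))).1
  · rcases hend with ⟨hM, h⟩ | h
    · exact Or.inl ⟨hM ▸ h, hM⟩
    · refine Or.inr ?_
      rcases M with _ | M
      · exact absurd hx h
      by_contra hc
      push Not at hc
      exact h ⟨hlive M (by omega), mem_sq.2 ⟨hc.1, hc.2.1⟩, hc.2.2⟩
  · set V : ℕ → P2 := fun k => vel lam w (D.pos lam w k x, D.tk k) with hV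
    have hsum : ∀ j, j ≤ M → ∑ k ∈ Finset.range j,
        D.h * (Fw lam w (D.pos lam w k x, D.tk k) + sqn (V k) / 2 - 2 * d - ε)
          ≤ w (D.pos lam w j x, D.tk j) - w (x, D.t0) := by
      intro j hj
      induction j with
      | zero => simp [pos, tk]
      | succ j ih =>
        obtain ⟨-, g, -⟩ := G.good j (by omega) _ (pos_mem G (hlive j (by omega)))
        rw [Finset.sum_range_succ, tk_succ]
        simp only [pos]
        linarith [ih (by omega)]
    have hdisp : ∀ j, D.pos lam w j x - x = ∑ k ∈ Finset.range j, D.h • V k := by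
      intro j
      induction j with
      | zero => simp [pos]
      | succ j ih => rw [Finset.sum_range_succ, ← ih]; simp [pos, hV]; abel
    have hcs : sqn (D.pos lam w M x - x) / (2 * (n * D.h))
        ≤ D.h / 2 * ∑ k ∈ Finset.range M, sqn (V k) := by
      rw [hdisp]
      rcases Nat.eq_zero_or_pos M with rfl | hM0
      · simp [sqn]
      have hn0 : (0 : ℝ) < n := Nat.cast_pos.2 (by omega)
      have hh := G.h_pos
      rw [div_le_iff₀ (by positivity)]
      have c1 := sq_sum_le_card_mul_sum_sq (s := Finset.range M) (f := fun k => (V k).1)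
      have c2 := sq_sum_le_card_mul_sum_sq (s := Finset.range M) (f := fun k => (V k).2)
      rw [Finset.card_range] at c1 c2
      have e : sqn (∑ k ∈ Finset.range M, D.h • V k) = D.h ^ 2 *
          ((∑ k ∈ Finset.range M, (V k).1) ^ 2 + (∑ k ∈ Finset.range M, (V k).2) ^ 2) := by
        simp [sqn, Prod.fst_sum, Prod.snd_sum, ← Finset.mul_sum]; ring
      rw [e]
      have hMn' : (M : ℝ) ≤ n := Nat.cast_le.2 hMn
      have hs : ∑ k ∈ Finset.range M, sqn (V k) = ∑ k ∈ Finset.range M, (V k).1 ^ 2 + ∑ k ∈ Finset.range M, (V k).2 ^ 2 := by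
        simp [sqn, Finset.sum_add_distrib]
      have hs0 : 0 ≤ ∑ k ∈ Finset.range M, sqn (V k) := Finset.sum_nonneg fun k _ => sqn_nonneg _
      calc D.h ^ 2 * ((∑ k ∈ Finset.range M, (V k).1) ^ 2 + (∑ k ∈ Finset.range M, (V k).2) ^ 2)
          ≤ D.h ^ 2 * (n * ∑ k ∈ Finset.range M, sqn (V k)) := by
            refine mul_le_mul_of_nonneg_left ?_ (sq_nonneg _)
            have := mul_le_mul_of_nonneg_right hMn' hs0
            rw [hs] at this ⊢
            linarith
        _ = _ := by ring
    have := hsum M le_rfl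
    rw [← Finset.mul_sum] at this ⊢
    simp only [Finset.sum_sub_distrib, Finset.sum_add_distrib, Finset.sum_const, Finset.card_range,
      nsmul_eq_mul, ← Finset.sum_div] at this ⊢
    linarith

end Flow

namespace Flow

variable {D : Flow} {H : Cfg w lam sig A f d} {n : ℕ} {A0 : Set P2} {ε : ℝ}

/-- one term of the residual along a trajectory -/
noncomputable def resTerm (D : Flow) (lam sig : ℝ) (w : T3 → ℝ) (k : ℕ) (x : P2) : ℝ :=
  2 * D.h * |rho lam sig w (D.pos lam w k x, D.tk k)|

/-- one term of the gain along a trajectory -/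
noncomputable def gainTerm (D : Flow) (lam : ℝ) (w : T3 → ℝ) (c : ℝ) (k : ℕ) (x : P2) : ℝ :=
  D.h * (Fw lam w (D.pos lam w k x, D.tk k) - c)

lemma resTerm_nonneg (G : D.Good H n A0 ε) (k : ℕ) (x : P2) : 0 ≤ D.resTerm lam sig w k x :=
  mul_nonneg (mul_nonneg two_pos.le G.h_pos.le) (abs_nonneg _)

lemma contOn_resTerm (G : D.Good H n A0 ε) {i k : ℕ} (hk : k ≤ n) (hi : i ≤ k) :
    ContinuousOn (D.resTerm lam sig w i) (D.live lam sig w A0 k) :=
  continuousOn_const.mul
    (contOn_comp G (continuous_rho H.smooth lam sig).abs hk (by omega))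

/-- total residual -/
noncomputable def resSum (D : Flow) (lam sig : ℝ) (w : T3 → ℝ) (A0 : Set P2) (n : ℕ) : ℝ :=
  ∑ k ∈ Finset.range n, ∫ x in D.live lam sig w A0 k, D.resTerm lam sig w k x

lemma resSum_nonneg (G : D.Good H n A0 ε) : 0 ≤ D.resSum lam sig w A0 n :=
  Finset.sum_nonneg fun k hk => setIntegral_nonneg
    (isCompact_live G (Finset.mem_range.1 hk).le).measurableSet fun x _ => resTerm_nonneg G k x

lemma resSum_le (G : D.Good H n A0 ε) (hε : 0 ≤ ε) (hεd : Real.exp ((A + 8) / sig) * ε ≤ d)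
    (hnε : n * D.h * ε ≤ 1) (hf : -5 ≤ f) (hA0 : A0 ⊆ {x | |Fw lam w (x, D.t0) - f| ≤ 1})
    {T : ℝ} (hnh : (n : ℝ) * D.h = T) (hT : T ≤ 29 / 100)
    (hR : ∑ k ∈ Finset.range n, D.h * slice (rho lam sig w) (D.t0 + k * D.h)
      ≤ (∫ t in D.t0..(D.t0 + n * D.h), slice (rho lam sig w) t) + ε * (n * D.h)) :
    D.resSum lam sig w A0 n ≤ 8 * d := by
  have hd0 : 0 < d := H.sig_pos.trans_le H.sig_le
  have hh := G.h_pos
  have hstep' : ∀ k ∈ Finset.range n, (∫ x in D.live lam sig w A0 k, D.resTerm lam sig w k x)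
      ≤ 6 * Real.exp ((A + 8) / sig) * (D.h * slice (rho lam sig w) (D.t0 + k * D.h)) := by
    intro k hk
    have hk' := Finset.mem_range.1 hk
    have hb := (step_integrals G hk'.le hε hnε hf hA0).1
    simp only [resTerm]
    rw [integral_const_mul]
    calc 2 * D.h * _ ≤ 2 * D.h * (3 * Real.exp ((A + 8) / sig) * slice (rho lam sig w) (D.tk k)) :=
          mul_le_mul_of_nonneg_left hb (by positivity)
      _ = _ := by simp [tk]; ring
  refine (Finset.sum_le_sum hstep').trans ?_
  rw [← Finset.mul_sum]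
  have hT0 : 0 ≤ T := hnh ▸ mul_nonneg (Nat.cast_nonneg n) hh.le
  have h4 := slice_le_box (continuous_rho H.smooth lam sig) (a := D.t0) (b := D.t0 + n * D.h)
    (by linarith) G.t0_ge G.tn_le
  rw [hnh] at hR h4
  have h5 := mul_le_mul_of_nonneg_left (hR.trans (add_le_add h4 le_rfl))
    (Real.exp_pos ((A + 8) / sig)).le
  have h6 := H.res
  linarith [mul_le_mul_of_nonneg_right hεd hT0, mul_le_mul_of_nonneg_left hT hd0.le]

lemma acc_integral_le (G : D.Good H n A0 ε) {k : ℕ} (hk : k < n) :
    ∫ x in D.live lam sig w A0 k, D.acc lam sig w k x ≤ D.resSum lam sig w A0 n := by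
  show ∫ x in D.live lam sig w A0 k, ∑ i ∈ Finset.range k, D.resTerm lam sig w i x ≤ _
  rw [integral_finsetSum _ fun i hi =>
    (contOn_resTerm G hk.le (Finset.mem_range.1 hi).le).integrableOn_compact (isCompact_live G hk.le)]
  calc ∑ i ∈ Finset.range k, ∫ x in D.live lam sig w A0 k, D.resTerm lam sig w i x
      ≤ ∑ i ∈ Finset.range k, ∫ x in D.live lam sig w A0 i, D.resTerm lam sig w i x :=
        Finset.sum_le_sum fun i hi => by
          have hik := Finset.mem_range.1 hi
          exact setIntegral_mono_set ((contOn_resTerm G (by omega) le_rfl).integrableOn_compact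
            (isCompact_live G (by omega))) (Eventually.of_forall (resTerm_nonneg G i))
            (live_mono hik.le).eventuallyLE
    _ ≤ _ := Finset.sum_le_sum_of_subset_of_nonneg (by simpa using hk.le)
        fun i hi _ => setIntegral_nonneg
          (isCompact_live G (Finset.mem_range.1 hi).le).measurableSet fun x _ => resTerm_nonneg G i x

lemma gainSum_ge (G : D.Good H n A0 ε) (hε : 0 ≤ ε) (hεd : ε ≤ d)
    (hnε : n * D.h * ε ≤ 1) (hf : -5 ≤ f) (hA0 : A0 ⊆ {x | |Fw lam w (x, D.t0) - f| ≤ 1}) :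
    -(n * D.h * (slice (fun z => Fw lam w z - f) D.t0 + 192 * d + n * D.h * ε * volume.real A0
        + D.resSum lam sig w A0 n + 3 * d * volume.real A0))
      ≤ ∑ k ∈ Finset.range n,
          ∫ x in D.live lam sig w A0 k, D.gainTerm lam w (f + 2 * d + ε) k x := by
  set X := slice (fun z => Fw lam w z - f) D.t0 + 192 * d + n * D.h * ε * volume.real A0
        + D.resSum lam sig w A0 n + 3 * d * volume.real A0 with hX
  have hk1 : ∀ k ∈ Finset.range n,
      D.h * -X ≤ ∫ x in D.live lam sig w A0 k, D.gainTerm lam w (f + 2 * d + ε) k x := by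
    intro k hk
    have hk' := Finset.mem_range.1 hk
    have hb := (step_integrals G hk'.le hε hnε hf hA0).2
    have hv : volume.real (D.live lam sig w A0 k) ≤ volume.real A0 :=
      measureReal_mono (live_sub k) G.compact.measure_lt_top.ne
    have hS := isCompact_live G hk'.le
    have hi : IntegrableOn (fun x => Fw lam w (D.pos lam w k x, D.tk k) - f)
        (D.live lam sig w A0 k) volume :=
      ((contOn_comp G (continuous_Fw H.smooth lam) hk'.le (Nat.le_succ k)).sub
        continuousOn_const).integrableOn_compact hS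
    have ic : IntegrableOn (fun _ : P2 => 2 * d + ε) (D.live lam sig w A0 k) volume :=
      integrableOn_const hS.measure_lt_top.ne
    have e : (fun x => D.gainTerm lam w (f + 2 * d + ε) k x)
        = fun x => D.h * (Fw lam w (D.pos lam w k x, D.tk k) - f - (2 * d + ε)) := by
      funext x; simp only [gainTerm]; ring
    rw [e, integral_const_mul, integral_sub hi ic, integral_const, measureReal_restrict_apply_univ,
      smul_eq_mul]
    refine mul_le_mul_of_nonneg_left ?_ G.h_pos.le
    rw [hX]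
    linarith [acc_integral_le G hk', H.sig_le,
      mul_le_mul_of_nonneg_right hv (by linarith [H.sig_pos, H.sig_le] : (0:ℝ) ≤ 2 * d + ε),
      mul_le_mul_of_nonneg_left hεd (measureReal_nonneg : (0:ℝ) ≤ volume.real A0)]
  refine le_trans (le_of_eq ?_) (Finset.sum_le_sum hk1)
  rw [Finset.sum_const, Finset.card_range, nsmul_eq_mul]
  ring

lemma point_bound (G : D.Good H n A0 ε) {x : P2} (hxA : x ∈ A0) {κ T τ η : ℝ}
    (hx : x ∈ sq κ) (hκ : κ ≤ 1 / 50) (hnh : (n : ℝ) * D.h = T) (hT0 : 0 < T)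
    (hT : T ≤ 29 / 100) (hτ : D.t0 + T = τ) (hf : -5 ≤ f) (hη0 : 0 ≤ η) (hη : η ≤ 1)
    (hno : ∀ y ∈ sq 3,
      w (y, τ) - w (x, D.t0) < sqn (y - x) / (2 * T) + f * T - η) :
    ∑ k ∈ Finset.range n, (D.live lam sig w A0 k).indicator
        (D.gainTerm lam w (f + 2 * d + ε) k) x
      ≤ -η + 6 * ∑ k ∈ Finset.range n,
          (D.live lam sig w A0 k).indicator (D.resTerm lam sig w k) x := by
  obtain ⟨M, hMn, hl, hnl, hmem, hcase, hgn⟩ := traj_gain G hxA
  have hsplit : ∀ g : ℕ → P2 → ℝ,
      ∑ k ∈ Finset.range n, (D.live lam sig w A0 k).indicator (g k) x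
        = ∑ k ∈ Finset.range M, g k x := by
    intro g
    rw [← Finset.sum_subset (by simpa using hMn : Finset.range M ⊆ Finset.range n) fun k hk hk' =>
      Set.indicator_of_notMem (hnl k (by simpa using hk') (Finset.mem_range.1 hk)) _]
    exact Finset.sum_congr rfl fun k hk => Set.indicator_of_mem (hl k (Finset.mem_range.1 hk)) _
  rw [hsplit, hsplit]
  have hQ0 : 0 ≤ ∑ k ∈ Finset.range M, D.resTerm lam sig w k x :=
    Finset.sum_nonneg fun k _ => resTerm_nonneg G k x
  have hMT : (M : ℝ) * D.h ≤ T :=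
    hnh ▸ mul_le_mul_of_nonneg_right (Nat.cast_le.2 hMn) G.h_pos.le
  have hMf : -(5 * T) ≤ (M : ℝ) * D.h * f := by
    have := mul_le_mul_of_nonneg_left hf (mul_nonneg (Nat.cast_nonneg M) G.h_pos.le)
    linarith
  rw [hnh] at hgn
  have esum : ∑ k ∈ Finset.range M, D.gainTerm lam w (f + 2 * d + ε) k x
      = ∑ k ∈ Finset.range M, D.h * (Fw lam w (D.pos lam w k x, D.tk k) - f - 2 * d - ε) :=
    Finset.sum_congr rfl fun k _ => by simp only [gainTerm]; ring
  rw [esum]
  rcases hcase with ⟨hlive, rfl⟩ | hout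
  · have h7 := hno _ (pos_mem G hlive)
    have e1 : D.tk M = τ := by simp only [tk, hnh, hτ]
    rw [e1, hnh] at hgn
    linarith
  · have u1 := abs_le.1 (H.bound _ (⟨hmem, tk_mem G hMn⟩ : (D.pos lam w M x, D.tk M) ∈ box))
    have hx0 : (x, D.t0) ∈ box := by
      have h := pos_box G (Nat.zero_le n) (x := x) (k := 0) hxA
      simpa [pos, tk] using h
    have u2 := abs_le.1 (H.bound _ hx0)
    have hexit : ∀ {u v : ℝ}, 3 < |u| → |v| ≤ κ → 8 ≤ (u - v) ^ 2 := fun {u v} hu hv => by
      have h1 : (29 / 10 : ℝ) ≤ |u - v| := by linarith [abs_sub_abs_le_abs_sub u v]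
      have h2 := pow_le_pow_left₀ (by norm_num) h1 2
      rw [sq_abs] at h2
      linarith
    have h9 : 13 ≤ 8 / (2 * T) := by rw [le_div_iff₀ (by positivity)]; linarith
    have hs0 : 0 ≤ sqn (D.pos lam w M x - x) / (2 * T) :=
      div_nonneg (sqn_nonneg _) (by linarith)
    have hfar : 8 ≤ sqn (D.pos lam w M x - x) → 13 ≤ sqn (D.pos lam w M x - x) / (2 * T) :=
      fun h => h9.trans (div_le_div_of_nonneg_right h (by linarith))
    rcases hout with h3 | h3 | h3
    · have := hexit h3 (mem_sq.1 hx).1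
      have := hfar (by simp only [sqn, Prod.fst_sub, Prod.snd_sub]
                       linarith [sq_nonneg ((D.pos lam w M x).2 - x.2)])
      linarith
    · have := hexit h3 (mem_sq.1 hx).2
      have := hfar (by simp only [sqn, Prod.fst_sub, Prod.snd_sub]
                       linarith [sq_nonneg ((D.pos lam w M x).1 - x.1)])
      linarith
    · have h10 : 1 < ∑ k ∈ Finset.range M, D.resTerm lam sig w k x := h3
      linarith

end Flow

/-- Final numerics of the lower inequality. -/
lemma numerics {κ d ε T V s R I : ℝ} (hκ : 0 < κ) (hκ1 : κ ≤ 1 / 50) (hd : 0 < d) (hεd : ε ≤ d)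
    (hε : 0 ≤ ε) (hT0 : 0 ≤ T) (hT : T ≤ 29 / 100) (hs : s ≤ d / κ) (hV : V ≤ 4 * κ ^ 2)
    (hV2 : 2 * κ ^ 2 ≤ V) (hR0 : 0 ≤ R) (hR : R ≤ 8 * d)
    (hgain : -(T * (s + 192 * d + T * ε * V + R + 3 * d * V)) ≤ I)
    (hmono : I ≤ V * -(2000 * d / κ ^ 3) + 6 * R) : False := by
  have hk4 : 4 * κ ^ 2 ≤ 1 := by nlinarith
  have hk : 0 < d / κ := by positivity
  have hV0 : 0 ≤ V := le_trans (by positivity) hV2
  have h11 : T * ε * V ≤ 1 * d * 1 := mul_le_mul (mul_le_mul (by linarith) hεd hε zero_le_one)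
    (hV.trans hk4) hV0 (by linarith)
  have h12 : d * V ≤ d * 1 := mul_le_mul_of_nonneg_left (hV.trans hk4) hd.le
  have h14 : T * (s + 192 * d + T * ε * V + R + 3 * d * V) ≤ d / κ + 204 * d := by
    refine (mul_le_mul_of_nonneg_left (show s + 192 * d + T * ε * V + R + 3 * d * V
      ≤ d / κ + 204 * d by linarith) hT0).trans ?_
    calc T * (d / κ + 204 * d) ≤ 1 * (d / κ + 204 * d) :=
          mul_le_mul_of_nonneg_right (by linarith) (by positivity)
      _ = _ := one_mul _
  have h15 : 2 * κ ^ 2 * (2000 * d / κ ^ 3) = 4000 * (d / κ) := by field_simp; ring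
  have h16 := mul_le_mul_of_nonneg_right hV2 (by positivity : 0 ≤ 2000 * d / κ ^ 3)
  have h17 : 300 * d ≤ 6 * (d / κ) := by
    rw [mul_div_assoc', le_div_iff₀ hκ]
    nlinarith
  linarith

/-- The lower inequality. -/
theorem lower (H : Cfg w lam sig A f d) {κ τ : ℝ} (hκ : 0 < κ) (hκ1 : κ ≤ 1 / 50)
    (hτ : 0 < τ) (hτ1 : τ ≤ 1 / 4) (hf : -5 ≤ f) (hd : d ≤ κ ^ 3 / 10000) :
    ∃ t0 ∈ Icc (-2 * κ) (-κ), ∃ x ∈ sq κ, ∃ y ∈ sq 3,
      sqn (y - x) / (2 * (τ - t0)) + f * (τ - t0) - 2000 * d / κ ^ 3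
        ≤ w (y, τ) - w (x, t0) := by
  classical
  have hd0 : 0 < d := H.sig_pos.trans_le H.sig_le
  obtain ⟨t0, ht0, hs0⟩ := exists_time H hκ (by linarith)
  refine ⟨t0, ht0, ?_⟩
  obtain ⟨hAc, hAv⟩ := good_start H (κ := κ) hκ (by linarith) hs0 (by linarith [pow_pos hκ 3])
  set A0 := sq κ ∩ {x | |Fw lam w (x, t0) - f| ≤ 1} with hA0def
  set T := τ - t0 with hT
  have hT0 : 0 < T := by linarith [ht0.2]
  have hT1 : T ≤ 29 / 100 := by linarith [ht0.1]
  set e := Real.exp ((A + 8) / sig) with he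
  have he0 : 0 < e := Real.exp_pos _
  set ε := min d (d / e) with hε
  have hε0 : 0 < ε := lt_min hd0 (by positivity)
  have hεd : ε ≤ d := min_le_left _ _
  have hεe : e * ε ≤ d := by
    have := mul_le_mul_of_nonneg_left (min_le_right d (d / e)) he0.le
    rwa [mul_div_cancel₀ _ he0.ne'] at this
  obtain ⟨h1, hh1, hstep⟩ := step H hε0
  obtain ⟨h2, hh2, hR⟩ := riemann_le (continuous_slice (continuous_rho H.smooth lam sig)) hε0
  obtain ⟨n, hn⟩ := exists_nat_gt (T / min h1 h2)
  have hn0 : (0 : ℝ) < n := lt_trans (by positivity) hn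
  set D : Flow := ⟨T / n, t0⟩ with hD
  have hnh : (n : ℝ) * D.h = T := by simp [hD]; field_simp
  have hhle : D.h ≤ min h1 h2 := by
    simp only [hD]
    rw [div_le_iff₀ hn0]
    rw [div_lt_iff₀ (lt_min hh1 hh2)] at hn
    linarith
  have hh : 0 < D.h := by simp only [hD]; positivity
  have hA3 : A0 ⊆ sq 3 := fun x hx => mem_sq.2
    ⟨by linarith [(mem_sq.1 hx.1).1], by linarith [(mem_sq.1 hx.1).2]⟩
  have htk : ∀ k < n, -1 ≤ D.tk k ∧ D.tk k + D.h ≤ 1 := fun k hk => by
    have h0 : 0 ≤ (k : ℝ) * D.h := mul_nonneg (Nat.cast_nonneg k) hh.le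
    have h1 : ((k + 1 : ℕ) : ℝ) * D.h ≤ n * D.h :=
      mul_le_mul_of_nonneg_right (Nat.cast_le.2 hk) hh.le
    push_cast at h1
    simp only [Flow.tk]
    have e0 : D.t0 = t0 := rfl
    rw [e0]
    constructor <;> linarith [ht0.1, ht0.2]
  have G : D.Good H n A0 ε :=
    { h_pos := hh
      t0_ge := by show -1 ≤ t0; linarith [ht0.1]
      tn_le := by simp only [Flow.tk, hnh]; show t0 + T ≤ 1; linarith
      compact := hAc
      sub := hA3
      inj := fun k hk =>
        (hstep D.h ⟨hh, hhle.trans (min_le_left _ _)⟩ _ (htk k hk).1 (htk k hk).2).1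
      good := fun k hk ξ hξ =>
        (hstep D.h ⟨hh, hhle.trans (min_le_left _ _)⟩ _ (htk k hk).1 (htk k hk).2).2 ξ hξ }
  have hκ3 : κ ^ 3 ≤ 1 := pow_le_one₀ hκ.le (by linarith)
  have hnε : (n : ℝ) * D.h * ε ≤ 1 := by
    rw [hnh]
    exact mul_le_one₀ (by linarith) hε0.le (by linarith)
  have hmeas : ∀ k, k < n → MeasurableSet (D.live lam sig w A0 k) :=
    fun k hk => (Flow.isCompact_live G hk.le).measurableSet
  have hnε' := hnε
  have hA0s : A0 ⊆ {x | |Fw lam w (x, D.t0) - f| ≤ 1} := Set.inter_subset_right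
  have hRle := Flow.resSum_le G hε0.le hεe hnε hf hA0s hnh hT1
    (hR D.h t0 n hh (hhle.trans (min_le_right _ _)) (by linarith [ht0.1]) (by rw [hnh]; linarith))
  have hR0 := Flow.resSum_nonneg G
  have hgain := Flow.gainSum_ge G hε0.le hεd hnε hf hA0s
  rw [hnh] at hgain
  set R := D.resSum lam sig w A0 n with hRdef
  have hvolA : volume.real A0 ≤ 4 * κ ^ 2 := by
    rw [← volume_sq hκ.le]
    exact measureReal_mono Set.inter_subset_left (isCompact_sq κ).measure_lt_top.ne
  set η := 2000 * d / κ ^ 3 with hη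
  have hη0 : 0 < η := by positivity
  have hη2 : η ≤ 1 := by rw [hη, div_le_one (by positivity)]; linarith [pow_pos hκ 3]
  by_contra hcon
  push Not at hcon
  have hpt := fun x (hx : x ∈ A0) => Flow.point_bound G hx hx.1 hκ1 hnh hT0 hT1
    (show t0 + T = τ by linarith) hf hη0.le hη2 fun y hy => hcon x hx.1 y hy
  have hind : ∀ (g : ℕ → P2 → ℝ), (∀ k, k < n → IntegrableOn (g k) (D.live lam sig w A0 k) volume) →
      IntegrableOn (fun x => ∑ k ∈ Finset.range n, (D.live lam sig w A0 k).indicator (g k) x) A0 volume ∧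
      ∫ x in A0, ∑ k ∈ Finset.range n, (D.live lam sig w A0 k).indicator (g k) x
        = ∑ k ∈ Finset.range n, ∫ x in D.live lam sig w A0 k, g k x := by
    intro g hg
    have hi : ∀ k ∈ Finset.range n,
        IntegrableOn ((D.live lam sig w A0 k).indicator (g k)) A0 volume := fun k hk =>
      ((hg k (Finset.mem_range.1 hk)).integrable_indicator (hmeas k (Finset.mem_range.1 hk))).integrableOn
    refine ⟨integrable_finsetSum _ hi, ?_⟩
    rw [integral_finsetSum _ hi]
    refine Finset.sum_congr rfl fun k hk => ?_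
    rw [setIntegral_indicator (hmeas k (Finset.mem_range.1 hk)),
      Set.inter_eq_self_of_subset_right (Flow.live_sub k)]
  obtain ⟨iP, eP⟩ := hind (D.gainTerm lam w (f + 2 * d + ε)) fun k hk =>
    (continuousOn_const.mul ((Flow.contOn_comp G (continuous_Fw H.smooth lam) hk.le
      (Nat.le_succ k)).sub continuousOn_const)).integrableOn_compact (Flow.isCompact_live G hk.le)
  obtain ⟨iQ, eQ⟩ := hind (D.resTerm lam sig w) fun k hk =>
    (Flow.contOn_resTerm G hk.le le_rfl).integrableOn_compact (Flow.isCompact_live G hk.le)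
  have ic : IntegrableOn (fun _ : P2 => -η) A0 volume := integrableOn_const hAc.measure_lt_top.ne
  have iR : IntegrableOn (fun x => -η + 6 * ∑ k ∈ Finset.range n,
      (D.live lam sig w A0 k).indicator (D.resTerm lam sig w k) x) A0 volume :=
    ic.add (iQ.const_mul 6)
  have hmono := setIntegral_mono_on iP iR hAc.measurableSet hpt
  rw [eP, integral_add ic (iQ.const_mul 6), integral_const_mul, eQ, integral_const,
    measureReal_restrict_apply_univ, smul_eq_mul] at hmono
  exact numerics hκ hκ1 hd0 hεd hε0.le hT0.le hT1 hs0 hvolA hAv hR0 hRle hgain hmono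

end Vale.Agent.P080.C1.Improve
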