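import Vale.Agent.P080.C1.ImproveBasic
import Mathlib.Analysis.Calculus.MeanValue
import Mathlib.Analysis.Calculus.FDeriv.Mul
import Mathlib.Analysis.Calculus.Deriv.Inv
import Mathlib.Analysis.SpecialFunctions.Log.Basic
import Mathlib.LinearAlgebra.Determinant
import Mathlib.LinearAlgebra.Basis.Fin
import Mathlib.Topology.UniformSpace.HeineCantor

/-!
# Improvement of flatness: one Euler step along the gradient flow
-/

namespace Vale.Agent.P080.C1.Improve

open scoped ContDiff Topology NNReal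
open Set Filter Metric

variable {w : T3 → ℝ} {lam sig A f d : ℝ}

/-- lateral velocity of the streamlines, per unit of time -/
noncomputable def vel (lam : ℝ) (w : T3 → ℝ) (z : T3) : P2 :=
  ((vt lam w z)⁻¹ * d0 w z, (vt lam w z)⁻¹ * d1 w z)

/-- lateral derivative of the velocity -/
noncomputable def velD (lam : ℝ) (w : T3 → ℝ) (z : T3) : P2 →L[ℝ] P2 :=
  (fderiv ℝ (vel lam w) z).comp (ContinuousLinearMap.inl ℝ P2 ℝ)

/-- `1 + λ w_t` -/
lemma contDiff_vt (hw : ContDiff ℝ 3 w) (lam : ℝ) : ContDiff ℝ 2 (vt lam w) :=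
  contDiff_const.add (contDiff_const.mul (contDiff_d hw).2.2)

lemma vt_pos (H : Cfg w lam sig A f d) {z : T3} (hz : z ∈ box) : 1 / 2 ≤ vt lam w z := by
  have := abs_le.1 (H.lam_dt z hz)
  simp only [vt]; linarith

lemma contDiffAt_vel (hw : ContDiff ℝ 3 w) {z : T3} (hz : vt lam w z ≠ 0) :
    ContDiffAt ℝ 2 (vel lam w) z :=
  (((contDiff_vt hw lam).contDiffAt.inv hz).mul (contDiff_d hw).1.contDiffAt).prodMk
    (((contDiff_vt hw lam).contDiffAt.inv hz).mul (contDiff_d hw).2.1.contDiffAt)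

lemma continuousOn_velD (H : Cfg w lam sig A f d) :
    ContinuousOn (fderiv ℝ (vel lam w)) box := fun z hz =>
  (((contDiffAt_vel H.smooth (by linarith [vt_pos H hz] : vt lam w z ≠ 0)).fderiv_right
    (m := 1) (by norm_num)).continuousAt).continuousWithinAt

lemma continuousOn_vel (H : Cfg w lam sig A f d) : ContinuousOn (vel lam w) box := fun z hz =>
  (contDiffAt_vel H.smooth (by linarith [vt_pos H hz] :
    vt lam w z ≠ 0)).continuousAt.continuousWithinAt

/-- Derivative of the step map. -/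
lemma hasFDerivAt_step (H : Cfg w lam sig A f d) (h t : ℝ) {ξ : P2} (hz : (ξ, t) ∈ box) :
    HasFDerivAt (fun x : P2 => x + h • vel lam w (x, t))
      (ContinuousLinearMap.id ℝ P2 + h • velD lam w (ξ, t)) ξ := by
  have hd := ((contDiffAt_vel H.smooth (by linarith [vt_pos H hz] :
    vt lam w (ξ, t) ≠ 0)).differentiableAt (by norm_num)).hasFDerivAt
  exact HasFDerivAt.add (hasFDerivAt_id ξ) (HasFDerivAt.const_smul (h := HasFDerivAt.comp (f := fun x : P2 => (x, t)) ξ hd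
    ((hasFDerivAt_id ξ).prodMk (hasFDerivAt_const t ξ))) h)

lemma det_two (L : P2 →L[ℝ] P2) :
    L.det = (L (1, 0)).1 * (L (0, 1)).2 - (L (0, 1)).1 * (L (1, 0)).2 := by
  rw [ContinuousLinearMap.det, ← LinearMap.det_toMatrix (Module.Basis.finTwoProd ℝ),
    Matrix.det_fin_two]
  simp [LinearMap.toMatrix_apply]

lemma velD_trace (H : Cfg w lam sig A f d) {z : T3} (hz : z ∈ box) :
    (velD lam w z (1, 0)).1 + (velD lam w z (0, 1)).2
      = (d0 (d0 w) z + d1 (d1 w) z) / vt lam w z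
        - lam * (d0 w z * d0 (dt w) z + d1 w z * d1 (dt w) z) / vt lam w z ^ 2 := by
  have hv : vt lam w z ≠ 0 := by linarith [vt_pos H hz]
  have hd := ((contDiffAt_vel H.smooth hv).differentiableAt (by norm_num)).hasFDerivAt
  obtain ⟨h0, h1, h2⟩ := contDiff_d H.smooth
  have hvt : HasFDerivAt (vt lam w) (lam • fderiv ℝ (dt w) z) z := by
    have := (((h2.differentiable (by norm_num)) z).hasFDerivAt.const_mul lam).const_add (1 : ℝ)
    exact this
  have hi := (hasDerivAt_inv hv).comp_hasFDerivAt z hvt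
  have e0 : HasFDerivAt (fun y => (vt lam w y)⁻¹ * d0 w y) _ z :=
    hi.mul ((h0.differentiable (by norm_num)) z).hasFDerivAt
  have e1 : HasFDerivAt (fun y => (vt lam w y)⁻¹ * d1 w y) _ z :=
    hi.mul ((h1.differentiable (by norm_num)) z).hasFDerivAt
  have hu : HasFDerivAt (vel lam w) _ z := e0.prodMk e1
  rw [velD, hd.unique hu]
  simp [d0, d1, Function.comp]
  field_simp
  ring

/-- Uniform first order Taylor estimate. -/
lemma taylor1 {g : T3 → ℝ} (hg : ContDiff ℝ 1 g) {ε : ℝ} (hε : 0 < ε) (M : ℝ) :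
    ∃ h0 > 0, ∀ h ∈ Ioc 0 h0, ∀ z ∈ closedBall (0 : T3) 5, ∀ v : T3, ‖v‖ ≤ M →
      |g (z + h • v) - g z - h * fderiv ℝ g z v| ≤ ε * h := by
  set M' := max M 1 with hM
  have hM0 : 0 < M' := lt_max_of_lt_right one_pos
  obtain ⟨δ, hδ, hδ'⟩ := Metric.uniformContinuousOn_iff.1
    ((isCompact_closedBall (0 : T3) 6).uniformContinuousOn_of_continuous
      (hg.continuous_fderiv one_ne_zero).continuousOn) (ε / M') (by positivity)
  refine ⟨min 1 (δ / 2) / M', by positivity, fun h hh z hz v hv => ?_⟩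
  have hhv : ‖h • v‖ ≤ min 1 (δ / 2) := by
    rw [norm_smul, Real.norm_eq_abs, abs_of_pos hh.1]
    calc h * ‖v‖ ≤ min 1 (δ / 2) / M' * M' :=
          mul_le_mul hh.2 (hv.trans (le_max_left _ _)) (norm_nonneg _) (by positivity)
      _ = _ := div_mul_cancel₀ _ hM0.ne'
  rw [mem_closedBall, dist_zero_right] at hz
  have key := (convex_closedBall z (min 1 (δ / 2))).norm_image_sub_le_of_norm_fderiv_le'
    (f := g) (φ := fderiv ℝ g z) (C := ε / M')
    (fun x _ => (hg.differentiable one_ne_zero) x) (fun x hx => ?_)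
    (mem_closedBall_self (by positivity)) (y := z + h • v)
    (by rw [mem_closedBall, dist_eq_norm, add_sub_cancel_left]; exact hhv)
  · rw [add_sub_cancel_left, map_smul, smul_eq_mul, Real.norm_eq_abs] at key
    refine key.trans ?_
    rw [norm_smul, Real.norm_eq_abs, abs_of_pos hh.1]
    calc ε / M' * (h * ‖v‖) ≤ ε / M' * (h * M') :=
          mul_le_mul_of_nonneg_left (mul_le_mul_of_nonneg_left (hv.trans (le_max_left _ _)) hh.1.le)
            (by positivity)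
      _ = ε * h := by field_simp
  · rw [mem_closedBall, dist_eq_norm] at hx
    have h6 : x ∈ closedBall (0 : T3) 6 := by
      rw [mem_closedBall, dist_zero_right]
      linarith [norm_le_norm_add_norm_sub' x z, min_le_left 1 (δ / 2)]
    have h6' : z ∈ closedBall (0 : T3) 6 := by
      rw [mem_closedBall, dist_zero_right]; linarith
    have := hδ' x h6 z h6' (by rw [dist_eq_norm]; linarith [min_le_right 1 (δ / 2)])
    rw [dist_eq_norm] at this
    exact this.le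

lemma mem_ball5 {z : T3} (hz : z ∈ box) : z ∈ closedBall (0 : T3) 5 := by
  rw [mem_closedBall, dist_zero_right, Prod.norm_def, Prod.norm_def]
  obtain ⟨h1, h2⟩ := hz
  rw [mem_sq] at h1
  simp only [Real.norm_eq_abs]
  refine max_le (max_le (by linarith [h1.1]) (by linarith [h1.2])) ?_
  rw [abs_le]; constructor <;> linarith [h2.1, h2.2]

/-- The growth of `w` along a streamline. -/
lemma gain_rate {l a p q d : ℝ} (hl : 0 ≤ l) (hv : 1 / 2 ≤ 1 + l * a)
    (hs : l * a ^ 2 * (1 + l * (p ^ 2 + q ^ 2)) ≤ d) :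
    a + l * a ^ 2 / 2 + (p ^ 2 + q ^ 2) / 2
      + (((1 + l * a)⁻¹ * p) ^ 2 + ((1 + l * a)⁻¹ * q) ^ 2) / 2 - 2 * d
      ≤ (1 + l * a)⁻¹ * p * p + (1 + l * a)⁻¹ * q * q + a := by
  have i1 : (1 + l * a)⁻¹ ≤ 2 := by rw [inv_le_comm₀ (by linarith) two_pos]; linarith
  have hie : (1 + l * a)⁻¹ * (1 + l * a) = 1 := inv_mul_cancel₀ (by linarith)
  set i := (1 + l * a)⁻¹ with hi
  have i0 : 0 ≤ i := by rw [hi]; exact inv_nonneg.2 (by linarith)
  have id1 : i * p * p + i * q * q + a - (a + l * a ^ 2 / 2 + (p ^ 2 + q ^ 2) / 2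
      + ((i * p) ^ 2 + (i * q) ^ 2) / 2)
      = -(l * a ^ 2 / 2) * (1 + l * (p ^ 2 + q ^ 2) * i ^ 2) := by
    linear_combination ((p ^ 2 + q ^ 2) / 2 * (1 - i + i * l * a)) * hie
  have i2 : i ^ 2 ≤ 4 := by nlinarith
  have h4 : 1 + l * (p ^ 2 + q ^ 2) * i ^ 2 ≤ 4 * (1 + l * (p ^ 2 + q ^ 2)) := by
    nlinarith [mul_le_mul_of_nonneg_left i2 (by positivity : 0 ≤ l * (p ^ 2 + q ^ 2))]
  nlinarith [mul_le_mul_of_nonneg_left h4 (by positivity : 0 ≤ l * a ^ 2)]

/-- Lower bound for the logarithm of the Jacobian of a step. -/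
lemma log_jac {h S δ a r K B G ε1 : ℝ} (hh : 0 < h) (hS : |S| ≤ 2 * B) (hδ : |δ| ≤ 2 * B ^ 2)
    (ha : |a| ≤ G) (hr : |r| ≤ ε1 * h) (hr' : |r| ≤ G * h) (hBK : B ≤ K) (hB2K : B ^ 2 ≤ K)
    (hGK : G ≤ K) (hK1 : 1 ≤ K) (hhK : h * K ≤ 1 / 8)
    (hhE : h * (16 * K ^ 2 * (1 + K) + 1) ≤ ε1) :
    0 < 1 + h * S + h ^ 2 * δ ∧ 0 < 1 + h * a + r ∧
      h * (S + a) - 35 * ε1 * h ≤ Real.log ((1 + h * S + h ^ 2 * δ) * (1 + h * a + r)) := by
  have hK0 : 0 < K := by linarith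
  have hh1 : h ≤ 1 / 2 := by nlinarith
  have b1 : |h * S + h ^ 2 * δ| ≤ 3 * K * h := by
    refine (abs_add_le _ _).trans ?_
    rw [abs_mul, abs_mul, abs_of_pos hh, abs_of_pos (pow_pos hh 2)]
    nlinarith [mul_le_mul_of_nonneg_left hS hh.le, mul_le_mul_of_nonneg_left hδ (sq_nonneg h),
      mul_le_mul_of_nonneg_left hBK hh.le, mul_le_mul_of_nonneg_left hB2K (sq_nonneg h),
      mul_le_mul_of_nonneg_right hh1 (mul_pos hh hK0).le]
  have b2 : |h * a + r| ≤ 2 * K * h := by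
    refine (abs_add_le _ _).trans ?_
    rw [abs_mul, abs_of_pos hh]
    nlinarith [mul_le_mul_of_nonneg_left ha hh.le, mul_le_mul_of_nonneg_right hGK hh.le, hr']
  have hd : 0 < 1 + h * S + h ^ 2 * δ := by have := (abs_le.1 b1).1; nlinarith
  have hv : 0 < 1 + h * a + r := by have := (abs_le.1 b2).1; nlinarith
  refine ⟨hd, hv, ?_⟩
  set J := (1 + h * S + h ^ 2 * δ) * (1 + h * a + r) with hJ
  have hJ1 : J - 1 = h * (S + a) + (h ^ 2 * δ + r + (h * S + h ^ 2 * δ) * (h * a + r)) := by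
    rw [hJ]; ring
  have hprod : |(h * S + h ^ 2 * δ) * (h * a + r)| ≤ 6 * K ^ 2 * h ^ 2 := by
    rw [abs_mul]
    calc |h * S + h ^ 2 * δ| * |h * a + r| ≤ (3 * K * h) * (2 * K * h) :=
          mul_le_mul b1 b2 (abs_nonneg _) (by positivity)
      _ = _ := by ring
  have hη : |h ^ 2 * δ + r + (h * S + h ^ 2 * δ) * (h * a + r)|
      ≤ ε1 * h + 8 * K ^ 2 * h ^ 2 := by
    refine (abs_add_three _ _ _).trans ?_
    rw [abs_mul (h ^ 2), abs_of_pos (pow_pos hh 2)]
    nlinarith [mul_le_mul_of_nonneg_left (hδ.trans (by linarith : 2 * B ^ 2 ≤ 2 * K))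
      (sq_nonneg h), mul_le_mul_of_nonneg_left hK1 (mul_nonneg (sq_nonneg h) hK0.le)]
  have hlow : |J - 1| ≤ 6 * K * h := by
    have e : J - 1 = (h * S + h ^ 2 * δ) + (h * a + r)
        + (h * S + h ^ 2 * δ) * (h * a + r) := by rw [hJ]; ring
    rw [e]
    refine (abs_add_three _ _ _).trans ?_
    nlinarith [mul_le_mul_of_nonneg_left hhK (mul_pos hh hK0).le]
  have hJh : 1 / 4 ≤ J := by have := (abs_le.1 hlow).1; nlinarith
  have h1 := Real.one_sub_inv_le_log_of_pos (by linarith : 0 < J)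
  have h2 : 1 - J⁻¹ = (J - 1) - (J - 1) ^ 2 / J := by
    have : J ≠ 0 := by linarith
    field_simp; ring
  have h3 : (J - 1) ^ 2 / J ≤ 144 * K ^ 2 * h ^ 2 := by
    rw [div_le_iff₀ (by linarith), ← sq_abs]
    have := pow_le_pow_left₀ (abs_nonneg _) hlow 2
    nlinarith [mul_le_mul_of_nonneg_left hJh (by positivity : 0 ≤ 144 * K ^ 2 * h ^ 2)]
  have h4 : 152 * K ^ 2 * h ^ 2 ≤ 34 * ε1 * h := by
    have h5 : 16 * K ^ 2 * h ≤ ε1 := by linarith [mul_pos hh (pow_pos hK0 3)]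
    have h6 := mul_le_mul_of_nonneg_right h5 hh.le
    linarith [mul_pos hh hh, mul_nonneg (mul_nonneg hh.le hh.le) (sq_nonneg K)]
  have := (abs_le.1 hη).1
  linarith

/-- Determinant of a step. -/
lemma det_est (h : ℝ) {L : P2 →L[ℝ] P2} {B : ℝ} (hLb : ‖L‖ ≤ B) :
    (ContinuousLinearMap.id ℝ P2 + h • L).det
        = 1 + h * ((L (1, 0)).1 + (L (0, 1)).2) + h ^ 2 * L.det ∧
      |L.det| ≤ 2 * B ^ 2 ∧ |(L (1, 0)).1 + (L (0, 1)).2| ≤ 2 * B := by
  have hB0 : 0 ≤ B := (norm_nonneg L).trans hLb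
  have hc : ∀ x : P2, ‖x‖ ≤ 1 → |(L x).1| ≤ B ∧ |(L x).2| ≤ B := fun x hx => by
    have h1 : ‖L x‖ ≤ B := (L.le_opNorm x).trans
      ((mul_le_mul hLb hx (norm_nonneg _) hB0).trans_eq (mul_one B))
    exact ⟨(Real.norm_eq_abs _ ▸ norm_fst_le (L x)).trans h1,
      (Real.norm_eq_abs _ ▸ norm_snd_le (L x)).trans h1⟩
  obtain ⟨p1, p2⟩ := hc (1, 0) (by simp [Prod.norm_def])
  obtain ⟨p3, p4⟩ := hc (0, 1) (by simp [Prod.norm_def])
  refine ⟨?_, ?_, (abs_add_le _ _).trans (by linarith)⟩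
  · rw [det_two, det_two]; simp; ring
  · rw [det_two]
    refine (abs_sub _ _).trans ?_
    rw [abs_mul, abs_mul]
    linarith [mul_le_mul p1 p4 (abs_nonneg _) hB0, mul_le_mul p3 p2 (abs_nonneg _) hB0, sq B]

/-- Bounds for the change of the vertical velocity. -/
lemma ratio_est {l h v D R Dw M ε1 ε2 : ℝ} (hl : 0 < l) (hh : 0 < h) (hv : 1 / 2 ≤ v)
    (hD : |D| ≤ Dw * M) (hR : |R| ≤ ε2 * h) (hDw : 0 ≤ Dw) (hM : 0 ≤ M)
    (he : ε2 * (1 + 2 * l) ≤ ε1) (he1 : ε2 ≤ 1) :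
    |l * D / v| ≤ 1 + l * (Dw * M + 1) * 2 ∧ |l * R / v| ≤ ε1 * h ∧
      |l * R / v| ≤ (1 + l * (Dw * M + 1) * 2) * h := by
  have hv0 : 0 < v := by linarith
  have key : ∀ {X c : ℝ}, |X| ≤ c → |l * X / v| ≤ 2 * l * c := fun {X c} hX => by
    rw [abs_div, abs_mul, abs_of_pos hv0, abs_of_pos hl, div_le_iff₀ hv0]
    have hc : 0 ≤ l * c := mul_nonneg hl.le ((abs_nonneg X).trans hX)
    nlinarith [mul_le_mul_of_nonneg_left hX hl.le, mul_le_mul_of_nonneg_left hv hc]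
  have e2 : 0 ≤ ε2 := nonneg_of_mul_nonneg_left ((abs_nonneg R).trans hR) hh
  refine ⟨(key hD).trans (by linarith), (key hR).trans ?_, (key hR).trans ?_⟩
  · linarith [mul_le_mul_of_nonneg_right he hh.le, mul_nonneg e2 hh.le]
  · linarith [mul_le_mul_of_nonneg_left he1 (mul_pos hl hh).le,
      mul_nonneg (mul_pos hl hh).le (mul_nonneg hDw hM)]

/-- The trace of the derivative of the velocity and the derivative of `F` along the flow. -/
lemma flow_identities (H : Cfg w lam sig A f d) {z : T3} (hz : z ∈ box) :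
    (velD lam w z (1, 0)).1 + (velD lam w z (0, 1)).2
        + lam * fderiv ℝ (dt w) z (vel lam w z, 1) / vt lam w z
      = (d0 (d0 w) z + d1 (d1 w) z + lam * dt (dt w) z) / vt lam w z ∧
    fderiv ℝ (Fw lam w) z (vel lam w z, 1)
      = (rho lam sig w z - sig * (d0 (d0 w) z + d1 (d1 w) z + lam * dt (dt w) z))
          / vt lam w z := by
  have hv : vt lam w z ≠ 0 := by linarith [vt_pos H hz]
  have hfd : ∀ g : T3 → ℝ, fderiv ℝ g z (vel lam w z, 1) = (vt lam w z)⁻¹ * d0 w z * d0 g z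
      + (vt lam w z)⁻¹ * d1 w z * d1 g z + dt g z := by
    intro g
    have e := fderiv_eq g z (vel lam w z).1 (vel lam w z).2 1
    rw [one_mul] at e
    exact e
  constructor
  · rw [velD_trace H hz, hfd]
    field_simp
    ring
  · rw [hfd, rho, eq_div_iff hv]
    field_simp
    ring

lemma div_lb {v : ℝ} (hv : 1 / 2 ≤ v) (r : ℝ) : -(2 * |r|) ≤ r / v := by
  rw [le_div_iff₀ (by linarith)]
  linarith [neg_abs_le r, mul_le_mul_of_nonneg_left hv (abs_nonneg r)]

/-- the modified Jacobian of a step -/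
noncomputable def jac (lam : ℝ) (w : T3 → ℝ) (h t : ℝ) (ξ : P2) : ℝ :=
  (ContinuousLinearMap.id ℝ P2 + h • velD lam w (ξ, t)).det *
    (vt lam w (ξ + h • vel lam w (ξ, t), t + h) / vt lam w (ξ, t))

/-- The step map is injective. -/
lemma step_inj (H : Cfg w lam sig A f d) {h t B : ℝ} (hh : 0 < h)
    (hbox : ∀ ξ ∈ sq 3, (ξ, t) ∈ box) (hVb : ∀ ξ ∈ sq 3, ‖velD lam w (ξ, t)‖ ≤ B)
    (hB : h * B ≤ 1 / 2) : InjOn (fun x : P2 => x + h • vel lam w (x, t)) (sq 3) := by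
  intro x hx y hy hxy
  have hlip := (show Convex ℝ (sq 3) from (convex_Icc (-3) 3).prod (convex_Icc (-3) 3))
    |>.norm_image_sub_le_of_norm_hasFDerivWithin_le
      (f := fun x : P2 => h • vel lam w (x, t)) (f' := fun x => h • velD lam w (x, t))
      (C := h * B) (fun z hz => ?_) (fun z hz => ?_) hy hx
  · have e : h • vel lam w (x, t) - h • vel lam w (y, t) = y - x := by
      simp only at hxy
      linear_combination (norm := module) hxy
    rw [e, norm_sub_rev] at hlip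
    have : ‖x - y‖ ≤ 0 := by
      linarith [mul_le_mul_of_nonneg_right hB (norm_nonneg (x - y))]
    exact sub_eq_zero.1 (norm_le_zero_iff.1 this)
  · have h' := (hasFDerivAt_step H h t (hbox z hz)).sub (hasFDerivAt_id z)
    rw [add_sub_cancel_left, show ((fun x : P2 => x + h • vel lam w (x, t)) - id)
      = fun x => h • vel lam w (x, t) from funext fun x => by simp] at h'
    exact h'.hasFDerivWithinAt
  · rw [norm_smul, Real.norm_eq_abs, abs_of_pos hh]
    exact mul_le_mul_of_nonneg_left (hVb z hz) hh.le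

/-- The derivative of `w` along the flow. -/
lemma rate_est (H : Cfg w lam sig A f d) {z : T3} (hz : z ∈ box) :
    Fw lam w z + sqn (vel lam w z) / 2 - 2 * d ≤ fderiv ℝ w z (vel lam w z, 1) := by
  have e := fderiv_eq w z (vel lam w z).1 (vel lam w z).2 1
  rw [one_mul] at e
  have := gain_rate (p := d0 w z) (q := d1 w z) H.lam_pos.le (vt_pos H hz) (H.small z hz)
  refine le_of_le_of_eq ?_ e.symm
  simpa only [vel, Fw, sqn, vt] using this

/-- One step of the flow, uniformly for small steps. -/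
theorem step (H : Cfg w lam sig A f d) {ε : ℝ} (hε : 0 < ε) :
    ∃ h0 > 0, ∀ h ∈ Ioc 0 h0, ∀ t : ℝ, -1 ≤ t → t + h ≤ 1 →
      InjOn (fun x : P2 => x + h • vel lam w (x, t)) (sq 3) ∧
      ∀ ξ ∈ sq 3, ξ + h • vel lam w (ξ, t) ∈ sq 4 ∧
        h * (Fw lam w (ξ, t) + sqn (vel lam w (ξ, t)) / 2 - 2 * d - ε)
          ≤ w (ξ + h • vel lam w (ξ, t), t + h) - w (ξ, t) ∧
        0 < jac lam w h t ξ ∧ 0 < (ContinuousLinearMap.id ℝ P2 + h • velD lam w (ξ, t)).det ∧
        -(h * (2 * |rho lam sig w (ξ, t)| + ε)) ≤ Fw lam w (ξ + h • vel lam w (ξ, t), t + h)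
          - Fw lam w (ξ, t) + sig * Real.log (jac lam w h t ξ) := by
  obtain ⟨hd0, hd1, hd2⟩ := contDiff_d H.smooth
  have hFc := contDiff_Fw H.smooth lam
  obtain ⟨M, hM⟩ := isCompact_box.exists_bound_of_continuousOn (continuousOn_vel H)
  obtain ⟨Z, hZ⟩ := isCompact_box.exists_bound_of_continuousOn
    (continuousOn_velD H)
  set Mv := max M 1 with hMv
  set ε1 := ε / (280 * (1 + sig)) with hε1
  have hs := H.sig_pos
  have hl := H.lam_pos
  have hε1' : 0 < ε1 := by positivity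
  set ε2 := min 1 (ε1 / (1 + 2 * lam)) with hε2
  have hε2' : 0 < ε2 := by positivity
  obtain ⟨a1, ha1, ta⟩ := taylor1 (H.smooth.of_le (by norm_num)) (ε := ε) hε Mv
  obtain ⟨a2, ha2, tb⟩ := taylor1 (hFc.of_le one_le_two) (ε := ε / 8) (by positivity) Mv
  obtain ⟨a3, ha3, tc⟩ := taylor1 (hd2.of_le one_le_two) (ε := ε2) hε2' Mv
  obtain ⟨Dw, hDw⟩ := isCompact_box.exists_bound_of_continuousOn
    (hd2.continuous_fderiv (by norm_num)).continuousOn
  set B := 1 + |Z| with hB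
  have hB0 : 0 < B := by positivity
  set G := 1 + |lam| * (|Dw| * Mv + 1) * 2 with hG
  have hG0 : 0 < G := by positivity
  set K := B + B ^ 2 + G with hK
  have hK0 : 0 < K := by positivity
  -- smallness of the step
  refine ⟨min (min a1 (min a2 a3)) (min (1 / (8 * K + 8 * Mv))
    (ε1 / (16 * K ^ 2 * (1 + K) + 1))), by positivity, fun h hh t ht0 ht1 => ?_⟩
  have hh0 : 0 < h := hh.1
  have hha : h ≤ a1 ∧ h ≤ a2 ∧ h ≤ a3 := by
    have := hh.2
    simp only [le_min_iff] at this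
    exact ⟨this.1.1, this.1.2.1, this.1.2.2⟩
  have hhK : h * (8 * K + 8 * Mv) ≤ 1 := by
    have := hh.2; simp only [le_min_iff] at this
    exact (le_div_iff₀ (by positivity)).1 this.2.1
  have hhE : h * (16 * K ^ 2 * (1 + K) + 1) ≤ ε1 := by
    have := hh.2; simp only [le_min_iff] at this
    exact (le_div_iff₀ (by positivity)).1 this.2.2
  have hMv1 : 1 ≤ Mv := le_max_right _ _
  have hBK : B ≤ K := by linarith [sq_nonneg B]
  have hB2K : B ^ 2 ≤ K := by linarith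
  have hGK : G ≤ K := by linarith [sq_nonneg B]
  have hK1 : 1 ≤ K := by linarith [sq_nonneg B, abs_nonneg Z]
  have hKh : h * K ≤ 1 / 8 := by linarith [mul_nonneg hh0.le (zero_le_one.trans hMv1)]
  have hhM : h * Mv ≤ 1 := by linarith [mul_nonneg hh0.le hK0.le]
  have hbox : ∀ ξ ∈ sq 3, (ξ, t) ∈ box := fun ξ hξ =>
    ⟨mem_sq.2 ⟨by linarith [(mem_sq.1 hξ).1], by linarith [(mem_sq.1 hξ).2]⟩, ht0, by linarith⟩
  have hVb : ∀ ξ ∈ sq 3, ‖velD lam w (ξ, t)‖ ≤ B := fun ξ hξ => by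
    refine (ContinuousLinearMap.opNorm_comp_le _ _).trans ?_
    have h1 : ‖ContinuousLinearMap.inl ℝ P2 ℝ‖ ≤ 1 :=
      ContinuousLinearMap.opNorm_le_bound _ zero_le_one fun x => by simp [Prod.norm_def]
    calc ‖fderiv ℝ (vel lam w) (ξ, t)‖ * ‖ContinuousLinearMap.inl ℝ P2 ℝ‖
        ≤ |Z| * 1 := mul_le_mul ((hZ _ (hbox ξ hξ)).trans (le_abs_self Z)) h1 (norm_nonneg _)
          (abs_nonneg _)
      _ ≤ B := by linarith
  refine ⟨step_inj H hh0 hbox hVb (by linarith [mul_le_mul_of_nonneg_left hBK hh0.le]), ?_⟩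
  intro ξ hξ
  have hz := hbox ξ hξ
  set z : T3 := (ξ, t) with hzdef
  set V := vel lam w z with hV
  have hVn : ‖V‖ ≤ Mv := (hM z hz).trans (le_max_left _ _)
  set v : T3 := (V, 1) with hvdef
  have hvn : ‖v‖ ≤ Mv := by
    rw [hvdef, Prod.norm_def, Real.norm_eq_abs, abs_one]; exact max_le hVn hMv1
  have hend : ((ξ + h • V, t + h) : T3) = z + h • v := by simp [hzdef, hvdef]
  have hz5 := mem_ball5 hz
  have hvt := vt_pos H hz
  have hvt0 : 0 < vt lam w z := by linarith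
  have hfd : ∀ g : T3 → ℝ, fderiv ℝ g z v = V.1 * d0 g z + V.2 * d1 g z + dt g z := by
    intro g
    have e := fderiv_eq g z V.1 V.2 1
    rw [one_mul] at e
    exact e
  refine ⟨?_, ?_, ?_⟩
  · have h1 : ‖h • V‖ ≤ 1 := by
      rw [norm_smul, Real.norm_eq_abs, abs_of_pos hh0]
      linarith [mul_le_mul_of_nonneg_left hVn hh0.le]
    have h2 := (norm_fst_le (h • V)).trans h1
    have h3 := (norm_snd_le (h • V)).trans h1
    rw [Real.norm_eq_abs] at h2 h3
    exact mem_sq.2 ⟨(abs_add_le _ _).trans (by linarith [(mem_sq.1 hξ).1]),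
      (abs_add_le _ _).trans (by linarith [(mem_sq.1 hξ).2])⟩
  · have hT := abs_le.1 (ta h ⟨hh0, hha.1⟩ z hz5 v hvn)
    rw [hend, ← sub_nonneg]
    have hrate : Fw lam w z + sqn V / 2 - 2 * d ≤ fderiv ℝ w z v := rate_est H hz
    linarith [mul_le_mul_of_nonneg_left hrate hh0.le]
  -- the Jacobian
  set L := velD lam w z with hL
  set Δ := d0 (d0 w) z + d1 (d1 w) z + lam * dt (dt w) z with hΔ
  obtain ⟨hdet, hdetL, hS⟩ := det_est h (hVb ξ hξ) (L := L)
  set S := (L (1, 0)).1 + (L (0, 1)).2 with hSdef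
  have hTt := tc h ⟨hh0, hha.2.2⟩ z hz5 v hvn
  set D := fderiv ℝ (dt w) z v with hD
  set R := dt w (z + h • v) - dt w z - h * D with hR
  have hratio : vt lam w (z + h • v) / vt lam w z
      = 1 + h * (lam * D / vt lam w z) + lam * R / vt lam w z := by
    rw [eq_comm, eq_div_iff hvt0.ne']
    field_simp
    simp only [vt, hR]; ring
  have hDb : |D| ≤ |Dw| * Mv := by
    rw [← Real.norm_eq_abs, hD]
    exact ((fderiv ℝ (dt w) z).le_opNorm v).trans
      (mul_le_mul ((hDw z hz).trans (le_abs_self _)) hvn (norm_nonneg _) (abs_nonneg _))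
  have hinv : (vt lam w z)⁻¹ ≤ 2 := by rw [inv_le_comm₀ hvt0 two_pos]; linarith
  set a := lam * D / vt lam w z with ha
  set r := lam * R / vt lam w z with hr
  obtain ⟨hab, hr1, hr2⟩ := ratio_est (Dw := |Dw|) (ε1 := ε1) hl hh0 hvt hDb hTt
    (abs_nonneg _) (zero_le_one.trans hMv1) ((le_div_iff₀ (by positivity)).1 (min_le_right _ _))
    (min_le_left _ _)
  rw [← ha] at hab
  rw [← hr] at hr1 hr2
  have hGe : G = 1 + lam * (|Dw| * Mv + 1) * 2 := by rw [hG, abs_of_pos hl]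
  rw [← hGe] at hab hr2
  obtain ⟨hSa, hrho⟩ := flow_identities H hz
  rw [← hV, ← hvdef, ← hL, ← hD, ← hSdef, ← ha, ← hΔ] at hSa
  rw [← hV, ← hvdef, ← hΔ] at hrho
  set J := jac lam w h t ξ with hJdef
  have hJ : J = (1 + h * S + h ^ 2 * L.det) * (1 + h * a + r) := by
    rw [hJdef, jac, ← hzdef, ← hV, ← hL, hdet, hend, hratio]
  obtain ⟨hdpos, hrpos, hlog⟩ := log_jac (δ := L.det) hh0 hS hdetL hab hr1 hr2
    hBK hB2K hGK hK1 hKh hhE
  refine ⟨by rw [hJ]; positivity, by rw [hdet]; exact hdpos, ?_⟩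
  rw [hSa, ← hJ] at hlog
  have hTF := (abs_le.1 (tb h ⟨hh0, hha.2.1⟩ z hz5 v hvn)).1
  rw [hend]
  rw [hrho] at hTF
  have hrb2 : -(2 * |rho lam sig w z|) ≤ rho lam sig w z / vt lam w z := div_lb hvt _
  have hsε : 35 * (sig * ε1) ≤ ε / 8 := by
    have h1 : sig / (1 + sig) ≤ 1 := (div_le_one (by linarith)).2 (by linarith)
    calc 35 * (sig * ε1) = ε / 8 * (sig / (1 + sig)) := by rw [hε1]; field_simp; ring
      _ ≤ ε / 8 * 1 := mul_le_mul_of_nonneg_left h1 (by positivity)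
      _ = ε / 8 := mul_one _
  have := mul_le_mul_of_nonneg_left hlog hs.le
  rw [sub_div] at hTF
  have e : sig * Δ / vt lam w z = sig * (Δ / vt lam w z) := by ring
  rw [e] at hTF
  linarith [mul_le_mul_of_nonneg_left hrb2 hh0.le, mul_le_mul_of_nonneg_right hsε hh0.le,
    mul_pos hε hh0]

end Vale.Agent.P080.C1.Improve
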