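import Vale.Agent.P080.C1.Assemble
import Vale.Agent.P080.C1.Final
import Vale.Agent.P080.C1.Holder.Estimate

/-!
# Continuous differentiability in three dimensions, from the modules
-/

namespace Vale.Agent.P080.C1

/-- infinity-harmonic functions on open subsets of three-space are continuously differentiable,
given the modules -/
theorem contDiffOn_of_modules (hcomp : CompHyp) (hC : CompareOut) (hB : BernsteinOut)
    (hE : EnergyOut) (hR : GoodOut) {u : E3 → ℝ} {U : Set E3} (hU : IsOpen U) (hu : IH u U) :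
    ContDiffOn ℝ 1 u U :=
  contDiffOn_of_slope (slope_bound (stepHyp_of_modules hC hB hE hR) hcomp) hU hu

open Metric in
/-- the interior Hölder estimate for the gradient in three dimensions, given the modules -/
theorem gradient_estimate_of_modules (hcomp : CompHyp) (hC : CompareOut) (hB : BernsteinOut)
    (hE : EnergyOut) (hR : GoodOut) :
    ∃ α C : ℝ, 0 < α ∧ 0 < C ∧ ∀ (u : E3 → ℝ) (x0 : E3) (R M : ℝ), 0 < R → IH u (ball x0 R) →
      (∀ x ∈ ball x0 R, ∀ y ∈ ball x0 R, u x - u y ≤ M) →
      ∀ x ∈ ball x0 (R / 2), DifferentiableAt ℝ u x ∧ ‖fderiv ℝ u x‖ ≤ C * M / R ∧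
        ∀ y ∈ ball x0 (R / 2),
          ‖fderiv ℝ u x - fderiv ℝ u y‖ ≤ C * M / R * (dist x y / R) ^ α :=
  Holder.gradient_estimate (slope_bound (stepHyp_of_modules hC hB hE hR) hcomp)

end Vale.Agent.P080.C1
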