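import Vale.Agent.P080.C1.Frame

/-!
# Gradient deficit bound for infinity-harmonic functions, by descent on the function itself

`StepHyp` is the improvement step supplied by the comparison solution and the good-scale lemma;
`CompHyp` is the comparison principle.
-/

namespace Vale.Agent.P080.C1

open scoped ContDiff Topology RealInnerProductSpace
open Set Filter Metric

/-- lateral width of configurations -/
def R0 : ℝ := 64

/-- the configuration cylinder of flatness `lam` -/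
def box (lam : ℝ) : Set E3 := {x | |x 2| ≤ 1 ∧ lat x ≤ R0 * Real.sqrt lam}

/-- `u` is infinity harmonic near the cylinder and `lam`-close there to the vertical coordinate -/
def Conf (lam : ℝ) (u : E3 → ℝ) : Prop :=
  ∃ U, IsOpen U ∧ IH u U ∧ box lam ⊆ U ∧ ∀ x ∈ box lam, |u x - x 2| ≤ lam

/-- the cylinder around `P` with axis `a`, half height `ρ`, lateral radius `r` -/
def ocyl (a P : E3) (ρ r : ℝ) : Set E3 :=
  {z | |⟪‖a‖⁻¹ • a, z - P⟫| ≤ ρ ∧
    ‖z - P - ⟪‖a‖⁻¹ • a, z - P⟫ • (‖a‖⁻¹ • a)‖ ≤ r}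

/-- One improvement step: at one of any finite family of points with equidistributed gauges, the
function is `lam/64`-flat on a cylinder of controlled height and slope. -/
def StepHyp : Prop :=
  ∃ A lam1 ρmin : ℝ, ∃ N : ℕ, 0 < A ∧ 0 < lam1 ∧ 0 < ρmin ∧ 0 < N ∧
    ∀ lam u, 0 < lam → lam ≤ lam1 → Conf lam u → ∀ P : Fin N → E3,
      (∀ i, gau lam (P i) = 1 / 8 + (i : ℝ) / (8 * N)) →
      ∃ (i : Fin N) (a : E3) (b ρ : ℝ), ρmin ≤ ρ ∧ 8 * ρ * (1 + 2 * A) ≤ 1 ∧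
        |a 2 - 1| ≤ A * lam ∧ lat a ≤ A * Real.sqrt lam ∧
        ∀ z ∈ ocyl a (P i) ρ (R0 * Real.sqrt (lam / 32) * ρ),
          z ∈ box lam ∧ |u z - (⟪a, z⟫ + b)| ≤ lam / 64 * ρ

/-- the comparison principle -/
def CompHyp : Prop :=
  ∀ (U S : Set E3) (f g : E3 → ℝ), IsOpen U → IsCompact S → S ⊆ U → IH f U → IH g U →
    (∀ x ∈ frontier S, f x ≤ g x) → ∀ x ∈ S, f x ≤ g x

/-- the slope bound at gauge scales at least `τ` -/
def SlopeAt (C0 lam0 τ : ℝ) : Prop :=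
  ∀ lam u, 0 < lam → lam ≤ lam0 → Conf lam u → ∀ x h : E3, gau lam x ≤ 1 / 8 →
    τ ≤ gau lam h → gau lam h ≤ 1 / 16 →
    |u (x + h) - u x - h 2| ≤ C0 * lam * |h 2| + Real.sqrt (C0 * lam) * lat h

lemma abs_le_gau (lam : ℝ) (x : E3) : |x 2| ≤ gau lam x := le_max_left _ _

lemma lat_le_gau {lam : ℝ} (hlam : 0 < lam) (x : E3) : lat x ≤ gau lam x * Real.sqrt lam :=
  (div_le_iff₀ (Real.sqrt_pos.2 hlam)).1 (le_max_right _ _)

lemma mem_box_of_gau {lam : ℝ} (hlam : 0 < lam) {x : E3} (hx : gau lam x ≤ 1) : x ∈ box lam := by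
  refine ⟨(abs_le_gau lam x).trans hx, (lat_le_gau hlam x).trans ?_⟩
  exact mul_le_mul_of_nonneg_right (hx.trans (by norm_num [R0])) (Real.sqrt_nonneg _)

lemma gau_smul (lam c : ℝ) (x : E3) : gau lam (c • x) = |c| * gau lam x := by
  rw [gau, gau, lat_smul, mul_max_of_nonneg _ _ (abs_nonneg c), mul_div_assoc]
  simp [abs_mul]

lemma isCompact_gau_le {lam : ℝ} (hlam : 0 < lam) (s : ℝ) :
    IsCompact {x : E3 | gau lam x ≤ s} := by
  refine Metric.isCompact_of_isClosed_isBounded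
    (isClosed_le (continuous_gau lam) continuous_const) ?_
  refine (isBounded_closedBall (x := (0 : E3)) (r := |s| * (1 + Real.sqrt lam))).subset ?_
  intro x hx
  rw [mem_closedBall, dist_zero_right]
  have h1 : |x 2| ≤ |s| := (abs_le_gau lam x).trans (le_trans hx (le_abs_self s))
  have h2 : lat x ≤ |s| * Real.sqrt lam := (lat_le_gau hlam x).trans
    (mul_le_mul_of_nonneg_right (le_trans hx (le_abs_self s)) (Real.sqrt_nonneg _))
  have h3 : ‖x‖ ≤ lat x + |x 2| := by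
    refine le_of_pow_le_pow_left₀ two_ne_zero (add_nonneg (lat_nonneg x) (abs_nonneg _)) ?_
    rw [norm_sq_eq_lat, add_sq, lat, Real.sq_sqrt (latSq_nonneg x), sq_abs]
    have := mul_nonneg (Real.sqrt_nonneg (latSq x)) (abs_nonneg (x 2))
    linarith
  linarith

lemma gau_e3 (lam : ℝ) : gau lam e3 = 1 := by
  simp [gau, lat, latSq, e3, Pi.single_apply]

/-- On every gauge level there is a point where a difference of two solutions is at least as large
as inside. -/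
lemma exists_level {lam : ℝ} (hlam : 0 < lam) (hC : CompHyp) {U : Set E3} (hU : IsOpen U)
    {f g : E3 → ℝ} (hf : IH f U) (hg : IH g U) {s : ℝ} (hs : 0 ≤ s)
    (hsU : ∀ x, gau lam x ≤ s → x ∈ U) {x : E3} (hx : gau lam x ≤ s) :
    ∃ z, gau lam z = s ∧ f x - g x ≤ f z - g z := by
  set L : Set E3 := {z | gau lam z = s} with hL
  have hLc : IsCompact L := (isCompact_gau_le hlam s).of_isClosed_subset
    (isClosed_eq (continuous_gau lam) continuous_const) (fun z hz => le_of_eq hz)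
  have hLne : L.Nonempty := ⟨s • e3, by simp [hL, gau_smul, gau_e3, abs_of_nonneg hs]⟩
  have hLU : L ⊆ U := fun z hz => hsU z (le_of_eq hz)
  obtain ⟨z, hz, hmax⟩ :=
    hLc.exists_isMaxOn hLne ((hf.1.1.mono hLU).sub (hg.1.1.mono hLU))
  refine ⟨z, hz, ?_⟩
  have hg' := hg.similar (LinearIsometryEquiv.refl ℝ E3) 0 one_pos one_pos (-(f z - g z))
  simp only [LinearIsometryEquiv.coe_refl, id_eq, one_smul, zero_add, sub_neg_eq_add, div_one,
    preimage_id'] at hg'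
  have h := hC U _ f _ hU (isCompact_gau_le hlam s) hsU hf hg' (fun y hy => ?_) x hx
  · linarith
  have hy' : gau lam y = s := frontier_le_subset_eq (continuous_gau lam) continuous_const hy
  have := hmax hy'
  simp only [mem_ofPred_eq, Pi.sub_apply] at this
  linarith

lemma lat_sq (x : E3) : lat x ^ 2 = latSq x := Real.sq_sqrt (latSq_nonneg x)

lemma lat_le_norm (x : E3) : lat x ≤ ‖x‖ := by
  refine le_of_pow_le_pow_left₀ two_ne_zero (norm_nonneg x) ?_
  rw [norm_sq_eq_lat, lat_sq]; nlinarith [sq_nonneg (x 2)]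

lemma abs_le_norm (x : E3) : |x 2| ≤ ‖x‖ := by
  refine le_of_pow_le_pow_left₀ two_ne_zero (norm_nonneg x) ?_
  rw [norm_sq_eq_lat, sq_abs]; linarith [latSq_nonneg x]

lemma abs_inner_le_split (a h : E3) : |⟪a, h⟫ - a 2 * h 2| ≤ lat a * lat h := by
  have e : ⟪a, h⟫ - a 2 * h 2 = a 0 * h 0 + a 1 * h 1 := by
    rw [← sum_mul_eq_inner, Fin.sum_univ_three]; ring
  rw [e, lat, lat, ← Real.sqrt_mul (latSq_nonneg a)]
  refine Real.le_sqrt_of_sq_le ?_
  unfold latSq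
  rw [sq_abs]
  nlinarith [sq_nonneg (a 0 * h 1 - a 1 * h 0)]

/-- the coordinates of `h` in the frame of a slightly tilted unit vector -/
lemma frame_bounds {a h : E3} {A lam : ℝ} (hA : 0 < A) (hlam : 0 < lam) (ha2 : 1 / 2 ≤ a 2)
    (hal : lat a ≤ A * Real.sqrt lam) :
    |⟪‖a‖⁻¹ • a, h⟫| ≤ |h 2| + 2 * A * Real.sqrt lam * lat h ∧
    ‖h - ⟪‖a‖⁻¹ • a, h⟫ • (‖a‖⁻¹ • a)‖ ≤ lat h + 2 * A * Real.sqrt lam * |h 2| ∧
    |h 2| ≤ |⟪‖a‖⁻¹ • a, h⟫| + ‖h - ⟪‖a‖⁻¹ • a, h⟫ • (‖a‖⁻¹ • a)‖ ∧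
    lat h ≤ 2 * A * Real.sqrt lam * |⟪‖a‖⁻¹ • a, h⟫|
      + ‖h - ⟪‖a‖⁻¹ • a, h⟫ • (‖a‖⁻¹ • a)‖ := by
  have hn2 : a 2 ≤ ‖a‖ := (le_abs_self _).trans (abs_le_norm a)
  have hna : 0 < ‖a‖ := by linarith
  set n : E3 := ‖a‖⁻¹ • a with hn
  have hn1 : ‖n‖ = 1 := by rw [hn, norm_smul, norm_inv, norm_norm, inv_mul_cancel₀ hna.ne']
  set c := ⟪n, h⟫ with hc
  have hlat : lat n ≤ 2 * A * Real.sqrt lam := by
    rw [hn, lat_smul, abs_of_pos (by positivity)]
    calc ‖a‖⁻¹ * lat a ≤ 2 * (A * Real.sqrt lam) := by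
          refine mul_le_mul ?_ hal (lat_nonneg a) (by norm_num)
          rw [inv_le_comm₀ hna two_pos]; linarith
      _ = _ := by ring
  refine ⟨?_, ?_, ?_, ?_⟩
  · have h1 := abs_inner_le_split n h
    have h2 : |n 2 * h 2| ≤ |h 2| := by
      rw [abs_mul]
      exact mul_le_of_le_one_left (abs_nonneg _) (hn1 ▸ abs_le_norm n)
    have h3 := mul_le_mul_of_nonneg_right hlat (lat_nonneg h)
    have h4 := abs_sub_abs_le_abs_sub c (n 2 * h 2)
    linarith
  · set v := h - (h 2 / a 2) • a with hv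
    have hv2 : v 2 = 0 := by simp [hv]; field_simp; ring
    have hmin : ‖h - c • n‖ ≤ ‖v‖ := by
      have ev : v = (h - c • n) + (c - h 2 / a 2 * ‖a‖) • n := by
        rw [hv, hn, smul_smul, smul_smul, sub_mul, mul_assoc _ ‖a‖, mul_inv_cancel₀ hna.ne',
          mul_one, sub_smul]
        abel
      have ho : ⟪h - c • n, (c - h 2 / a 2 * ‖a‖) • n⟫ = 0 := by
        rw [real_inner_smul_right, inner_sub_left, real_inner_smul_left,
          real_inner_self_eq_norm_sq, hn1, real_inner_comm n h, ← hc]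
        ring
      refine le_of_pow_le_pow_left₀ two_ne_zero (norm_nonneg v) ?_
      rw [ev, norm_add_sq_real, ho]
      nlinarith [sq_nonneg ‖(c - h 2 / a 2 * ‖a‖) • n‖]
    have hvlat : ‖v‖ = lat v := by
      rw [lat, ← Real.sqrt_sq (norm_nonneg v), norm_sq_eq_lat, hv2]; simp
    have h1 : lat v ≤ lat h + |h 2 / a 2| * lat a := by
      rw [hv, sub_eq_add_neg, ← neg_smul]
      refine (lat_add_le _ _).trans ?_
      rw [lat_smul, abs_neg]
    have h2 : |h 2 / a 2| * lat a ≤ 2 * |h 2| * (A * Real.sqrt lam) := by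
      refine mul_le_mul ?_ hal (lat_nonneg a) (by positivity)
      rw [abs_div, abs_of_pos (by linarith : 0 < a 2), div_le_iff₀ (by linarith)]
      nlinarith [abs_nonneg (h 2)]
    linarith
  · have h1 : h 2 = c * n 2 + (h - c • n) 2 := by simp
    have h2 : |c * n 2| ≤ |c| := by
      rw [abs_mul]; exact mul_le_of_le_one_right (abs_nonneg _) (hn1 ▸ abs_le_norm n)
    rw [h1]
    linarith [abs_add_le (c * n 2) ((h - c • n) 2), abs_le_norm (h - c • n)]
  · have h1 : h = c • n + (h - c • n) := by abel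
    have h2 := lat_add_le (c • n) (h - c • n)
    rw [← h1, lat_smul] at h2
    have h3 := mul_le_mul_of_nonneg_left hlat (abs_nonneg c)
    linarith [lat_le_norm (h - c • n)]

/-- The elementary inequalities behind the change of gauge. -/
lemma gauge_arith {A ρ s s' k2 kl H2 Hl G K : ℝ} (hA : 0 < A) (hρ : 0 < ρ) (hs : 0 < s)
    (hs1 : s ≤ 1) (hs' : 0 < s') (hs's : s' ≤ s) (hss' : s ≤ 8 * s') (hk2 : 0 ≤ k2) (hkl : 0 ≤ kl)
    (hHl : 0 ≤ Hl) (hρA : 8 * ρ * (1 + 2 * A) ≤ 1)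
    (c1 : ρ * k2 ≤ |H2| + 2 * A * s * Hl) (c2 : ρ * kl ≤ Hl + 2 * A * s * |H2|)
    (c3 : |H2| ≤ ρ * k2 + ρ * kl) (c4 : Hl ≤ 2 * A * s * (ρ * k2) + ρ * kl)
    (g2 : |H2| ≤ G) (gl : Hl ≤ G * s) (k2K : k2 ≤ K) (klK : kl ≤ K * s')
    (hsmall : 128 * (1 + 2 * A) * G ≤ ρ) :
    k2 ≤ 1 / 16 ∧ kl ≤ 1 / 16 * s' ∧ |H2| ≤ 2 * (1 + 2 * A) * (ρ * K) ∧
      Hl ≤ 2 * (1 + 2 * A) * (ρ * K) * s := by
  have hG : 0 ≤ G := (abs_nonneg _).trans g2
  have hρK : 0 ≤ ρ * K := mul_nonneg hρ.le (hk2.trans k2K)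
  have hAs : 0 ≤ 2 * A * s := by positivity
  have hAs1 : 2 * A * s ≤ 2 * A := mul_le_of_le_one_right (by linarith) hs1
  have hGs : G * s ≤ G := mul_le_of_le_one_right hG hs1
  have p1 : 2 * A * s * Hl ≤ 2 * A * G := mul_le_mul hAs1 (gl.trans hGs) hHl (by linarith)
  have p2 : 2 * A * s * |H2| ≤ 2 * A * s * G := mul_le_mul_of_nonneg_left g2 hAs
  have p3 : (1 + 2 * A) * G * s ≤ (1 + 2 * A) * G * (8 * s') :=
    mul_le_mul_of_nonneg_left hss' (by positivity)
  have p4 := mul_le_mul_of_nonneg_right hsmall hs'.le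
  have p5 : ρ * k2 ≤ ρ * K := mul_le_mul_of_nonneg_left k2K hρ.le
  have p6 : ρ * kl ≤ ρ * K * s := by
    rw [mul_assoc]
    exact mul_le_mul_of_nonneg_left (klK.trans
      (mul_le_mul_of_nonneg_left hs's (hk2.trans k2K))) hρ.le
  have p7 : 2 * A * s * (ρ * k2) ≤ 2 * A * s * (ρ * K) := mul_le_mul_of_nonneg_left p5 hAs
  have p8 : ρ * K * s ≤ ρ * K := mul_le_of_le_one_right hρK hs1
  have p9 : 0 ≤ A * (ρ * K) := mul_nonneg hA.le hρK
  have p10 : 0 ≤ A * (ρ * K) * s := mul_nonneg p9 hs.le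
  have p11 : 0 ≤ ρ * K * s := mul_nonneg hρK hs.le
  refine ⟨?_, ?_, ?_, ?_⟩
  · refine le_of_mul_le_mul_left ?_ hρ; linarith
  · refine le_of_mul_le_mul_left ?_ hρ; linarith
  · linarith
  · linarith

/-- The inductive step at one point with an improved configuration. -/
lemma step_point {A lam C0 τ ρ b : ℝ} {u : E3 → ℝ} {U : Set E3} {a P h : E3}
    (hA : 0 < A) (hlam : 0 < lam) (hlam1 : lam ≤ 1) (hC0 : 0 ≤ C0) (hρ : 0 < ρ)
    (hρA : 8 * ρ * (1 + 2 * A) ≤ 1) (ha : |a 2 - 1| ≤ A * lam) (hAl : A * lam ≤ 1 / 2)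
    (hAs : A * Real.sqrt lam ≤ 1 / 2) (hal : lat a ≤ A * Real.sqrt lam)
    (hU : IsOpen U) (hu : IH u U) (hboxU : box lam ⊆ U)
    (hflat : ∀ z ∈ ocyl a P ρ (R0 * Real.sqrt (lam / 32) * ρ),
      z ∈ box lam ∧ |u z - (⟪a, z⟫ + b)| ≤ lam / 64 * ρ)
    (ih : SlopeAt C0 lam (2 * τ)) (hτ : τ ≤ gau lam h)
    (hsmall : 128 * (1 + 2 * A) * gau lam h ≤ ρ) :
    |u (P + h) - u P - ⟪a, h⟫| ≤ 2 * (C0 * (lam / 32) * (|h 2| + 2 * A * Real.sqrt lam * lat h)
      + Real.sqrt (C0 * (lam / 32)) * (lat h + 2 * A * Real.sqrt lam * |h 2|)) := by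
  have ha2 := abs_le.1 ha
  have hn2 : a 2 ≤ ‖a‖ := (le_abs_self _).trans (abs_le_norm a)
  have hna : 0 < ‖a‖ := by linarith
  have hna2 : ‖a‖ ≤ 2 := by
    refine le_of_pow_le_pow_left₀ two_ne_zero (by norm_num) ?_
    rw [norm_sq_eq_lat, ← lat_sq]
    nlinarith [lat_nonneg a]
  obtain ⟨O, hO⟩ := exists_isometry_e3 (n := ‖a‖⁻¹ • a)
    (by rw [norm_smul, norm_inv, norm_norm, inv_mul_cancel₀ hna.ne'])
  have hz2 : ∀ z : E3, ⟪‖a‖⁻¹ • a, ρ • O z⟫ = ρ * z 2 := fun z => by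
    rw [← hO, real_inner_smul_right, O.inner_map_map]
    simp [e3, EuclideanSpace.inner_single_left]
  have hzl : ∀ z : E3, ‖ρ • O z - ⟪‖a‖⁻¹ • a, ρ • O z⟫ • (‖a‖⁻¹ • a)‖ = ρ * lat z := fun z => by
    rw [hz2, ← hO, ← map_smul, ← map_smul, ← map_sub, O.norm_map, ← smul_smul, ← smul_sub,
      norm_smul, Real.norm_eq_abs, abs_of_pos hρ, lat, ← Real.sqrt_sq (norm_nonneg _),
      norm_sq_eq_lat]
    simp [latSq, e3, Pi.single_apply]
  set lam' := lam / 32 with hlam'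
  have hlam'0 : 0 < lam' := by positivity
  set v : E3 → ℝ := fun z => (u (P + ρ • O z) - (⟪a, P⟫ + b)) / (‖a‖ * ρ) with hv
  have hmem : ∀ z ∈ box lam', P + ρ • O z ∈ ocyl a P ρ (R0 * Real.sqrt (lam / 32) * ρ) := by
    intro z hz
    simp only [ocyl, mem_ofPred_eq, add_sub_cancel_left]
    rw [hzl, hz2, abs_mul, abs_of_pos hρ]
    exact ⟨mul_le_of_le_one_right hρ.le hz.1,
      (mul_le_mul_of_nonneg_left hz.2 hρ.le).trans (le_of_eq (by rw [hlam']; ring))⟩
  have hconf : Conf lam' v := by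
    refine ⟨(fun z => P + ρ • O z) ⁻¹' U, hU.preimage (by fun_prop),
      hu.similar O P hρ (mul_pos hna hρ) _, fun z hz => hboxU (hflat _ (hmem z hz)).1,
      fun z hz => ?_⟩
    have hb := (hflat _ (hmem z hz)).2
    have e : ⟪a, ρ • O z⟫ = ‖a‖ * ρ * z 2 := by
      have := hz2 z
      rw [real_inner_smul_left, inv_mul_eq_iff_eq_mul₀ hna.ne'] at this
      rw [this]; ring
    rw [inner_add_right, e] at hb
    rw [hv, div_sub' (mul_pos hna hρ).ne', abs_div, abs_of_pos (mul_pos hna hρ),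
      div_le_iff₀ (mul_pos hna hρ)]
    calc _ = |u (P + ρ • O z) - (⟪a, P⟫ + ‖a‖ * ρ * z 2 + b)| := by congr 1; ring
      _ ≤ lam / 64 * ρ := hb
      _ ≤ _ := by rw [hlam']; nlinarith [mul_pos hlam hρ]
  set k : E3 := ρ⁻¹ • O.symm h with hk
  have hOk : ρ • O k = h := by
    rw [hk, map_smul, O.apply_symm_apply, smul_smul, mul_inv_cancel₀ hρ.ne', one_smul]
  obtain ⟨hc1, hc2, hc3, hc4⟩ := frame_bounds (h := h) hA hlam (a := a) (by linarith) hal
  have hk2 : |⟪‖a‖⁻¹ • a, h⟫| = ρ * |k 2| := by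
    rw [← hOk, hz2, abs_mul, abs_of_pos hρ]
  have hkl : ‖h - ⟪‖a‖⁻¹ • a, h⟫ • (‖a‖⁻¹ • a)‖ = ρ * lat k := by
    rw [← hOk]; exact hzl k
  rw [hk2] at hc1 hc3 hc4
  rw [hkl] at hc2 hc3 hc4
  set G := gau lam h with hG
  set K := gau lam' k with hK
  set s := Real.sqrt lam with hs
  have hs0 : 0 < s := Real.sqrt_pos.2 hlam
  have hs1 : s ≤ 1 := Real.sqrt_le_one.2 hlam1
  set s' := Real.sqrt lam' with hs'
  have hs'0 : 0 < s' := Real.sqrt_pos.2 hlam'0
  have hs's : s' ≤ s := Real.sqrt_le_sqrt (by linarith)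
  have hss' : s ≤ 8 * s' := by
    rw [hs, hs', show (8:ℝ) = Real.sqrt 64 by
      rw [show (64:ℝ) = 8 ^ 2 by norm_num, Real.sqrt_sq (by norm_num)],
      ← Real.sqrt_mul (by norm_num)]
    exact Real.sqrt_le_sqrt (by linarith)
  have hG0 : 0 ≤ G := gau_nonneg _ _
  have hK0 : 0 ≤ K := gau_nonneg _ _
  have hh2 : |h 2| ≤ G := abs_le_gau _ _
  have hhl : lat h ≤ G * s := lat_le_gau hlam h
  have hk2' : |k 2| ≤ K := abs_le_gau _ _
  have hkl' : lat k ≤ K * s' := lat_le_gau hlam'0 k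
  obtain ⟨hup, hlow⟩ : K ≤ 1 / 16 ∧ 2 * τ ≤ K := by
    have h := gauge_arith hA hρ hs0 hs1 hs'0 hs's hss' (abs_nonneg (k 2)) (lat_nonneg k)
      (lat_nonneg h) hρA hc1 hc2 hc3 hc4 hh2 hhl hk2' hkl' hsmall
    refine ⟨max_le h.1 ((div_le_iff₀ hs'0).2 h.2.1), ?_⟩
    have hmax : G ≤ 2 * (1 + 2 * A) * (ρ * K) := max_le h.2.2.1 ((div_le_iff₀ hs0).2 h.2.2.2)
    calc 2 * τ ≤ 2 * G := by linarith
      _ ≤ 2 * (2 * (1 + 2 * A) * (ρ * K)) := by linarith
      _ = 8 * ρ * (1 + 2 * A) * K / 2 := by ring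
      _ ≤ 1 * K / 2 := div_le_div_of_nonneg_right (mul_le_mul_of_nonneg_right hρA hK0) two_pos.le
      _ ≤ K := by linarith
  have key := ih lam' v hlam'0 (by linarith) hconf 0 k (by simp [gau, lat, latSq]) hlow hup
  simp only [hv, zero_add, map_zero, smul_zero, add_zero, hOk] at key
  have hmul := mul_le_mul_of_nonneg_left key (mul_pos hna hρ).le
  rw [← abs_of_pos (mul_pos hna hρ), ← abs_mul, abs_of_pos (mul_pos hna hρ)] at hmul
  have e : ‖a‖ * ρ * ((u (P + h) - (⟪a, P⟫ + b)) / (‖a‖ * ρ)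
      - (u P - (⟪a, P⟫ + b)) / (‖a‖ * ρ) - k 2) = u (P + h) - u P - ⟪a, h⟫ := by
    have : ⟪a, h⟫ = ‖a‖ * (ρ * k 2) := by
      have := hz2 k
      rw [hOk, real_inner_smul_left, inv_mul_eq_iff_eq_mul₀ hna.ne'] at this
      exact this
    rw [this]; field_simp; ring
  rw [e] at hmul
  refine hmul.trans ?_
  rw [mul_assoc ‖a‖ ρ]
  have hl0 : 0 ≤ lat k := lat_nonneg k
  refine mul_le_mul hna2 ?_ (by positivity) (by norm_num)
  calc ρ * (C0 * lam' * |k 2| + Real.sqrt (C0 * lam') * lat k)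
      = C0 * lam' * (ρ * |k 2|) + Real.sqrt (C0 * lam') * (ρ * lat k) := by ring
    _ ≤ _ := add_le_add (mul_le_mul_of_nonneg_left hc1 (by positivity))
        (mul_le_mul_of_nonneg_left hc2 (Real.sqrt_nonneg _))

lemma SlopeAt.mono {C0 lam0 lam0' τ : ℝ} (h : SlopeAt C0 lam0 τ) (hl : lam0' ≤ lam0) :
    SlopeAt C0 lam0' τ := fun lam u h1 h2 => h lam u h1 (h2.trans hl)

/-- The elementary inequalities closing the induction. -/
lemma step_arith {A Q lam s r H L w z v : ℝ} (hA : 0 < A) (hQA : 8 * (A + 1) ≤ Q) (hs : 0 ≤ s)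
    (hss : s * s = lam) (hAs : A * s ≤ 1 / 2) (hAl : A * lam ≤ 1 / 2)
    (hlQ : lam * (Q * (A + 1)) ≤ 1) (hH : 0 ≤ H) (hL : 0 ≤ L)
    (hr : 0 ≤ r) (hr5 : r ≤ Q * s / 5)
    (hb : |w - z| ≤ 2 * (Q ^ 2 * (lam / 32) * (H + 2 * A * s * L) + r * (L + 2 * A * s * H)))
    (hd : |z - v| ≤ A * lam * H + A * s * L) :
    |w - v| ≤ Q ^ 2 * lam * H + Q * s * L := by
  have hQ : 8 ≤ Q := by linarith
  have hl : 0 ≤ lam := hss ▸ mul_self_nonneg s
  have m1 : r * L ≤ Q * s / 5 * L := mul_le_mul_of_nonneg_right hr5 hL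
  have m2 : r * (2 * A * s * H) ≤ Q * s / 5 * (2 * A * s * H) :=
    mul_le_mul_of_nonneg_right hr5 (by positivity)
  have m3 : Q * s / 5 * (2 * A * s * H) = 2 / 5 * (Q * A) * (lam * H) := by rw [← hss]; ring
  have m4 : A * (lam * H) ≤ Q ^ 2 / 8 * (lam * H) :=
    mul_le_mul_of_nonneg_right (by nlinarith) (by positivity)
  have m5 : Q * A * (lam * H) ≤ Q ^ 2 / 8 * (lam * H) :=
    mul_le_mul_of_nonneg_right (by nlinarith) (by positivity)
  have m6 : A * (s * L) ≤ Q / 8 * (s * L) :=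
    mul_le_mul_of_nonneg_right (by linarith) (by positivity)
  have m7 : Q * (A * lam) * Q * (s * L) ≤ 1 * Q * (s * L) :=
    mul_le_mul_of_nonneg_right (mul_le_mul_of_nonneg_right (by nlinarith) (by linarith))
      (by positivity)
  have m8 : 0 ≤ Q ^ 2 * (lam * H) := by positivity
  have m9 : 0 ≤ Q * (s * L) := by have : 0 ≤ Q := by linarith
                                  positivity
  have := abs_sub_le w z v
  linarith

theorem slope_bound (hS : StepHyp) (hC : CompHyp) :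
    ∃ C0 lam0, 0 < C0 ∧ 0 < lam0 ∧ ∀ τ, 0 < τ → SlopeAt C0 lam0 τ := by
  obtain ⟨A, lam1, ρmin, N, hA, hlam1, hρmin, hN, hstep⟩ := hS
  set τ0 := ρmin / (128 * (1 + 2 * A)) with hτ0
  have hτ0p : 0 < τ0 := by positivity
  set Q := 8 * (A + 1) + 2 / τ0 with hQ
  have hQA : 8 * (A + 1) ≤ Q := by
    have : 0 ≤ 2 / τ0 := by positivity
    linarith
  have hQτ : 2 / τ0 ≤ Q := by linarith
  have hQ1 : 1 ≤ Q := by linarith
  have hQ0 : 0 < Q := by linarith
  set lam0 := min (min lam1 1) (min (1 / (4 * (A + 1) ^ 2)) (1 / (Q * (A + 1)))) with hlam0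
  have hlam0p : 0 < lam0 := by positivity
  refine ⟨Q ^ 2, lam0, by positivity, hlam0p, fun τ hτ => ?_⟩
  suffices H : ∀ n : ℕ, SlopeAt (Q ^ 2) lam0 (τ0 / 2 ^ n) by
    obtain ⟨n, hn⟩ := pow_unbounded_of_one_lt (τ0 / τ) (by norm_num : (1:ℝ) < 2)
    intro lam u h1 h2 h3 x h h4 h5 h6
    refine H n lam u h1 h2 h3 x h h4 ?_ h6
    refine le_trans ?_ h5
    rw [div_lt_iff₀ hτ] at hn
    rw [div_le_iff₀ (by positivity)]; linarith
  have triv : ∀ lam u, 0 < lam → lam ≤ lam0 → Conf lam u → ∀ x h : E3, gau lam x ≤ 1 / 8 →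
      τ0 ≤ gau lam h → gau lam h ≤ 1 / 16 →
      |u (x + h) - u x - h 2| ≤ Q ^ 2 * lam * |h 2| + Real.sqrt (Q ^ 2 * lam) * lat h := by
    intro lam u hlam _ hu x h hx hτ hh
    obtain ⟨U, _, _, _, hflat⟩ := hu
    have h1 := abs_le.1 (hflat _ (mem_box_of_gau hlam (le_trans hx (by norm_num))))
    have h2 := abs_le.1 (hflat _ (mem_box_of_gau hlam (x := x + h)
      ((gau_add_le x h).trans (by linarith))))
    simp only [PiLp.add_apply] at h2
    rw [Real.sqrt_mul (sq_nonneg Q), Real.sqrt_sq hQ0.le]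
    have h3 : |u (x + h) - u x - h 2| ≤ 2 * lam := by rw [abs_le]; constructor <;> linarith
    refine h3.trans ?_
    have h4 : 2 ≤ Q * gau lam h := by
      have := mul_le_mul hQτ hτ hτ0p.le hQ0.le
      rwa [div_mul_cancel₀ _ hτ0p.ne'] at this
    have hl2 : lam = Real.sqrt lam * Real.sqrt lam := (Real.mul_self_sqrt hlam.le).symm
    rcases le_total |h 2| (lat h / Real.sqrt lam) with hm | hm
    · rw [gau, max_eq_right hm, ← mul_div_assoc, le_div_iff₀ (Real.sqrt_pos.2 hlam)] at h4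
      have h5 := mul_le_mul_of_nonneg_right h4 (Real.sqrt_nonneg lam)
      have h6 : 0 ≤ Q ^ 2 * lam * |h 2| := by positivity
      nlinarith
    · rw [gau, max_eq_left hm] at h4
      have h5 := mul_le_mul_of_nonneg_right h4 hlam.le
      have h6 : Q * |h 2| * lam ≤ Q ^ 2 * |h 2| * lam := by
        refine mul_le_mul_of_nonneg_right (mul_le_mul_of_nonneg_right ?_ (abs_nonneg _)) hlam.le
        nlinarith
      have h7 : 0 ≤ Q * Real.sqrt lam * lat h := mul_nonneg (by positivity) (lat_nonneg h)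
      nlinarith
  intro n
  induction n with
  | zero => intro lam u h1 h2 h3 x h h4 h5 h6; exact triv lam u h1 h2 h3 x h h4 (by simpa using h5) h6
  | succ n ih =>
    intro lam u hlam hle hu x h hx hτn hh
    by_cases hbig : τ0 ≤ gau lam h
    · exact triv lam u hlam hle hu x h hx hbig hh
    rw [not_le] at hbig
    have hl1 : lam ≤ lam1 := hle.trans ((min_le_left _ _).trans (min_le_left _ _))
    have hlone : lam ≤ 1 := hle.trans ((min_le_left _ _).trans (min_le_right _ _))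
    have hlA : lam ≤ 1 / (4 * (A + 1) ^ 2) := hle.trans ((min_le_right _ _).trans (min_le_left _ _))
    have hlQ : lam ≤ 1 / (Q * (A + 1)) := hle.trans ((min_le_right _ _).trans (min_le_right _ _))
    rw [le_div_iff₀ (by positivity)] at hlA hlQ
    set s := Real.sqrt lam with hs
    have hs0 : 0 ≤ s := Real.sqrt_nonneg _
    have hss : s * s = lam := Real.mul_self_sqrt hlam.le
    have hAs : A * s ≤ 1 / 2 := by nlinarith
    have hAl : A * lam ≤ 1 / 2 := by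
      calc A * lam = A * s * s := by rw [mul_assoc, hss]
        _ ≤ 1 / 2 * 1 := mul_le_mul hAs (Real.sqrt_le_one.2 hlone) hs0 (by norm_num)
        _ = 1 / 2 := mul_one _
    obtain ⟨U, hU, huU, hboxU, hflat⟩ := hu
    set V := U ∩ (fun z => z + h) ⁻¹' U with hV
    have hVo : IsOpen V := hU.inter (hU.preimage (by fun_prop))
    have hres : ∀ {f : E3 → ℝ} {W : Set E3}, IH f W → V ⊆ W → IH f V := fun hf hW =>
      ⟨⟨hf.1.1.mono hW, fun z hz => hf.1.2 z (hW hz)⟩,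
        ⟨hf.2.1.mono hW, fun z hz => hf.2.2 z (hW hz)⟩⟩
    have hu0 : IH u V := hres huU inter_subset_left
    have hu1 : IH (fun z => u (z + h)) V := hres (huU.translate h) inter_subset_right
    have hVlev : ∀ z, gau lam z ≤ 1 / 4 → z ∈ V := fun z hz =>
      ⟨hboxU (mem_box_of_gau hlam (hz.trans (by norm_num))),
        hboxU (mem_box_of_gau hlam ((gau_add_le z h).trans (by linarith)))⟩
    -- the bound at the good point
    have core : ∀ f g : E3 → ℝ, IH f V → IH g V →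
        ∃ P : E3, f x - g x ≤ f P - g P ∧
          |u (P + h) - u P - h 2| ≤ Q ^ 2 * lam * |h 2| + Real.sqrt (Q ^ 2 * lam) * lat h := by
      intro f g hf hg
      have hlev : ∀ i : Fin N, ∃ z, gau lam z = 1 / 8 + (i : ℝ) / (8 * N) ∧ f x - g x ≤ f z - g z := by
        intro i
        have h0 : (0 : ℝ) ≤ (i : ℝ) / (8 * N) := by positivity
        have h8 : (i : ℝ) / (8 * N) ≤ 1 / 8 := by
          rw [div_le_iff₀ (by positivity)]
          have : ((i : ℕ) : ℝ) ≤ N := by exact_mod_cast i.2.le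
          linarith
        exact exists_level hlam hC hVo hf hg (by linarith)
          (fun z hz => hVlev z (by linarith)) (by linarith)
      choose P hP1 hP2 using hlev
      obtain ⟨i, a, b, ρ, hρ, hρA, ha2, hal, hfl⟩ :=
        hstep lam u hlam hl1 ⟨U, hU, huU, hboxU, hflat⟩ P hP1
      refine ⟨P i, hP2 i, ?_⟩
      have hsmall : 128 * (1 + 2 * A) * gau lam h ≤ ρ := by
        rw [hτ0, lt_div_iff₀ (by positivity)] at hbig
        linarith
      have hb := step_point (τ := τ0 / 2 ^ (n + 1)) hA hlam hlone (sq_nonneg Q)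
        (hρmin.trans_le hρ) hρA ha2 hAl hAs hal hU huU hboxU hfl
        (by
          have e : 2 * (τ0 / 2 ^ (n + 1)) = τ0 / 2 ^ n := by rw [pow_succ]; field_simp
          rw [e]; exact ih.mono hle) hτn hsmall
      rw [← hs] at hb hal
      have e32 : Real.sqrt (Q ^ 2 * (lam / 32)) ≤ Q * s / 5 := by
        rw [Real.sqrt_le_left (by positivity)]
        have : (Q * s / 5) ^ 2 = Q ^ 2 * lam / 25 := by rw [div_pow, mul_pow, sq s, hss]; ring
        rw [this]; nlinarith [sq_nonneg Q]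
      rw [Real.sqrt_mul (sq_nonneg Q), Real.sqrt_sq hQ0.le, ← hs]
      have hd : |⟪a, h⟫ - h 2| ≤ A * lam * |h 2| + A * s * lat h := by
        have h1 := abs_inner_le_split a h
        have h2 : |(a 2 - 1) * h 2| ≤ A * lam * |h 2| := by
          rw [abs_mul]; exact mul_le_mul_of_nonneg_right ha2 (abs_nonneg _)
        have h3 := mul_le_mul_of_nonneg_right hal (lat_nonneg h)
        calc |⟪a, h⟫ - h 2| = |(⟪a, h⟫ - a 2 * h 2) + (a 2 - 1) * h 2| := by ring_nf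
          _ ≤ _ := (abs_add_le _ _).trans (by linarith)
      exact step_arith hA hQA hs0 hss hAs hAl hlQ (abs_nonneg (h 2)) (lat_nonneg h)
        (Real.sqrt_nonneg _) e32 hb hd
    obtain ⟨P, hP, hPb⟩ := core _ _ hu1 hu0
    obtain ⟨P', hP', hPb'⟩ := core _ _ hu0 hu1
    rw [abs_le] at hPb hPb' ⊢
    constructor <;> linarith

end Vale.Agent.P080.C1
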